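import Vale.Agent.P225.Assembly.CapLink
import Vale.Agent.P225.Geom.CapEnd

/-!
P225 assembly (helper27): the cap weights `capWt κ T` satisfy `CapCore` for large `T`.
-/

namespace Vale.Agent.P225

open Filter Set
open scoped Topology ContDiff

noncomputable section

/-- The variable `capU` as a function of `ρ = e^{2t}`. -/
def capUr (ρ : ℝ) : ℝ := (1 + ρ) ^ (-(1 / 4) : ℝ)

theorem capU_eq_capUr (t : ℝ) : capU t = capUr (Cap.rho t) := rfl

theorem capUr_zero : capUr 0 = 1 := by simp [capUr]

theorem differentiableAt_capUr : DifferentiableAt ℝ capUr 0 :=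
  (((hasDerivAt_id (0 : ℝ)).const_add 1).rpow_const (Or.inl (by simp))).differentiableAt

theorem exists_lim_of_differentiableAt {f g : ℝ → ℝ} {a : ℝ} (hg : DifferentiableAt ℝ g 0)
    (ha : g 0 = a) (hf : ∀ᶠ t in atBot, f t = g (Cap.rho t)) :
    ∃ L, Tendsto (fun t => (f t - a) / Cap.rho t) atBot (𝓝 L) := by
  refine ⟨deriv g 0, (hg.hasDerivAt.tendsto_slope_zero_right.comp
    (tendsto_nhdsWithin_iff.2 ⟨Cap.tendsto_rho,
      Eventually.of_forall fun t => Cap.rho_pos t⟩)).congr' ?_⟩
  filter_upwards [hf] with t ht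
  simp [ht, ha, smul_eq_mul]
  ring

theorem exp_capB0 (t : ℝ) : Real.exp (-2 * capB0 t) = Real.exp (-2 * (Real.log (capP (capUr
    (Cap.rho t))) + Real.log (capQ (capUr (Cap.rho t))) + Real.log (1 + Cap.rho t) / 2))
      * Cap.rho t := by
  simp only [capB0, Cap.rho, ← Real.exp_add]
  congr 1
  rw [capU_eq_capUr, Cap.rho]
  ring

/-- Derivative of an interpolated logarithm. -/
theorem deriv_move_le {κ T t f₁ f₂ : ℝ} {f fd : ℝ → ℝ} (hf : ∀ s, HasDerivAt f (fd s) s)
    (hfd : HasDerivAt fd f₂ t) (ht : 0 < t) (h1 : f₁ = fd t) {C : ℝ}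
    (hC : |deriv capStep ((t - T) / T) / T| ≤ C) (hp : |f₁| ≤ 1 / 20)
    (hg1 : |-(κ / 32) * t ^ (-(9 / 8) : ℝ)| ≤ 1 / 20) (hG : |Real.log (dFun κ t) / 4 - f t| ≤ 1)
    (hC1 : C ≤ 1 / 20) :
    |deriv (fun s => f s + capChi T s * (Real.log (dFun κ s) / 4 - f s)) t| ≤ 1 / 5 := by
  have hg : ∀ᶠ s in 𝓝 t, HasDerivAt (fun r => Real.log (dFun κ r) / 4)
      (-(κ / 32) * s ^ (-(9 / 8) : ℝ)) s :=
    (eventually_gt_nhds ht).mono fun s hs => (hasDerivAt_quarterLog κ hs).1
  rw [(hasDerivAt_move (T := T) (Eventually.of_forall hf) hg hfd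
    (hasDerivAt_quarterLog κ ht).2).1.deriv, ← h1]
  have a1 : |deriv capStep ((t - T) / T) / T * (Real.log (dFun κ t) / 4 - f t)| ≤ 1 / 20 := by
    rw [abs_mul]
    exact (mul_le_of_le_one_right (abs_nonneg _) hG).trans (hC.trans hC1)
  have a2 : |capChi T t * (-(κ / 32) * t ^ (-(9 / 8) : ℝ) - f₁)| ≤ 1 / 10 := by
    rw [abs_mul, capChi, abs_of_nonneg (capStep_nonneg _)]
    exact (mul_le_of_le_one_left (abs_nonneg _) (capStep_le_one _)).trans
      ((abs_sub _ _).trans (by linarith))
  refine (abs_add_le _ _).trans ?_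
  linarith [abs_add_le (deriv capStep ((t - T) / T) / T * (Real.log (dFun κ t) / 4 - f t))
    (capChi T t * (-(κ / 32) * t ^ (-(9 / 8) : ℝ) - f₁))]

/-- **The cap weights satisfy `CapCore`.** -/
theorem capCore_capWt {κ : ℝ} (hκ : 0 ≤ κ) :
    ∀ᶠ T in atTop, ∀ C : CapData κ, C.W = capWt κ T → CapCore C := by
  obtain ⟨B, hB0, hB⟩ := capStep_bound
  obtain ⟨hlim1, hlim2, hlim3, hlim4⟩ := capLimit
  obtain ⟨hpL, hqL, -, -⟩ := tendsto_cap_slopes
  have hev : ∀ {f : ℝ → ℝ} {l : ℝ} {e : ℝ}, 0 < e → Tendsto f atTop (𝓝 l) →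
      ∀ᶠ t in atTop, |f t - l| ≤ e :=
    fun he h => (h.eventually (Metric.closedBall_mem_nhds _ he)).mono fun t ht => ht
  have hg1 : Tendsto (fun t => -(κ / 32) * t ^ (-(9 / 8) : ℝ)) atTop (𝓝 0) := by
    simpa using (tendsto_rpow_neg_atTop (by norm_num : (0 : ℝ) < 9 / 8)).const_mul (-(κ / 32))
  have hlo : Real.log dMin / 4 < 0 := by linarith
  obtain ⟨t₀, ht₀⟩ := eventually_atTop.1 ((hev (e := 1 / 10) (by norm_num) tendsto_capA0).and
    ((hev (e := 1 / 10) (by norm_num) tendsto_capB0).and
      ((hev (e := 1 / 20) (by norm_num) hpL).and ((hev (e := 1 / 20) (by norm_num) hqL).and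
        ((hev (e := 1 / 20) (by norm_num) hg1).and
          ((hev (e := min (1 / 10) (-(Real.log dMin / 4))) (lt_min (by norm_num) (by linarith))
            (tendsto_quarterLog κ)).and (eventually_ge_atTop (1 : ℝ))))))))
  filter_upwards [eventually_ge_atTop t₀, eventually_ge_atTop (20 * B), eventually_ge_atTop (1 : ℝ)]
    with T hTt₀ hTB hT1 C hW
  have hT : 0 < T := by linarith
  have hu : ∀ t, 0 ≤ capU t := fun t => (capU_pos t).le
  have hP1 : ∀ u, 0 ≤ u → u ≤ 1 → capP u ≤ 1 := fun u h0 h1 => by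
    unfold capP; nlinarith [mul_le_mul h1 h1 h0 zero_le_one]
  have hχ : ∀ t, 0 ≤ capChi T t ∧ capChi T t ≤ 1 := fun t =>
    ⟨capStep_nonneg _, capStep_le_one _⟩
  have hleft : ∀ t ≤ T, capA κ T t = capA0 t ∧ capB κ T t = capB0 t := fun t ht => by
    simp [capA, capB, capChi_of_le hT ht]
  have hdA : ContDiff ℝ 1 (capA κ T) := contDiff_move contDiff_capA0 hT
  have hdB : ContDiff ℝ 1 (capB κ T) := contDiff_move contDiff_capB0 hT
  have hdrift : ∀ t, capDrift C t = 5 + 3 * (deriv (capA κ T) t + deriv (capB κ T) t) := by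
    intro t
    have hv : capVol C = fun s => Real.exp (-6 * (capA κ T s + capB κ T s)) := by
      funext s
      rw [capVol, hW]
      simp only [wdet, capWt, diagW, Matrix.cons_val_zero, Matrix.cons_val_one, Matrix.cons_val]
      rw [mul_zero, mul_zero, add_zero, add_zero, ← Real.exp_add, ← Real.exp_nat_mul]
      congr 1; push_cast; ring
    have hder : HasDerivAt (fun s => Real.exp (-6 * (capA κ T s + capB κ T s))) _ t :=
      ((((hdA.differentiable one_ne_zero t).hasDerivAt).add
        ((hdB.differentiable one_ne_zero t).hasDerivAt)).const_mul (-6)).exp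
    rw [capDrift, hv, hder.deriv]
    simp only [Pi.add_apply]
    field_simp
    ring
  have hlow : ∀ t < T, deriv (capA κ T) t = capp (capU t) ∧ deriv (capB κ T) t = capq (capU t) :=
    fun t ht => ⟨by
      rw [Filter.EventuallyEq.deriv_eq ((gt_mem_nhds ht).mono fun s hs => (hleft s (le_of_lt hs)).1)]
      exact (hasDerivAt_capA0 t).deriv, by
      rw [Filter.EventuallyEq.deriv_eq ((gt_mem_nhds ht).mono fun s hs => (hleft s (le_of_lt hs)).2)]
      exact (hasDerivAt_capB0 t).deriv⟩
  refine ⟨hκ, fun t => by rw [hW]; exact capWt_two κ T t, fun t => ?_, fun t => ?_, fun t => ?_,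
    fun j => ?_, ?_⟩
  · rw [hW]
    show 1 ≤ Real.exp (-2 * capA κ T t)
    refine Real.one_le_exp ?_
    have hA0 : capA0 t ≤ 0 :=
      Real.log_nonpos (capP_pos (hu t)).le (hP1 _ (hu t) (capU_le_one t))
    rcases le_or_gt t T with h | h
    · rw [(hleft t h).1]; linarith
    · obtain ⟨-, -, -, -, -, hq, -⟩ := ht₀ t (by linarith)
      have hq0 : Real.log (dFun κ t) / 4 ≤ 0 := by
        linarith [(abs_le.1 hq).2, min_le_right (1 / 10 : ℝ) (-(Real.log dMin / 4))]
      have h3 : capA κ T t ≤ 0 := by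
        rw [capA, show capA0 t + capChi T t * (Real.log (dFun κ t) / 4 - capA0 t)
          = (1 - capChi T t) * capA0 t + capChi T t * (Real.log (dFun κ t) / 4) by ring]
        exact add_nonpos (mul_nonpos_of_nonneg_of_nonpos (by linarith [(hχ t).2]) hA0)
          (mul_nonpos_of_nonneg_of_nonpos (hχ t).1 hq0)
      linarith
  · rw [hW]
    exact (Real.exp_pos _).le
  · rw [hdrift]
    rcases lt_or_ge t T with h | h
    · rw [(hlow t h).1, (hlow t h).2]
      set u := capU t
      have u0 : 0 ≤ u := hu t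
      have u1 : u ≤ 1 := capU_le_one t
      have u4 : 0 ≤ 1 - u ^ 4 := sub_nonneg.2 (pow_le_one₀ u0 u1)
      have hP := capP_pos u0
      have hp : -(657 / 1000 * (1 - u ^ 4)) ≤ capp u := by
        rw [capp, le_div_iff₀ (by linarith)]
        have e1 : capP1 u ≤ 657 / 1000 * (2 * capP u) := by
          unfold capP1 capP; nlinarith
        have e2 : u * (1 - u ^ 4) ≤ 1 - u ^ 4 := mul_le_of_le_one_left u4 u1
        have e3 := mul_le_mul e2 e1 (by unfold capP1; positivity) u4
        linarith
      have hq : 0 ≤ capqQ u := by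
        have := capQ_pos u0 u1
        unfold capqQ
        positivity
      unfold capq
      have hu4 : 0 ≤ u ^ 4 := pow_nonneg u0 4
      linarith
    · obtain ⟨eA, eB, ep, eq', eg, eG, ht1⟩ := ht₀ t (le_trans hTt₀ h)
      rw [sub_zero] at ep eq' eg
      have eG' := abs_le.1 (eG.trans (min_le_left _ _))
      have hC : |deriv capStep ((t - T) / T) / T| ≤ B / T := by
        rw [abs_div, abs_of_pos hT]
        exact div_le_div_of_nonneg_right (hB _).1 hT.le
      have hBT : B / T ≤ 1 / 20 := by rw [div_le_iff₀ hT]; linarith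
      have bA := abs_le.1 eA
      have bB := abs_le.1 eB
      have h1 : |deriv (capA κ T) t| ≤ 1 / 5 :=
        deriv_move_le hasDerivAt_capA0 (hasDerivAt_capp t) (by linarith) rfl hC ep eg
          (abs_le.2 ⟨by linarith, by linarith⟩) hBT
      have h2 : |deriv (capB κ T) t| ≤ 1 / 5 :=
        deriv_move_le hasDerivAt_capB0 (hasDerivAt_capq t) (by linarith) rfl hC eq' eg
          (abs_le.2 ⟨by linarith, by linarith⟩) hBT
      linarith [(abs_le.1 h1).1, (abs_le.1 h2).1]
  · have hP0 : capP 1 = 1 := by norm_num [capP]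
    have dP : DifferentiableAt ℝ (fun ρ => Real.log (capP (capUr ρ))) 0 :=
      ((hasDerivAt_capP _).differentiableAt.comp 0 differentiableAt_capUr).log
        (by simp [capUr_zero, hP0])
    fin_cases j
    · refine exists_lim_of_differentiableAt (g := fun ρ => Real.exp (-2 * Real.log (capP (capUr ρ))))
        (dP.const_mul _).exp (by simp [capUr_zero, hP0]) ((eventually_le_atBot T).mono fun t ht => ?_)
      simp [hW, capWt, diagW, (hleft t ht).1, capA0, capU_eq_capUr]
    · have dQ : DifferentiableAt ℝ (fun ρ => Real.log (capQ (capUr ρ))) 0 :=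
        ((hasDerivAt_capQ _).differentiableAt.comp 0 differentiableAt_capUr).log
          (by norm_num [capUr_zero, capQ])
      have dL : DifferentiableAt ℝ (fun ρ : ℝ => Real.log (1 + ρ)) 0 :=
        (differentiableAt_id.const_add 1).log (by simp)
      refine exists_lim_of_differentiableAt (g := fun ρ => Real.exp (-2 * (Real.log (capP (capUr ρ))
          + Real.log (capQ (capUr ρ)) + Real.log (1 + ρ) / 2)) * ρ)
        (((((dP.fun_add dQ).fun_add (dL.div_const 2)).const_mul _).exp).mul differentiableAt_id)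
        (by simp) ((eventually_le_atBot T).mono fun t ht => ?_)
      rw [← exp_capB0, ← (hleft t ht).2, hW]
      rfl
    · refine exists_lim_of_differentiableAt (g := fun _ => (0 : ℝ)) (differentiableAt_const _) rfl
        (Eventually.of_forall fun t => ?_)
      simp [hW, capWt_two]
  · have hu1 := differentiableAt_capUr
    have hP1' : DifferentiableAt ℝ capP1 (capUr 0) := by unfold capP1; fun_prop
    have hP' : DifferentiableAt ℝ capP (capUr 0) := (hasDerivAt_capP _).differentiableAt
    have hQ' : DifferentiableAt ℝ capQ (capUr 0) := (hasDerivAt_capQ _).differentiableAt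
    have hp : DifferentiableAt ℝ capp (capUr 0) := by
      unfold capp
      exact ((differentiableAt_id.mul ((differentiableAt_id.pow 4).const_sub 1)).neg.mul hP1').div
        (hP'.const_mul 2) (mul_ne_zero two_ne_zero (capP_pos (by simp [capUr_zero])).ne')
    have hq : DifferentiableAt ℝ capq (capUr 0) := by
      have h2 : DifferentiableAt ℝ capqQ (capUr 0) := by
        unfold capqQ
        exact ((differentiableAt_id.mul ((differentiableAt_id.pow 4).const_sub 1)).mul
          (differentiableAt_id.const_mul (2 / 3))).div (hQ'.const_mul 2)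
          (by norm_num [capUr_zero, capQ])
      exact (hp.add h2).sub (differentiableAt_id.pow 4)
    refine exists_lim_of_differentiableAt
      (g := fun ρ => 5 + 3 * (capp (capUr ρ) + capq (capUr ρ)))
      ((((hp.comp 0 hu1).fun_add (hq.comp 0 hu1)).const_mul 3).const_add 5)
      (by norm_num [capUr_zero, capp, capq, capqQ]) ((eventually_lt_atBot T).mono fun t ht => ?_)
    rw [hdrift, (hlow t ht).1, (hlow t ht).2, capU_eq_capUr]

end

end Vale.Agent.P225
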