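import Vale.Agent.P225.Metric.Base

/-!
P225 assembly (helper23): identities that pass from `chartOff` to the whole chart by continuity:
`chartOff` is dense in `chart` and the Laplacian of a `C²` function is continuous.
-/

namespace Vale.Agent.P225

open scoped BigOperators ContDiff
open Set Matrix Filter Topology

noncomputable section

/-- A continuous function on the chart that vanishes off the core vanishes on the chart. -/
theorem eq_zero_of_chartOff {h : Pt 7 → ℝ} (hc : ContinuousOn h chart)
    (h0 : ∀ x ∈ chartOff, h x = 0) {x : Pt 7} (hx : x ∈ chart) : h x = 0 := by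
  by_cases hr : 0 < rsq x
  · exact h0 x ⟨hx, hr⟩
  have hr0 : rsq x = 0 := le_antisymm (not_lt.1 hr) (dotProduct_self_star_nonneg (xc x))
  have hxc : xc x = 0 := dotProduct_self_eq_zero.1 hr0
  have hx4 : x 4 = 0 := congrFun hxc 1
  have hf : Tendsto (fun e : ℝ => Function.update x 4 e) (𝓝[≠] 0) (𝓝 x) := by
    have h' : Tendsto (fun e : ℝ => Function.update x 4 e) (𝓝 0) (𝓝 (Function.update x 4 0)) :=
      (continuous_const.update 4 continuous_id).tendsto 0
    rw [show Function.update x 4 0 = x by rw [← hx4, Function.update_eq_self]] at h'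
    exact h'.mono_left nhdsWithin_le_nhds
  have hlim : Tendsto (fun e : ℝ => h (Function.update x 4 e)) (𝓝[≠] 0) (𝓝 (h x)) :=
    (hc.continuousAt (isOpen_chart.mem_nhds hx)).tendsto.comp hf
  refine tendsto_nhds_unique hlim (tendsto_const_nhds.congr' ?_)
  filter_upwards [self_mem_nhdsWithin] with e he
  refine (h0 _ ⟨?_, ?_⟩).symm
  · have hys : ys (Function.update x 4 e) = ys x := by simp [ys]
    rw [hys]
    exact hx
  · refine lt_of_le_of_ne (dotProduct_self_star_nonneg (xc _)) fun h => he ?_
    have := congrFun (dotProduct_self_eq_zero.1 h.symm) 1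
    simpa [xc] using this

/-- An inequality between continuous functions passes from `chartOff` to the chart. -/
theorem le_of_chartOff {f h : Pt 7 → ℝ} (hf : ContinuousOn f chart) (hh : ContinuousOn h chart)
    (h0 : ∀ x ∈ chartOff, f x ≤ h x) {x : Pt 7} (hx : x ∈ chart) : f x ≤ h x := by
  have := eq_zero_of_chartOff (h := fun y => max (f y - h y) 0)
    ((hf.sub hh).sup continuousOn_const) (fun y hy => max_eq_right (sub_nonpos.2 (h0 y hy))) hx
  exact sub_nonpos.1 (max_eq_right_iff.1 this)

variable {n : ℕ} {U : Set (Pt n)}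

theorem continuousOn_pd (hU : IsOpen U) {f : Pt n → ℝ} (hf : ContDiffOn ℝ 1 f U) (i : Fin n) :
    ContinuousOn (pd f i) U :=
  (hf.continuousOn_fderiv_of_isOpen hU le_rfl).clm_apply continuousOn_const

theorem contDiffOn_pd_two (hU : IsOpen U) {f : Pt n → ℝ} (hf : ContDiffOn ℝ 2 f U) (i : Fin n) :
    ContDiffOn ℝ 1 (pd f i) U :=
  (hf.fderiv_of_isOpen hU (by norm_num)).clm_apply contDiffOn_const

/-- The Laplacian of a `C²` function is continuous. -/
theorem continuousOn_laplacian {g : MetricField n} (hU : IsOpen U)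
    (hg : ∀ i j, ContDiffOn ℝ 1 (fun x => g x i j) U) (hp : ∀ x ∈ U, (g x).PosDef)
    {u : Pt n → ℝ} (hu : ContDiffOn ℝ 2 u U) : ContinuousOn (laplacian g u) U := by
  have hi : ∀ i j, ContinuousOn (fun x => (g x)⁻¹ i j) U := by
    intro i j x hx
    refine ContinuousAt.continuousWithinAt ?_
    have hgc : ContinuousAt g x := continuousAt_pi.2 fun a => continuousAt_pi.2 fun b =>
      (hg a b).continuousOn.continuousAt (hU.mem_nhds hx)
    have hinv : ContinuousAt Inv.inv (g x) := continuousAt_matrix_inv _ (by
      rw [Ring.inverse_eq_inv']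
      exact continuousAt_inv₀ (hp x hx).det_pos.ne')
    exact continuousAt_pi.1 (continuousAt_pi.1 (hinv.comp hgc) i) j
  have hG : ∀ k i j, ContinuousOn (christoffel g k i j) U := fun k i j => by
    unfold christoffel
    exact continuousOn_finsetSum _ fun l _ => ((hi k l).mul
      (((continuousOn_pd hU (hg j l) i).add (continuousOn_pd hU (hg i l) j)).sub
        (continuousOn_pd hU (hg i j) l))).div_const 2
  unfold laplacian
  exact continuousOn_finsetSum _ fun i _ => continuousOn_finsetSum _ fun j _ => (hi i j).mul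
    ((continuousOn_pd hU (contDiffOn_pd_two hU hu j) i).sub (continuousOn_finsetSum _ fun k _ =>
      (hG k i j).mul (continuousOn_pd hU (hu.of_le (by norm_num)) k)))

theorem laplacian_congr_fun (g : MetricField n) (hU : IsOpen U) {u v : Pt n → ℝ} (he : EqOn u v U)
    {x : Pt n} (hx : x ∈ U) : laplacian g u x = laplacian g v x := by
  have h1 : ∀ k, pd u k =ᶠ[𝓝 x] pd v k := fun k => by
    filter_upwards [hU.mem_nhds hx] with y hy
    simp only [pd, (he.eventuallyEq_of_mem (hU.mem_nhds hy)).fderiv_eq]
  have h2 : ∀ i j, pd (pd u j) i x = pd (pd v j) i x := fun i j => by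
    rw [pd, pd, (h1 j).fderiv_eq]
  simp only [laplacian, h2, (h1 _).eq_of_nhds]

end

end Vale.Agent.P225
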