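import Mathlib
import Vale.Agent.P225.Defs

/-!
P225 assembly (helper29): locally uniformly convergent series of `C^2` functions with summable
bounds on two derivatives are `C^2`, and the coordinate Laplacian acts term by term.
-/

namespace Vale.Agent.P225

open Set Metric

noncomputable section

variable {n : ℕ} {ι : Type*}

/-- Summable bounds on value and two derivatives near every point of `U`. -/
def LocallyC2Summable (U : Set (Pt n)) (F : ι → Pt n → ℝ) : Prop :=
  ∀ x ∈ U, ∃ r > 0, ball x r ⊆ U ∧ ∃ b : ι → ℝ, Summable b ∧ ∀ i, ∀ y ∈ ball x r,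
    |F i y| ≤ b i ∧ ‖fderiv ℝ (F i) y‖ ≤ b i ∧ ‖fderiv ℝ (fderiv ℝ (F i)) y‖ ≤ b i

namespace LocallyC2Summable

variable {U : Set (Pt n)} {F : ι → Pt n → ℝ}

theorem summable (h : LocallyC2Summable U F) {x : Pt n} (hx : x ∈ U) :
    Summable fun i => F i x := by
  obtain ⟨r, hr, -, b, hb, hF⟩ := h x hx
  exact hb.of_norm_bounded fun i => (hF i x (mem_ball_self hr)).1

theorem hasFDerivAt (h : LocallyC2Summable U F) (hU : IsOpen U)
    (hF : ∀ i, ContDiffOn ℝ 2 (F i) U) {x : Pt n} (hx : x ∈ U) :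
    HasFDerivAt (fun y => ∑' i, F i y) (∑' i, fderiv ℝ (F i) x) x := by
  obtain ⟨r, hr, hsub, b, hb, hbd⟩ := h x hx
  refine hasFDerivAt_tsum_of_isPreconnected hb isOpen_ball (convex_ball x r).isPreconnected
    (fun i y hy => ?_) (fun i y hy => (hbd i y hy).2.1) (mem_ball_self hr) (h.summable hx)
    (mem_ball_self hr)
  exact (((hF i).differentiableOn (by norm_num)).differentiableAt
    (hU.mem_nhds (hsub hy))).hasFDerivAt

theorem summable_fderiv (h : LocallyC2Summable U F) {x : Pt n} (hx : x ∈ U) :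
    Summable fun i => fderiv ℝ (F i) x := by
  obtain ⟨r, hr, -, b, hb, hF⟩ := h x hx
  exact hb.of_norm_bounded fun i => (hF i x (mem_ball_self hr)).2.1

theorem hasFDerivAt_fderiv (h : LocallyC2Summable U F) (hU : IsOpen U)
    (hF : ∀ i, ContDiffOn ℝ 2 (F i) U) {x : Pt n} (hx : x ∈ U) :
    HasFDerivAt (fderiv ℝ fun y => ∑' i, F i y) (∑' i, fderiv ℝ (fderiv ℝ (F i)) x) x := by
  obtain ⟨r, hr, hsub, b, hb, hbd⟩ := h x hx
  have e : (fderiv ℝ fun y => ∑' i, F i y) =ᶠ[nhds x] fun y => ∑' i, fderiv ℝ (F i) y := by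
    filter_upwards [hU.mem_nhds hx] with y hy
    exact (h.hasFDerivAt hU hF hy).fderiv
  refine HasFDerivAt.congr_of_eventuallyEq ?_ e
  refine hasFDerivAt_tsum_of_isPreconnected hb isOpen_ball (convex_ball x r).isPreconnected
    (fun i y hy => ?_) (fun i y hy => (hbd i y hy).2.2) (mem_ball_self hr) (h.summable_fderiv hx)
    (mem_ball_self hr)
  have : ContDiffOn ℝ 1 (fderiv ℝ (F i)) U := (hF i).fderiv_of_isOpen hU (by norm_num)
  exact ((this.differentiableOn (by norm_num)).differentiableAt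
    (hU.mem_nhds (hsub hy))).hasFDerivAt

theorem contDiffOn (h : LocallyC2Summable U F) (hU : IsOpen U)
    (hF : ∀ i, ContDiffOn ℝ 2 (F i) U) :
    ContDiffOn ℝ 2 (fun y => ∑' i, F i y) U := by
  rw [show (2 : WithTop ℕ∞) = 1 + 1 by rfl, contDiffOn_succ_iff_fderiv_of_isOpen hU]
  refine ⟨fun x hx => (h.hasFDerivAt hU hF hx).differentiableAt.differentiableWithinAt,
    by simp, ?_⟩
  rw [show (1 : WithTop ℕ∞) = 0 + 1 by rfl, contDiffOn_succ_iff_fderiv_of_isOpen hU]
  refine ⟨fun x hx => (h.hasFDerivAt_fderiv hU hF hx).differentiableAt.differentiableWithinAt,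
    by simp, ?_⟩
  rw [contDiffOn_zero]
  intro x hx
  obtain ⟨r, hr, hsub, b, hb, hbd⟩ := h x hx
  have hc : ContinuousOn (fun y => ∑' i, fderiv ℝ (fderiv ℝ (F i)) y) (ball x r) := by
    refine continuousOn_tsum (f := fun i => fderiv ℝ (fderiv ℝ (F i))) (fun i => ?_) hb ?_
    swap
    · intro i y hy
      exact (hbd i y hy).2.2
    have h1 : ContDiffOn ℝ 1 (fderiv ℝ (F i)) U := (hF i).fderiv_of_isOpen hU (by norm_num)
    exact (h1.continuousOn_fderiv_of_isOpen hU le_rfl).mono hsub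
  refine (ContinuousAt.congr (hc.continuousAt (isOpen_ball.mem_nhds (mem_ball_self hr))) ?_)
    |>.continuousWithinAt
  filter_upwards [isOpen_ball.mem_nhds (mem_ball_self hr)] with y hy
  exact (h.hasFDerivAt_fderiv hU hF (hsub hy)).fderiv.symm

theorem pd_tsum (h : LocallyC2Summable U F) (hU : IsOpen U)
    (hF : ∀ i, ContDiffOn ℝ 2 (F i) U) {x : Pt n} (hx : x ∈ U) (k : Fin n) :
    pd (fun y => ∑' i, F i y) k x = ∑' i, pd (F i) k x := by
  rw [pd, (h.hasFDerivAt hU hF hx).fderiv]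
  exact (ContinuousLinearMap.apply ℝ ℝ (Pi.single k (1 : ℝ))).map_tsum (h.summable_fderiv hx)

theorem pd_pd_of_hasFDerivAt {f : Pt n → ℝ} {G : Pt n →L[ℝ] Pt n →L[ℝ] ℝ} {x : Pt n}
    (h : HasFDerivAt (fderiv ℝ f) G x) (k l : Fin n) :
    pd (pd f k) l x = G (Pi.single l 1) (Pi.single k 1) := by
  have e := h.clm_apply (hasFDerivAt_const (Pi.single k (1 : ℝ) : Pt n) x)
  have e' : pd f k = fun y => fderiv ℝ f y (Pi.single k 1) := rfl
  rw [e']
  show fderiv ℝ (fun y => fderiv ℝ f y (Pi.single k 1)) x (Pi.single l 1) = _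
  rw [e.fderiv]
  simp

theorem pd_pd_eq (hU : IsOpen U) (hF : ∀ i, ContDiffOn ℝ 2 (F i) U) {x : Pt n} (hx : x ∈ U)
    (i : ι) (k l : Fin n) :
    pd (pd (F i) k) l x = fderiv ℝ (fderiv ℝ (F i)) x (Pi.single l 1) (Pi.single k 1) :=
  pd_pd_of_hasFDerivAt (((((hF i).fderiv_of_isOpen hU (m := 1) (by norm_num)).differentiableOn
    (by norm_num)).differentiableAt (hU.mem_nhds hx)).hasFDerivAt) k l

theorem tsum_apply_apply {G : ι → Pt n →L[ℝ] Pt n →L[ℝ] ℝ} (hs : Summable G) (a b : Pt n) :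
    (∑' i, G i) a b = ∑' i, G i a b :=
  (((ContinuousLinearMap.apply ℝ ℝ b).comp
    (ContinuousLinearMap.apply ℝ (Pt n →L[ℝ] ℝ) a)).map_tsum hs :)

theorem pd_pd_tsum (h : LocallyC2Summable U F) (hU : IsOpen U)
    (hF : ∀ i, ContDiffOn ℝ 2 (F i) U) {x : Pt n} (hx : x ∈ U) (k l : Fin n) :
    pd (pd (fun y => ∑' i, F i y) k) l x = ∑' i, pd (pd (F i) k) l x := by
  have e := pd_pd_of_hasFDerivAt (h.hasFDerivAt_fderiv hU hF hx) k l
  obtain ⟨r, hr, -, b, hb, hbd⟩ := h x hx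
  have hs : Summable fun i => fderiv ℝ (fderiv ℝ (F i)) x := by
    refine Summable.of_norm_bounded (E := Pt n →L[ℝ] Pt n →L[ℝ] ℝ) hb fun i => ?_
    exact (hbd i x (mem_ball_self hr)).2.2
  have e2 := tsum_apply_apply (G := fun i => fderiv ℝ (fderiv ℝ (F i)) x) hs
    (Pi.single l (1 : ℝ)) (Pi.single k (1 : ℝ))
  exact e.trans (e2.trans (tsum_congr fun i => (pd_pd_eq hU hF hx i k l).symm))

theorem laplacian_tsum (h : LocallyC2Summable U F) (hU : IsOpen U)
    (hF : ∀ i, ContDiffOn ℝ 2 (F i) U) (g : MetricField n) {x : Pt n} (hx : x ∈ U) :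
    laplacian g (fun y => ∑' i, F i y) x = ∑' i, laplacian g (F i) x := by
  obtain ⟨r, hr, hsub, b, hb, hbd⟩ := h x hx
  have s1 : ∀ k, Summable fun i => pd (F i) k x := fun k =>
    (ContinuousLinearMap.apply ℝ ℝ (Pi.single k (1 : ℝ) : Pt n)).summable (h.summable_fderiv hx)
  have s2 : ∀ k l, Summable fun i => pd (pd (F i) k) l x := by
    intro k l
    refine (hb.mul_right (‖(Pi.single l (1 : ℝ) : Pt n)‖ * ‖(Pi.single k (1 : ℝ) : Pt n)‖)).of_norm_bounded
      fun i => ?_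
    rw [pd_pd_eq hU hF hx i k l]
    calc ‖fderiv ℝ (fderiv ℝ (F i)) x (Pi.single l 1) (Pi.single k 1)‖
        ≤ ‖fderiv ℝ (fderiv ℝ (F i)) x (Pi.single l 1)‖ * ‖(Pi.single k (1 : ℝ) : Pt n)‖ :=
          ContinuousLinearMap.le_opNorm _ _
      _ ≤ b i * (‖(Pi.single l (1 : ℝ) : Pt n)‖ * ‖(Pi.single k (1 : ℝ) : Pt n)‖) := by
          rw [← mul_assoc]
          gcongr
          exact ((fderiv ℝ (fderiv ℝ (F i)) x).le_opNorm _).trans
            (mul_le_mul_of_nonneg_right (hbd i x (mem_ball_self hr)).2.2 (norm_nonneg _))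
  unfold laplacian
  simp only [h.pd_tsum hU hF hx, h.pd_pd_tsum hU hF hx]
  symm
  have inner : ∀ p q, Summable fun i => (g x)⁻¹ p q *
      (pd (pd (F i) q) p x - ∑ k, christoffel g k p q x * pd (F i) k x) := fun p q =>
    ((s2 q p).sub (summable_sum fun k _ => (s1 k).mul_left _)).mul_left _
  rw [Summable.tsum_finsetSum fun p _ => summable_sum fun q _ => inner p q]
  refine Finset.sum_congr rfl fun p _ => ?_
  rw [Summable.tsum_finsetSum fun q _ => inner p q]
  refine Finset.sum_congr rfl fun q _ => ?_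
  rw [tsum_mul_left, (s2 q p).tsum_sub (summable_sum fun k _ => (s1 k).mul_left _),
    Summable.tsum_finsetSum fun k _ => (s1 k).mul_left _]
  simp only [tsum_mul_left]

end LocallyC2Summable

end

end Vale.Agent.P225
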