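import Vale.Agent.P225.Sphere.Deriv
import Vale.Agent.P225.Metric.Base
import Vale.Agent.P225.Assembly.Series

/-!
P225 assembly (helper27): summability over the states, bounds for the basis on the cross-section
and `C²` summability of mode series `∑ c_i (log r) Y_i`.
-/

namespace Vale.Agent.P225

open scoped BigOperators
open Set
open Sphere (Y)

noncomputable section

/-- `∑ mu^(-p)` over the states converges for `p ≥ 9`. -/
theorem summable_mu {p : ℕ} (hp : 9 ≤ p) : Summable fun i : St => (i.blk.mu ^ p)⁻¹ := by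
  have h0 : ∀ i : St, 0 ≤ (i.blk.mu ^ p)⁻¹ := fun i =>
    inv_nonneg.2 (pow_nonneg (zero_le_one.trans (Blk.one_le_mu _)) _)
  refine (summable_sigma_of_nonneg h0).2 ⟨fun V => Summable.of_finite, ?_⟩
  have hg : Summable fun a : ℕ => (((a : ℝ) + 1) ^ 2)⁻¹ :=
    ((summable_nat_add_iff 1).2 (Real.summable_nat_pow_inv.2 (by norm_num : 1 < 2))).congr
      fun a => by push_cast; rfl
  have hnn : ∀ a : ℕ, 0 ≤ (((a : ℝ) + 1) ^ 2)⁻¹ := fun a => by positivity
  have h3 : Summable fun V : ℕ × ℕ × ℕ =>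
      (((V.1 : ℝ) + 1) ^ 2)⁻¹ * ((((V.2.1 : ℝ) + 1) ^ 2)⁻¹ * (((V.2.2 : ℝ) + 1) ^ 2)⁻¹) :=
    hg.mul_of_nonneg (hg.mul_of_nonneg hg hnn hnn) hnn fun q => mul_nonneg (hnn _) (hnn _)
  refine Summable.of_nonneg_of_le (fun V => tsum_nonneg fun m => h0 _) (fun V => ?_)
    (h3.comp_injective (f := fun V => _) (i := fun V : Blk => V.1) Subtype.val_injective)
  show ∑' _m : Fin V.dim, (V.mu ^ p)⁻¹ ≤ (((V.la : ℝ) + 1) ^ 2)⁻¹ *
    ((((V.lb : ℝ) + 1) ^ 2)⁻¹ * (((V.lc : ℝ) + 1) ^ 2)⁻¹)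
  rw [tsum_fintype, Finset.sum_const, Finset.card_univ, Fintype.card_fin, nsmul_eq_mul]
  have hmu := Blk.one_le_mu V
  have ha : (V.la : ℝ) + 1 ≤ V.mu := by
    have : (0 : ℝ) ≤ V.lb := Nat.cast_nonneg _
    have : (0 : ℝ) ≤ V.lc := Nat.cast_nonneg _
    simp only [Blk.mu]; linarith
  have hb : (V.lb : ℝ) + 1 ≤ V.mu := by
    have : (0 : ℝ) ≤ V.la := Nat.cast_nonneg _
    have : (0 : ℝ) ≤ V.lc := Nat.cast_nonneg _
    simp only [Blk.mu]; linarith
  have hc : (V.lc : ℝ) + 1 ≤ V.mu := by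
    have : (0 : ℝ) ≤ V.la := Nat.cast_nonneg _
    have : (0 : ℝ) ≤ V.lb := Nat.cast_nonneg _
    simp only [Blk.mu]; linarith
  set x := (V.la : ℝ) + 1
  set y := (V.lb : ℝ) + 1
  set z := (V.lc : ℝ) + 1
  have hx : 0 < x := by positivity
  have hy : 0 < y := by positivity
  have hz : 0 < z := by positivity
  have hd : (V.dim : ℝ) = x * y * z := by simp [Blk.dim, x, y, z]
  rw [hd, ← mul_inv, ← mul_inv, ← div_eq_mul_inv, inv_eq_one_div,
    div_le_div_iff₀ (pow_pos (zero_lt_one.trans_le hmu) _) (by positivity), one_mul]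
  calc x * y * z * (x ^ 2 * (y ^ 2 * z ^ 2)) = x ^ 3 * (y ^ 3 * z ^ 3) := by ring
    _ ≤ V.mu ^ 3 * (V.mu ^ 3 * V.mu ^ 3) := by gcongr
    _ = V.mu ^ 9 := by ring
    _ ≤ V.mu ^ p := pow_le_pow_right₀ hmu hp

/-- A coefficient vector is absolutely summable against `mu^(-p)`. -/
theorem summable_coeff_mu (x : HSp) {p : ℕ} (hp : 9 ≤ p) :
    Summable fun i : St => |x i| * (i.blk.mu ^ p)⁻¹ := by
  have h0 : ∀ i : St, 0 ≤ (i.blk.mu ^ p)⁻¹ := fun i =>
    inv_nonneg.2 (pow_nonneg (zero_le_one.trans (Blk.one_le_mu _)) _)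
  refine Summable.of_nonneg_of_le (fun i => mul_nonneg (abs_nonneg _) (h0 i)) (fun i => ?_)
    ((summable_mu hp).mul_left ‖x‖)
  exact mul_le_mul_of_nonneg_right ((Real.norm_eq_abs _).symm.le.trans
    (lp.norm_apply_le_norm (by norm_num) x i)) (h0 i)

theorem sqrt_dim_le (V : Blk) : Real.sqrt V.dim ≤ V.mu ^ 2 := by
  have hmu := Blk.one_le_mu V
  have ha : (V.la : ℝ) + 1 ≤ V.mu := by
    have : (0 : ℝ) ≤ V.lb := Nat.cast_nonneg _
    have : (0 : ℝ) ≤ V.lc := Nat.cast_nonneg _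
    simp only [Blk.mu]; linarith
  have hb : (V.lb : ℝ) + 1 ≤ V.mu := by
    have : (0 : ℝ) ≤ V.la := Nat.cast_nonneg _
    have : (0 : ℝ) ≤ V.lc := Nat.cast_nonneg _
    simp only [Blk.mu]; linarith
  have hc : (V.lc : ℝ) + 1 ≤ V.mu := by
    have : (0 : ℝ) ≤ V.la := Nat.cast_nonneg _
    have : (0 : ℝ) ≤ V.lb := Nat.cast_nonneg _
    simp only [Blk.mu]; linarith
  rw [Real.sqrt_le_iff]
  refine ⟨by positivity, ?_⟩
  calc (V.dim : ℝ) = ((V.la : ℝ) + 1) * ((V.lb : ℝ) + 1) * ((V.lc : ℝ) + 1) := by simp [Blk.dim]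
    _ ≤ V.mu * V.mu * V.mu := by gcongr
    _ ≤ (V.mu ^ 2) ^ 2 := by nlinarith [mul_le_mul_of_nonneg_left hmu (show (0 : ℝ) ≤ V.mu ^ 3 by positivity)]

/-- Points of the cross-section are points of the group. -/
theorem exists_crd2_sph {x : Pt 7} (hx : x ∈ chartOff) : ∃ z, Sphere.crd2 z = sph x := by
  obtain ⟨h1, h2⟩ := sph_mem hx
  refine Sphere.exists_crd2 ?_ ?_
  · rw [← h1, dotProduct]; exact Finset.sum_congr rfl fun i _ => sq _
  · rw [← h2, dotProduct]; exact Finset.sum_congr rfl fun i _ => sq _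

/-- Value and two derivatives of a basis function on the product of the unit spheres. -/
theorem norm_iteratedFDeriv_Y_unit (i : St) (z : Sphere.N2) {k : ℕ} (hk : k ≤ 2) :
    ‖iteratedFDeriv ℝ k (Y i) (Sphere.crd2 z)‖ ≤ 2048 * i.blk.mu ^ 4 := by
  have hmu : 1 ≤ i.blk.mu := Blk.one_le_mu _
  have hd := sqrt_dim_le i.blk
  interval_cases k
  · rw [norm_iteratedFDeriv_zero, Real.norm_eq_abs]
    calc |Y i (Sphere.crd2 z)| ≤ Real.sqrt i.blk.dim := Sphere.abs_Y_le i z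
      _ ≤ 1 * i.blk.mu ^ 4 := hd.trans (by rw [one_mul]; exact pow_le_pow_right₀ hmu (by norm_num))
      _ ≤ 2048 * i.blk.mu ^ 4 := by gcongr; norm_num
  · rw [norm_iteratedFDeriv_one]
    refine ContinuousLinearMap.opNorm_le_bound _ (by positivity) fun ξ => ?_
    rw [Real.norm_eq_abs]
    refine (Sphere.abs_fderiv_Y_le i z ξ).trans (mul_le_mul_of_nonneg_right ?_ (norm_nonneg _))
    calc 32 * (i.blk.mu * Real.sqrt i.blk.dim) ≤ 32 * (i.blk.mu * i.blk.mu ^ 2) := by gcongr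
      _ = 32 * i.blk.mu ^ 3 := by ring
      _ ≤ 2048 * i.blk.mu ^ 4 := mul_le_mul (by norm_num)
          (pow_le_pow_right₀ hmu (by norm_num)) (by positivity) (by norm_num)
  · rw [← norm_iteratedFDeriv_fderiv, norm_iteratedFDeriv_one]
    refine ContinuousLinearMap.opNorm_le_bound _ (by positivity) fun η => ?_
    refine ContinuousLinearMap.opNorm_le_bound _ (by positivity) fun ξ => ?_
    rw [Real.norm_eq_abs]
    refine (Sphere.abs_fderiv2_Y_le i z η ξ).trans ?_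
    gcongr
    calc i.blk.mu ^ 2 * Real.sqrt i.blk.dim ≤ i.blk.mu ^ 2 * i.blk.mu ^ 2 := by gcongr
      _ = i.blk.mu ^ 4 := by ring

/-- Value and two derivatives of a basis function on the cross-section. -/
theorem norm_iteratedFDeriv_Y_le (i : St) {x : Pt 7} (hx : x ∈ chartOff) {k : ℕ} (hk : k ≤ 2) :
    ‖iteratedFDeriv ℝ k (Y i) (sph x)‖ ≤ 2048 * i.blk.mu ^ 4 := by
  obtain ⟨z, hz⟩ := exists_crd2_sph hx
  rw [← hz]
  exact norm_iteratedFDeriv_Y_unit i z hk

theorem contDiffOn_tlog : ContDiffOn ℝ 2 tlog chartOff :=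
  ((contDiffOn_rsq.mono fun _ hx => hx.1).log fun _ hx => ne_of_gt hx.2).div_const 2

theorem contDiffOn_sph : ContDiffOn ℝ 2 sph chartOff := by
  refine ContDiffOn.prodMk (contDiffOn_pi.2 fun i => ?_) (contDiffOn_pi.2 fun i => ?_)
  · simp only [Pi.smul_apply, smul_eq_mul]
    exact (((contDiffOn_rsq.mono fun _ hx => hx.1).sqrt fun _ hx => ne_of_gt hx.2).inv
      fun _ hx => (Real.sqrt_pos.2 hx.2).ne').mul ((contDiffOn_xc i).mono fun _ hx => hx.1)
  · simp only [Pi.smul_apply, smul_eq_mul]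
    exact ((contDiff_ys.contDiffOn.sqrt fun _ hx => ne_of_gt hx.1).inv
      fun _ hx => (Real.sqrt_pos.2 hx.1).ne').mul ((contDiffOn_yc i).mono fun _ hx => hx.1)

/-- Two derivatives of a map are locally bounded. -/
theorem exists_deriv_bound {G : Type*} [NormedAddCommGroup G] [NormedSpace ℝ G] {f : Pt 7 → G}
    (hf : ContDiffOn ℝ 2 f chartOff) {K : Set (Pt 7)} (hK : IsCompact K) (hsub : K ⊆ chartOff) :
    ∃ D, 1 ≤ D ∧ ∀ y ∈ K, ∀ k, 1 ≤ k → k ≤ 2 →
      ‖iteratedFDerivWithin ℝ k f chartOff y‖ ≤ D ^ k := by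
  have hu := isOpen_chartOff.uniqueDiffOn (𝕜 := ℝ)
  obtain ⟨B1, hB1⟩ := hK.exists_bound_of_continuousOn
    ((hf.continuousOn_iteratedFDerivWithin (m := 1) (by norm_num) hu).mono hsub)
  obtain ⟨B2, hB2⟩ := hK.exists_bound_of_continuousOn
    ((hf.continuousOn_iteratedFDerivWithin (m := 2) le_rfl hu).mono hsub)
  refine ⟨max 1 (max B1 B2), le_max_left _ _, fun y hy k hk1 hk2 => ?_⟩
  have h : max B1 B2 ≤ max 1 (max B1 B2) ^ k :=
    (le_max_right 1 _).trans (le_self_pow₀ (le_max_left 1 _) (by omega))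
  interval_cases k
  · exact (hB1 y hy).trans ((le_max_left _ _).trans h)
  · exact (hB2 y hy).trans ((le_max_right _ _).trans h)

/-- The term of one mode. -/
def modeTerm (c : St → ℝ → ℝ) (i : St) (x : Pt 7) : ℝ := c i (tlog x) * Y i (sph x)

theorem contDiffOn_modeTerm {c : St → ℝ → ℝ} (hc : ∀ i, ContDiff ℝ 2 (c i)) (i : St) :
    ContDiffOn ℝ 2 (modeTerm c i) chartOff :=
  ((hc i).comp_contDiffOn contDiffOn_tlog).mul
    ((Sphere.contDiff_Y i).comp_contDiffOn contDiffOn_sph)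

/-- Bounds `B mu^(2-s)` of the coefficients and two derivatives on every bounded time interval. -/
def CoeffBound (c : St → ℝ → ℝ) (s : ℕ) : Prop :=
  ∀ T₀ T₁ : ℝ, ∃ B : ℝ, 0 ≤ B ∧ ∀ i, ∀ t ∈ Icc T₀ T₁,
    |c i t| ≤ B * (i.blk.mu ^ 2 / i.blk.mu ^ s) ∧ |deriv (c i) t| ≤ B * (i.blk.mu ^ 2 / i.blk.mu ^ s) ∧
      |deriv (deriv (c i)) t| ≤ B * (i.blk.mu ^ 2 / i.blk.mu ^ s)

theorem summable_pow_div {q s : ℕ} (h : q + 9 ≤ s) :
    Summable fun i : St => i.blk.mu ^ q / i.blk.mu ^ s := by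
  refine (summable_mu (p := s - q) (by omega)).congr fun i => ?_
  have hmu : i.blk.mu ≠ 0 := (zero_lt_one.trans_le (Blk.one_le_mu _)).ne'
  rw [show s = q + (s - q) by omega, pow_add, Nat.add_sub_cancel_left]
  field_simp

/-- **`C²` summability of mode series.** -/
theorem locallyC2Summable_modes {c : St → ℝ → ℝ} (hc : ∀ i, ContDiff ℝ 2 (c i)) {s : ℕ}
    (hs : 15 ≤ s) (hB : CoeffBound c s) : LocallyC2Summable chartOff (modeTerm c) := by
  intro x hx
  obtain ⟨r, hr, hrU⟩ := Metric.nhds_basis_closedBall.mem_iff.1 (isOpen_chartOff.mem_nhds hx)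
  have hu := isOpen_chartOff.uniqueDiffOn (𝕜 := ℝ)
  set K := Metric.closedBall x r
  have hK : IsCompact K := isCompact_closedBall x r
  obtain ⟨D1, hD1, hD1b⟩ := exists_deriv_bound contDiffOn_tlog hK hrU
  obtain ⟨D2, hD2, hD2b⟩ := exists_deriv_bound contDiffOn_sph hK hrU
  obtain ⟨R, hR⟩ := hK.exists_bound_of_continuousOn (contDiffOn_tlog.continuousOn.mono hrU)
  obtain ⟨B, hB0, hBb⟩ := hB (-R) R
  set D := max D1 D2
  refine ⟨r, hr, Metric.ball_subset_closedBall.trans hrU,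
    fun i => 4 * (2 * B * D ^ 2) * (2 * 2048 * D ^ 2) * (i.blk.mu ^ 6 / i.blk.mu ^ s),
    (summable_pow_div (by omega)).mul_left _, fun i y hy => ?_⟩
  have hyK : y ∈ K := Metric.ball_subset_closedBall hy
  have hy' : y ∈ chartOff := hrU hyK
  have hmu : 0 < i.blk.mu := zero_lt_one.trans_le (Blk.one_le_mu _)
  have hDone : 1 ≤ D := hD1.trans (le_max_left _ _)
  have ht : tlog y ∈ Icc (-R) R := by
    have := hR y hyK
    rwa [Real.norm_eq_abs, abs_le] at this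
  obtain ⟨b0, b1, b2⟩ := hBb i _ ht
  have hA : ∀ k, k ≤ 2 → ‖iteratedFDerivWithin ℝ k (fun y => c i (tlog y)) chartOff y‖ ≤
      2 * B * D ^ 2 * (i.blk.mu ^ 2 / i.blk.mu ^ s) := by
    intro k hk
    have h := norm_iteratedFDerivWithin_comp_le (g := c i) (f := tlog) (n := k) (N := 2)
      (t := univ) (C := B * (i.blk.mu ^ 2 / i.blk.mu ^ s)) (D := D) (hc i).contDiffOn
      contDiffOn_tlog (by exact_mod_cast hk) uniqueDiffOn_univ hu (mapsTo_univ _ _) hy'
      (fun j hj => by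
        rw [iteratedFDerivWithin_univ, norm_iteratedFDeriv_eq_norm_iteratedDeriv]
        have hj2 : j ≤ 2 := hj.trans hk
        interval_cases j
        · simpa using b0
        · simpa using b1
        · rw [show (2 : ℕ) = 1 + 1 from rfl, iteratedDeriv_succ, iteratedDeriv_one,
            Real.norm_eq_abs]
          exact b2)
      (fun j h1 h2 => (hD1b y hyK j h1 (h2.trans hk)).trans
        (pow_le_pow_left₀ (by linarith) (le_max_left _ _) j))
    refine h.trans ?_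
    have hf : ((Nat.factorial k : ℕ) : ℝ) ≤ 2 := by interval_cases k <;> norm_num [Nat.factorial]
    have hp : D ^ k ≤ D ^ 2 := pow_le_pow_right₀ hDone hk
    calc (k.factorial : ℝ) * (B * (i.blk.mu ^ 2 / i.blk.mu ^ s)) * D ^ k
        ≤ 2 * (B * (i.blk.mu ^ 2 / i.blk.mu ^ s)) * D ^ 2 := by gcongr
      _ = _ := by ring
  have hY : ∀ k, k ≤ 2 → ‖iteratedFDerivWithin ℝ k (fun y => Y i (sph y)) chartOff y‖ ≤
      2 * 2048 * D ^ 2 * i.blk.mu ^ 4 := by
    intro k hk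
    have h := norm_iteratedFDerivWithin_comp_le (g := Y i) (f := sph) (n := k) (N := 2)
      (t := univ) (C := 2048 * i.blk.mu ^ 4) (D := D) (Sphere.contDiff_Y i).contDiffOn
      contDiffOn_sph (by exact_mod_cast hk) uniqueDiffOn_univ hu (mapsTo_univ _ _) hy'
      (fun j hj => by
        rw [iteratedFDerivWithin_univ]
        exact norm_iteratedFDeriv_Y_le i hy' (hj.trans hk))
      (fun j h1 h2 => (hD2b y hyK j h1 (h2.trans hk)).trans
        (pow_le_pow_left₀ (by linarith) (le_max_right _ _) j))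
    refine h.trans ?_
    have hf : ((Nat.factorial k : ℕ) : ℝ) ≤ 2 := by interval_cases k <;> norm_num [Nat.factorial]
    have hp : D ^ k ≤ D ^ 2 := pow_le_pow_right₀ hDone hk
    calc (k.factorial : ℝ) * (2048 * i.blk.mu ^ 4) * D ^ k
        ≤ 2 * (2048 * i.blk.mu ^ 4) * D ^ 2 := by gcongr
      _ = _ := by ring
  have hall : ∀ k, k ≤ 2 → ‖iteratedFDeriv ℝ k (modeTerm c i) y‖ ≤
      4 * (2 * B * D ^ 2) * (2 * 2048 * D ^ 2) * (i.blk.mu ^ 6 / i.blk.mu ^ s) := by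
    intro k hk
    rw [← iteratedFDerivWithin_of_isOpen k isOpen_chartOff hy']
    have h1 := (hc i).comp_contDiffOn contDiffOn_tlog
    have h2 := (Sphere.contDiff_Y i (n := 2)).comp_contDiffOn contDiffOn_sph
    refine (norm_iteratedFDerivWithin_mul_le h1 h2 hu hy' (n := k) (by exact_mod_cast hk)).trans ?_
    calc ∑ j ∈ Finset.range (k + 1), (k.choose j : ℝ) *
          ‖iteratedFDerivWithin ℝ j (c i ∘ tlog) chartOff y‖ *
          ‖iteratedFDerivWithin ℝ (k - j) (Y i ∘ sph) chartOff y‖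
        ≤ ∑ j ∈ Finset.range (k + 1), (k.choose j : ℝ) *
          (2 * B * D ^ 2 * (i.blk.mu ^ 2 / i.blk.mu ^ s)) * (2 * 2048 * D ^ 2 * i.blk.mu ^ 4) := by
          refine Finset.sum_le_sum fun j hj => ?_
          have hj' : j ≤ k := Nat.lt_succ_iff.1 (Finset.mem_range.1 hj)
          gcongr
          · exact hA j (hj'.trans hk)
          · exact hY (k - j) (by omega)
      _ = (2 : ℝ) ^ k * ((2 * B * D ^ 2) * (2 * 2048 * D ^ 2) *
          (i.blk.mu ^ 6 / i.blk.mu ^ s)) := by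
          rw [← Finset.sum_mul, ← Finset.sum_mul, ← Nat.cast_sum, Nat.sum_range_choose]
          push_cast
          ring
      _ ≤ 4 * ((2 * B * D ^ 2) * (2 * 2048 * D ^ 2) * (i.blk.mu ^ 6 / i.blk.mu ^ s)) := by
          gcongr
          calc (2 : ℝ) ^ k ≤ 2 ^ 2 := pow_le_pow_right₀ one_le_two hk
            _ = 4 := by norm_num
      _ = _ := by ring
  refine ⟨?_, ?_, ?_⟩
  · simpa using hall 0 (by norm_num)
  · rw [← norm_iteratedFDeriv_one]; exact hall 1 (by norm_num)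
  · rw [← norm_iteratedFDeriv_one, norm_iteratedFDeriv_fderiv]; exact hall 2 le_rfl

/-- `∑ mu^4 / mu^s`. -/
def modeConst (s : ℕ) : ℝ := ∑' i : St, i.blk.mu ^ 4 / i.blk.mu ^ s

theorem modeConst_nonneg (s : ℕ) : 0 ≤ modeConst s :=
  tsum_nonneg fun i => by
    have := zero_le_one.trans (Blk.one_le_mu i.blk)
    positivity

/-- Pointwise bound of a mode series. -/
theorem abs_tsum_modes_le {c : St → ℝ → ℝ} {s : ℕ} (hs : 13 ≤ s) {x : Pt 7} (hx : x ∈ chartOff)
    {B : ℝ} (hB : ∀ i, |c i (tlog x)| ≤ B * (i.blk.mu ^ 2 / i.blk.mu ^ s)) :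
    |∑' i, modeTerm c i x| ≤ modeConst s * B := by
  obtain ⟨z, hz⟩ := exists_crd2_sph hx
  have hb : ∀ i, ‖modeTerm c i x‖ ≤ B * (i.blk.mu ^ 4 / i.blk.mu ^ s) := by
    intro i
    rw [Real.norm_eq_abs, modeTerm, abs_mul, ← hz]
    calc |c i (tlog x)| * |Y i (Sphere.crd2 z)|
        ≤ B * (i.blk.mu ^ 2 / i.blk.mu ^ s) * i.blk.mu ^ 2 :=
          mul_le_mul (hB i) ((Sphere.abs_Y_le i z).trans (sqrt_dim_le i.blk)) (abs_nonneg _)
            ((abs_nonneg _).trans (hB i))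
      _ = B * (i.blk.mu ^ 4 / i.blk.mu ^ s) := by ring
  have hs' : Summable fun i : St => B * (i.blk.mu ^ 4 / i.blk.mu ^ s) :=
    (summable_pow_div (by omega)).mul_left B
  rw [← Real.norm_eq_abs, modeConst, mul_comm, ← tsum_mul_left]
  exact tsum_of_norm_bounded hs'.hasSum hb

end

end Vale.Agent.P225
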