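import Vale.Agent.P225.Metric.Warp
import Vale.Agent.P225.Assembly.Series

/-!
P225 assembly (helper29): PDE from mode equations.

`u = ∑ c_i (log r) Φ_i (ω, θ)` is harmonic for `dr² + r² P⁻¹` where the mode equation
`c_j'' + (5 + v) c_j' = ∑ A_ij c_i` holds and `∑ X_p (P_pq X_q Φ_i) = -∑ A_ij Φ_j`.
-/

namespace Vale.Agent.P225

open scoped BigOperators
open Set Matrix

noncomputable section

variable {x : Pt 7}

/-- `∑ X_p (P_pq X_q Φ)` on the ambient space of the cross-section. -/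
def crossLap (P : Sph → M6) (Φ : Sph → ℝ) (z : Sph) : ℝ :=
  ∑ p, fderiv ℝ (fun w => ∑ q, P w p q * fderiv ℝ Φ w (sfield q w)) z (sfield p z)

theorem sfield_eq_smul (k : Fin 2 × Fin 3) (x : Pt 7) :
    sfield k (sph x) = ((Real.sqrt (rsq x))⁻¹ • (sfield k (xc x, yc x)).1,
      (Real.sqrt (ys x))⁻¹ • (sfield k (xc x, yc x)).2) := by
  simp only [sfield, sph]
  split_ifs <;> simp [mulVec_smul]

theorem hasFDerivAt_invSqrt {f : Pt 7 → ℝ} (hf : DifferentiableAt ℝ f x) (hpos : 0 < f x) :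
    ∃ L : Pt 7 →L[ℝ] ℝ, HasFDerivAt (fun y => (Real.sqrt (f y))⁻¹) L x ∧
      ∀ v, L v = -(dirDeriv f v x) / (2 * f x * Real.sqrt (f x)) := by
  refine ⟨_, (hasDerivAt_inv (Real.sqrt_pos.2 hpos).ne').comp_hasFDerivAt x
    (hf.hasFDerivAt.sqrt hpos.ne'), fun v => ?_⟩
  have hs := Real.sq_sqrt hpos.le
  have hne := (Real.sqrt_pos.2 hpos).ne'
  simp only [_root_.smul_apply, smul_eq_mul, dirDeriv]
  field_simp
  rw [hs]
  field_simp

theorem differentiableAt_sph (hx : x ∈ chartOff) : DifferentiableAt ℝ sph x := by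
  obtain ⟨L, hL, -⟩ := hasFDerivAt_invSqrt (differentiableAt_rsq hx.1) hx.2
  obtain ⟨L', hL', -⟩ := hasFDerivAt_invSqrt (f := ys)
    (contDiff_ys.differentiable (by norm_num) x) hx.1
  refine DifferentiableAt.prodMk (differentiableAt_pi.2 fun i => ?_) (differentiableAt_pi.2 fun i => ?_)
  · simp only [Pi.smul_apply, smul_eq_mul]
    exact hL.differentiableAt.fun_mul (hasFDerivAt_xc hx.1 i).differentiableAt
  · simp only [Pi.smul_apply, smul_eq_mul]
    refine hL'.differentiableAt.fun_mul ?_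
    fin_cases i <;> exact differentiableAt_apply _ x

theorem fderiv_sph_apply (hx : x ∈ chartOff) (v : Pt 7) :
    fderiv ℝ sph x v = ((Real.sqrt (rsq x))⁻¹ • dxc x v
        - ((xc x ⬝ᵥ dxc x v) / (rsq x * Real.sqrt (rsq x))) • xc x,
      (Real.sqrt (ys x))⁻¹ • yc v
        - ((yc x ⬝ᵥ yc v) / (ys x * Real.sqrt (ys x))) • yc x) := by
  obtain ⟨L, hL, hLv⟩ := hasFDerivAt_invSqrt (differentiableAt_rsq hx.1) hx.2
  obtain ⟨L', hL', hLv'⟩ := hasFDerivAt_invSqrt (f := ys)
    (contDiff_ys.differentiable (by norm_num) x) hx.1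
  have hys : dirDeriv ys v x = 2 * (yc x ⬝ᵥ yc v) := by
    have e : ys = fun y => ∑ i, yc y i * yc y i := funext fun y => (ys_eq y).symm
    have hd : ∀ i, DifferentiableAt ℝ (fun y => yc y i) x := fun i => by
      fin_cases i <;> exact differentiableAt_apply _ x
    have hdi : ∀ i, dirDeriv (fun y => yc y i) v x = yc v i := fun i => by
      fin_cases i <;> exact dirDeriv_apply _ v
    rw [e, dirDeriv_sum fun i => (hd i).fun_mul (hd i), dotProduct, Finset.mul_sum]
    exact Finset.sum_congr rfl fun i _ => by rw [dirDeriv_mul (hd i) (hd i), hdi]; ring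
  have h1 : HasFDerivAt (fun y => (Real.sqrt (rsq y))⁻¹ • xc y) (_ : Pt 7 →L[ℝ] Fin 4 → ℝ) x :=
    hL.smul (hasFDerivAt_pi.2 fun i => hasFDerivAt_xc hx.1 i)
  have hyc : ∀ i, HasFDerivAt (fun y => yc y i) (fderiv ℝ (fun y => yc y i) x) x := fun i => by
    fin_cases i <;> exact (differentiableAt_apply _ x).hasFDerivAt
  have h2 : HasFDerivAt (fun y => (Real.sqrt (ys y))⁻¹ • yc y) (_ : Pt 7 →L[ℝ] Fin 4 → ℝ) x :=
    hL'.smul (hasFDerivAt_pi.2 hyc)
  rw [show sph = fun y => ((Real.sqrt (rsq y))⁻¹ • xc y, (Real.sqrt (ys y))⁻¹ • yc y) from rfl,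
    (h1.prodMk h2).fderiv]
  have e1 : (ContinuousLinearMap.pi fun i => fderiv ℝ (fun y => xc y i) x) v = dxc x v :=
    funext fun i => dirDeriv_xc hx.1 i v
  have e2 : (ContinuousLinearMap.pi fun i => fderiv ℝ (fun y => yc y i) x) v = yc v :=
    funext fun i => by fin_cases i <;> exact dirDeriv_apply _ v
  simp only [ContinuousLinearMap.prod_apply, _root_.add_apply, _root_.smul_apply,
    ContinuousLinearMap.smulRight_apply, hLv, hLv', e1, e2, dirDeriv_rsq hx.1, hys]
  refine Prod.ext ?_ ?_ <;> dsimp only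
  · rw [sub_eq_add_neg, ← neg_smul]
    congr 2
    field_simp
  · rw [sub_eq_add_neg, ← neg_smul]
    congr 2
    field_simp

theorem fderiv_sph_zero (hx : x ∈ chartOff) : fderiv ℝ sph x (baseField 0 x) = 0 := by
  have h1 : rsq x ≠ 0 := ne_of_gt hx.2
  have h2 : ys x ≠ 0 := ne_of_gt hx.1
  rw [fderiv_sph_apply hx, dxc_baseField_zero hx.1, baseField_zero, liftField, yc_liftVec,
    dotProduct_smul, ys_eq, show xc x ⬝ᵥ xc x = rsq x from rfl]
  refine Prod.ext ?_ ?_
  · show _ - _ = (0 : Fin 4 → ℝ)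
    rw [sub_eq_zero]
    congr 1
    field_simp
  · show _ - _ = (0 : Fin 4 → ℝ)
    rw [sub_eq_zero, smul_smul]
    congr 1
    simp only [one_mulVec, smul_eq_mul]
    field_simp

theorem fderiv_sph_idx (hx : x ∈ chartOff) (k : Fin 2 × Fin 3) :
    fderiv ℝ sph x (baseField (idx k) x) = sfield k (sph x) := by
  rw [fderiv_sph_apply hx, dxc_baseField_idx hx.1, sfield_eq_smul, baseField_idx]
  obtain ⟨i, σ⟩ := k
  fin_cases i <;>
    simp [sfield, qmul_skew, liftField, spinField, yc_liftVec, yc_spinVec, dotProduct_smul, ys_eq]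
  have h2 : ys x ≠ 0 := ne_of_gt hx.1
  rw [sub_eq_zero, smul_smul]
  congr 1
  field_simp

/-- Derivative along a base field of a function of `(log r, ω, θ)`. -/
theorem dirDeriv_comp_coord (hx : x ∈ chartOff) {G : ℝ × Sph → ℝ}
    (hG : DifferentiableAt ℝ G (tlog x, sph x)) (v : Pt 7) :
    dirDeriv (fun y => G (tlog y, sph y)) v x
      = fderiv ℝ G (tlog x, sph x) (dirDeriv tlog v x, fderiv ℝ sph x v) := by
  have ht : DifferentiableAt ℝ tlog x :=
    ((differentiableAt_rsq hx.1).log (ne_of_gt hx.2)).mul_const (1 / 2) |>.congr_of_eventuallyEq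
      (Filter.Eventually.of_forall fun y => by simp [tlog]; ring)
  have h := hG.hasFDerivAt.comp x (ht.hasFDerivAt.prodMk (differentiableAt_sph hx).hasFDerivAt)
  show fderiv ℝ (G ∘ fun y => (tlog y, sph y)) x v = _
  rw [h.fderiv]
  rfl

theorem dirDeriv_zero_coord (hx : x ∈ chartOff) {G : ℝ × Sph → ℝ}
    (hG : DifferentiableAt ℝ G (tlog x, sph x)) :
    dirDeriv (fun y => G (tlog y, sph y)) (baseField 0 x) x
      = deriv (fun t => G (t, sph x)) (tlog x) := by
  rw [dirDeriv_comp_coord hx hG, dirDeriv_tlog_zero hx, fderiv_sph_zero hx]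
  have h := hG.hasFDerivAt.comp_hasDerivAt (tlog x)
    ((hasDerivAt_id (tlog x)).prodMk (hasDerivAt_const (tlog x) (sph x)))
  rw [show (fun t => G (t, sph x)) = G ∘ fun t => (id t, sph x) from rfl, h.deriv]

theorem dirDeriv_idx_coord (hx : x ∈ chartOff) {G : ℝ × Sph → ℝ}
    (hG : DifferentiableAt ℝ G (tlog x, sph x)) (k : Fin 2 × Fin 3) :
    dirDeriv (fun y => G (tlog y, sph y)) (baseField (idx k) x) x
      = fderiv ℝ (fun z => G (tlog x, z)) (sph x) (sfield k (sph x)) := by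
  rw [dirDeriv_comp_coord hx hG, dirDeriv_tlog_idx hx, fderiv_sph_idx hx]
  have h := hG.hasFDerivAt.comp (sph x)
    ((hasFDerivAt_const (tlog x) (sph x)).prodMk (hasFDerivAt_id (sph x)))
  rw [show (fun z => G (tlog x, z)) = G ∘ Prod.mk (tlog x) from rfl, h.fderiv]
  rfl

theorem contDiff_sfield (k : Fin 2 × Fin 3) {n : WithTop ℕ∞} : ContDiff ℝ n (sfield k) := by
  obtain ⟨i, σ⟩ := k
  have hm : ContDiff ℝ n fun q : Fin 4 → ℝ => qmul σ *ᵥ q :=
    (LinearMap.toContinuousLinearMap (Matrix.mulVecLin (qmul σ))).contDiff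
  fin_cases i
  · exact (hm.comp contDiff_fst).prodMk contDiff_const
  · exact contDiff_const.prodMk (hm.comp contDiff_snd)

/-- The Laplacian of one mode `c (log r) Φ (ω, θ)`. -/
theorem laplacian_mode {P : ℝ → Sph → M6} {s : Set (Pt 7)} {Mb Nb : Pt 7 → M6}
    (h : WarpLocal P s Mb Nb) (hx : x ∈ s) {D : ℝ → ℝ} {D' : ℝ}
    (hdet : ∀ y ∈ s, (P (tlog y) (sph y)).det = D (tlog y)) (hD : HasDerivAt D D' (tlog x))
    (hP : ∀ p q, DifferentiableAt ℝ (fun a : ℝ × Sph => P a.1 a.2 p q) (tlog x, sph x))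
    {c c' : ℝ → ℝ} {c'' : ℝ} (hc : ∀ t, HasDerivAt c (c' t) t)
    (hc' : HasDerivAt c' c'' (tlog x)) {Φ : Sph → ℝ} (hΦ : ContDiff ℝ 2 Φ)
    (hu : ContDiffAt ℝ 2 (fun y => c (tlog y) * Φ (sph y)) x) :
    laplacian (warpMetric P) (fun y => c (tlog y) * Φ (sph y)) x = (rsq x)⁻¹ *
      ((c'' + (5 - D' / (2 * D (tlog x))) * c' (tlog x)) * Φ (sph x)
        + c (tlog x) * crossLap (P (tlog x)) Φ (sph x)) := by
  have hx0 := h.subset hx
  set DΦ : Fin 2 × Fin 3 → Sph → ℝ := fun q w => fderiv ℝ Φ w (sfield q w) with hDΦ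
  have hDΦd : ∀ q, Differentiable ℝ (DΦ q) := fun q =>
    ((hΦ.fderiv_right (m := 1) (by norm_num)).clm_apply (contDiff_sfield q)).differentiable
      one_ne_zero
  have hΦd : Differentiable ℝ Φ := hΦ.differentiable (by norm_num)
  have hcd : Differentiable ℝ c := fun t => (hc t).differentiableAt
  have first : ∀ y ∈ s, dirDeriv (fun y => c (tlog y) * Φ (sph y)) (baseField 0 y) y
      = c' (tlog y) * Φ (sph y) := by
    intro y hy
    have hG : DifferentiableAt ℝ (fun a : ℝ × Sph => c a.1 * Φ a.2) (tlog y, sph y) := by fun_prop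
    rw [dirDeriv_zero_coord (G := fun a => c a.1 * Φ a.2) (h.subset hy) hG]
    show deriv (fun t => c t * Φ (sph y)) (tlog y) = _
    exact ((hc (tlog y)).mul_const _).deriv
  have tang : ∀ q, ∀ y ∈ s, dirDeriv (fun y => c (tlog y) * Φ (sph y)) (baseField (idx q) y) y
      = c (tlog y) * DΦ q (sph y) := by
    intro q y hy
    have hG : DifferentiableAt ℝ (fun a : ℝ × Sph => c a.1 * Φ a.2) (tlog y, sph y) := by fun_prop
    rw [dirDeriv_idx_coord (G := fun a => c a.1 * Φ a.2) (h.subset hy) hG]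
    show fderiv ℝ (fun z => c (tlog y) * Φ z) (sph y) (sfield q (sph y)) = _
    rw [fderiv_const_mul (hΦd _)]
    rfl
  rw [laplacian_warp h hx hdet hD hu, first x hx,
    dirDeriv_congr h.isOpen hx (h := fun y => c' (tlog y) * Φ (sph y)) first]
  have hR : dirDeriv (fun y => c' (tlog y) * Φ (sph y)) (baseField 0 x) x
      = c'' * Φ (sph x) := by
    have hG : DifferentiableAt ℝ (fun a : ℝ × Sph => c' a.1 * Φ a.2) (tlog x, sph x) :=
      (hc'.differentiableAt.comp (tlog x, sph x) differentiableAt_fst).fun_mul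
        ((hΦd _).comp (tlog x, sph x) differentiableAt_snd)
    rw [dirDeriv_zero_coord (G := fun a => c' a.1 * Φ a.2) hx0 hG]
    show deriv (fun t => c' t * Φ (sph x)) (tlog x) = _
    exact (hc'.mul_const _).deriv
  have hT : ∀ p, dirDeriv (fun y => ∑ q, P (tlog y) (sph y) p q
        * dirDeriv (fun y => c (tlog y) * Φ (sph y)) (baseField (idx q) y) y) (baseField (idx p) x) x
      = c (tlog x) * fderiv ℝ (fun w => ∑ q, P (tlog x) w p q * DΦ q w) (sph x)
          (sfield p (sph x)) := by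
    intro p
    rw [dirDeriv_congr h.isOpen hx
      (h := fun y => ∑ q, P (tlog y) (sph y) p q * (c (tlog y) * DΦ q (sph y)))
      (fun y hy => by simp only [tang _ y hy])]
    have hd1 : ∀ q, DifferentiableAt ℝ (fun a : ℝ × Sph => c a.1 * DΦ q a.2) (tlog x, sph x) :=
      fun q => ((hcd _).comp (tlog x, sph x) differentiableAt_fst).fun_mul
        ((hDΦd q _).comp (tlog x, sph x) differentiableAt_snd)
    rw [dirDeriv_idx_coord (G := fun a => ∑ q, P a.1 a.2 p q * (c a.1 * DΦ q a.2)) hx0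
      (DifferentiableAt.fun_sum fun q _ => (hP p q).fun_mul (hd1 q))]
    have e : (fun z => ∑ q, P (tlog x) z p q * (c (tlog x) * DΦ q z))
        = fun z => c (tlog x) * ∑ q, P (tlog x) z p q * DΦ q z := by
      funext z
      rw [Finset.mul_sum]
      exact Finset.sum_congr rfl fun q _ => by ring
    have hPz : ∀ q, DifferentiableAt ℝ (fun z => P (tlog x) z p q) (sph x) := fun q =>
      (hP p q).comp (sph x) ((differentiableAt_const _).prodMk differentiableAt_id)
    simp only [e]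
    rw [fderiv_const_mul (DifferentiableAt.fun_sum fun q _ => (hPz q).fun_mul (hDΦd q _))]
    rfl
  rw [hR, Finset.sum_congr rfl fun p _ => hT p, ← Finset.mul_sum]
  rw [show crossLap (P (tlog x)) Φ (sph x) = ∑ p, fderiv ℝ
    (fun w => ∑ q, P (tlog x) w p q * DΦ q w) (sph x) (sfield p (sph x)) from rfl]
  ring

/-- A series of modes solving the mode equations is harmonic. -/
theorem laplacian_modes {P : ℝ → Sph → M6} {s : Set (Pt 7)} {Mb Nb : Pt 7 → M6}
    (h : WarpLocal P s Mb Nb) (hx : x ∈ s) {D : ℝ → ℝ} {D' : ℝ}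
    (hdet : ∀ y ∈ s, (P (tlog y) (sph y)).det = D (tlog y)) (hD : HasDerivAt D D' (tlog x))
    (hP : ∀ p q, DifferentiableAt ℝ (fun a : ℝ × Sph => P a.1 a.2 p q) (tlog x, sph x))
    {ι : Type*} {c c' : ι → ℝ → ℝ} {c'' : ι → ℝ} {Φ : ι → Sph → ℝ}
    (hc : ∀ i t, HasDerivAt (c i) (c' i t) t) (hc' : ∀ i, HasDerivAt (c' i) (c'' i) (tlog x))
    (hΦ : ∀ i, ContDiff ℝ 2 (Φ i))
    (hF : ∀ i, ContDiffOn ℝ 2 (fun y => c i (tlog y) * Φ i (sph y)) s)
    (hS : LocallyC2Summable s fun i y => c i (tlog y) * Φ i (sph y))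
    {A : ι → ι →₀ ℝ}
    (hA : ∀ i, crossLap (P (tlog x)) (Φ i) (sph x) = -(A i).sum fun j a => a * Φ j (sph x))
    (hsum : Summable fun p : ι × ι => c p.1 (tlog x) * A p.1 p.2 * Φ p.2 (sph x))
    (hode : ∀ j, ∀ z : ℝ, HasSum (fun i => c i (tlog x) * A i j * z)
      ((c'' j + (5 - D' / (2 * D (tlog x))) * c' j (tlog x)) * z)) :
    laplacian (warpMetric P) (fun y => ∑' i, c i (tlog y) * Φ i (sph y)) x = 0 := by
  rw [hS.laplacian_tsum h.isOpen hF (warpMetric P) hx]
  have e : ∀ i, laplacian (warpMetric P) (fun y => c i (tlog y) * Φ i (sph y)) x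
      = (rsq x)⁻¹ * ((c'' i + (5 - D' / (2 * D (tlog x))) * c' i (tlog x)) * Φ i (sph x)
          - ∑' j, c i (tlog x) * A i j * Φ j (sph x)) := by
    intro i
    rw [laplacian_mode h hx hdet hD hP (hc i) (hc' i) (hΦ i)
      ((hF i).contDiffAt (h.isOpen.mem_nhds hx)), hA i]
    congr 1
    rw [tsum_eq_sum (s := (A i).support) fun j hj => by
      simp [Finsupp.notMem_support_iff.1 hj], Finsupp.sum, mul_neg, Finset.mul_sum, sub_eq_add_neg]
    congr 2
    exact Finset.sum_congr rfl fun j _ => by ring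
  have h1 : HasSum (fun i => ∑' j, c i (tlog x) * A i j * Φ j (sph x))
      (∑' p : ι × ι, c p.1 (tlog x) * A p.1 p.2 * Φ p.2 (sph x)) :=
    hsum.hasSum.prod_fiberwise fun i => (hsum.comp_injective (Prod.mk_right_injective i)).hasSum
  have h2 : HasSum (fun j => (c'' j + (5 - D' / (2 * D (tlog x))) * c' j (tlog x)) * Φ j (sph x))
      (∑' p : ι × ι, c p.1 (tlog x) * A p.1 p.2 * Φ p.2 (sph x)) := by
    have hs := ((Equiv.prodComm ι ι).hasSum_iff (f := fun p : ι × ι =>
      c p.1 (tlog x) * A p.1 p.2 * Φ p.2 (sph x))).2 hsum.hasSum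
    exact hs.prod_fiberwise fun j => hode j (Φ j (sph x))
  rw [tsum_congr e, tsum_mul_left, (h2.sub h1).tsum_eq, sub_self, mul_zero]

end

end Vale.Agent.P225
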