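import Vale.Agent.P225.Defs

/-!
P225 assembly (helper29): from a linear family of harmonic functions with `|u| ≤ C (1 + ρ)^k`,
`ρ` a lower bound of the distance up to a constant, to `YauFailsAt n k`.
-/

namespace Vale.Agent.P225

noncomputable section

variable {n : ℕ}

theorem growth_of_lower_bound {U : Set (Pt n)} {g : MetricField n} {o : Pt n} {u ρ : Pt n → ℝ}
    {k : ℕ} {C C₀ : ℝ} (hρ : ∀ x ∈ U, 0 ≤ ρ x) (hd : ∀ x ∈ U, ρ x ≤ dist U g o x + C₀)
    (hd0 : ∀ x ∈ U, 0 ≤ dist U g o x) (hu : ∀ x ∈ U, |u x| ≤ C * (1 + ρ x) ^ k) :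
    ∃ C' : ℝ, ∀ x ∈ U, |u x| ≤ C' * (1 + dist U g o x) ^ k := by
  refine ⟨max C 0 * (1 + max C₀ 0) ^ k, fun x hx => (hu x hx).trans ?_⟩
  have h0 := hρ x hx
  have h1 : 1 + ρ x ≤ (1 + max C₀ 0) * (1 + dist U g o x) := by
    have := hd x hx
    nlinarith [le_max_left C₀ 0, le_max_right C₀ 0, hd0 x hx,
      mul_nonneg (le_max_right C₀ 0) (hd0 x hx)]
  calc C * (1 + ρ x) ^ k ≤ max C 0 * (1 + ρ x) ^ k :=
        mul_le_mul_of_nonneg_right (le_max_left _ _) (by positivity)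
    _ ≤ max C 0 * ((1 + max C₀ 0) * (1 + dist U g o x)) ^ k := by gcongr
    _ = max C 0 * (1 + max C₀ 0) ^ k * (1 + dist U g o x) ^ k := by rw [mul_pow]; ring

theorem dist_nonneg_sInf (U : Set (Pt n)) (g : MetricField n) (x y : Pt n) : 0 ≤ dist U g x y := by
  refine Real.sInf_nonneg ?_
  rintro L ⟨γ, -, -, -, -, rfl⟩
  exact intervalIntegral.integral_nonneg zero_le_one fun t _ => Real.sqrt_nonneg _

/-- The reduction used by the hand-in: a linear map from a space of dimension above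
`h_k(ℝ^n)` into harmonic functions of growth at most `k`, injective on `U`. -/
theorem yauFailsAt_of {U : Set (Pt n)} {g : MetricField n} {o : Pt n} {k : ℕ}
    (ho : o ∈ U) (hM : IsCompleteNonnegRicci U g)
    {ρ : Pt n → ℝ} {C₀ : ℝ} (hρ : ∀ x ∈ U, 0 ≤ ρ x)
    (hd : ∀ x ∈ U, ρ x ≤ dist U g o x + C₀)
    {N : ℕ} (hN : euclideanDim n k < N) (L : (Fin N → ℝ) →ₗ[ℝ] Pt n → ℝ)
    (hC2 : ∀ e, ContDiffOn ℝ 2 (L e) U) (hΔ : ∀ e, ∀ x ∈ U, laplacian g (L e) x = 0)
    (hgrowth : ∀ e, ∃ C : ℝ, ∀ x ∈ U, |L e x| ≤ C * (1 + ρ x) ^ k)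
    (hinj : ∀ e, (∀ x ∈ U, L e x = 0) → e = 0) :
    YauFailsAt n k := by
  refine ⟨U, g, o, ho, hM,
    fun m => L (Pi.single (Fin.castLE hN m) 1), fun m => ⟨hC2 _, hΔ _, ?_⟩, ?_⟩
  · obtain ⟨C, hC⟩ := hgrowth (Pi.single (Fin.castLE hN m) 1)
    exact growth_of_lower_bound hρ hd (fun x _ => dist_nonneg_sInf U g o x) hC
  · have hres : LinearIndependent ℝ fun m : Fin N => fun x : U => L (Pi.single m 1) x := by
      let R : (Fin N → ℝ) →ₗ[ℝ] U → ℝ :=
        { toFun := fun e x => L e x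
          map_add' := fun a b => by ext x; simp
          map_smul' := fun r a => by ext x; simp }
      have hR : LinearMap.ker R = ⊥ := by
        rw [LinearMap.ker_eq_bot']
        exact fun e he => hinj e fun x hx => congrFun he ⟨x, hx⟩
      have := (Pi.basisFun ℝ (Fin N)).linearIndependent.map' R hR
      simpa [R, Function.comp_def] using this
    exact hres.comp (Fin.castLE hN) (Fin.castLE_injective hN)

end

end Vale.Agent.P225
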