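import Vale.Agent.P225.Metric.Global
import Vale.Agent.P225.Assembly.Modes
import Vale.Agent.P225.Assembly.ModeBounds
import Vale.Agent.P225.Assembly.Reduce
import Vale.Agent.P225.Assembly.Continuity
import Vale.Agent.P225.Sphere.Real

/-!
P225 assembly (helper23): the final reduction. A linear injective family of mode coefficients
solving the mode equations, with exponential growth at most `14` and an extension through the core,
gives `YauFailsAt 7 14`.
-/

namespace Vale.Agent.P225

open scoped BigOperators ContDiff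
open Set Matrix MeasureTheory
open Sphere (Y)

noncomputable section

variable {κ : ℝ} (C : CapData κ) (S : Sched) (F : ModelFields Sph) (τ : Params)

/-- Polynomial bound of an operator family on bounded time intervals. -/
def OpBound (A : ℝ → St → St →₀ ℝ) (q : ℕ) : Prop :=
  ∀ T₀ T₁ : ℝ, ∃ B : ℝ, ∀ t ∈ Icc T₀ T₁, ∀ i : St,
    ((A t i).sum fun j a => |a| * j.blk.mu ^ 4) ≤ B * i.blk.mu ^ q

/-- `A` is the cross-section operator in the basis `Y`. -/
def CrossEq (A : ℝ → St → St →₀ ℝ) : Prop :=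
  ∀ t i, ∀ x ∈ chartOff, crossLap (endP C S F τ t) (Y i) (sph x)
    = -(A t i).sum fun j a => a * Y j (sph x)

/-- The mode equations. -/
def ModeEq (c : St → ℝ → ℝ) (A : ℝ → St → St →₀ ℝ) : Prop :=
  ∀ j t, HasSum (fun i => c i t * A t i j)
    (deriv (deriv (c j)) t + (5 - deriv (endD C S) t / (2 * endD C S t)) * deriv (c j) t)

/-- Exponential growth at most `14`, with the decay in the state. -/
def GrowthBound (c : St → ℝ → ℝ) (s : ℕ) : Prop :=
  ∃ B : ℝ, ∀ i t, |c i t| ≤ B * Real.exp (14 * max t 0) * (i.blk.mu ^ 2 / i.blk.mu ^ s)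

/-- The sum of the modes. -/
def modeSum (c : St → ℝ → ℝ) (x : Pt 7) : ℝ := ∑' i, modeTerm c i x

/-- What is asked of one coefficient family. -/
structure CoefSol (A : ℝ → St → St →₀ ℝ) (s : ℕ) (c : St → ℝ → ℝ) : Prop where
  smooth : ∀ i, ContDiff ℝ 2 (c i)
  bound : CoeffBound c s
  ode : ModeEq C S c A
  growth : GrowthBound c s
  core : ∃ f, ContDiffOn ℝ 2 f chart ∧ EqOn f (modeSum c) chartOff

variable {C S F τ}

theorem LocallyC2Summable.mono {n : ℕ} {ι : Type*} {U V : Set (Pt n)} {G : ι → Pt n → ℝ}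
    (h : LocallyC2Summable U G) (hV : IsOpen V) (hVU : V ⊆ U) : LocallyC2Summable V G := by
  intro x hx
  obtain ⟨r, hr, -, b, hb, hbd⟩ := h x (hVU hx)
  obtain ⟨r', hr', hsub⟩ := Metric.isOpen_iff.1 hV x hx
  refine ⟨min r r', lt_min hr hr',
    (Metric.ball_subset_ball (min_le_right _ _)).trans hsub, b, hb, fun i y hy => ?_⟩
  exact hbd i y (Metric.ball_subset_ball (min_le_left _ _) hy)

/-- `endD` is differentiable: near every time it is a determinant of the square root squared. -/
theorem EndHyps.differentiable_endD (H : EndHyps C S F τ) : Differentiable ℝ (endD C S) := by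
  intro t
  obtain ⟨I, M, N, ht, hR, hdet⟩ := H.exists_root t
  let z : Sph := (fun _ => 1, fun _ => 1)
  have hz : z ∈ punct :=
    ⟨fun h => one_ne_zero (congrFun h 0), fun h => one_ne_zero (congrFun h 0)⟩
  have hM : ∀ p q, ContDiffOn ℝ ∞ (fun s => M (s, z) p q) I := fun p q =>
    (hR.smooth_M p q).comp (contDiff_id.prodMk contDiff_const).contDiffOn fun s hs => ⟨hs, hz⟩
  have hP : ∀ p q, ContDiffOn ℝ ∞ (fun s => (M (s, z) * (M (s, z))ᵀ) p q) I :=
    contDiffOn_mul_matrix hM fun p q => hM q p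
  have hd : ContDiffOn ℝ ∞ (fun s => (M (s, z) * (M (s, z))ᵀ).det) I := by
    simp only [Matrix.det_apply']
    exact ContDiffOn.sum fun σ _ => contDiffOn_const.mul (contDiffOn_prod fun p _ => hP _ _)
  refine ((hd.differentiableOn (by simp)).differentiableAt
    (hR.isOpen.mem_nhds ht)).congr_of_eventuallyEq ?_
  filter_upwards [hR.isOpen.mem_nhds ht] with s hs
  rw [← hdet s hs z, ← hR.sqrt (s, z) ⟨hs, hz⟩]

/-- `|Y i|` on the cross-section. -/
theorem abs_Y_sph_le (i : St) {x : Pt 7} (hx : x ∈ chartOff) : |Y i (sph x)| ≤ i.blk.mu ^ 2 := by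
  obtain ⟨z, hz⟩ := exists_crd2_sph hx
  rw [← hz]
  exact (Sphere.abs_Y_le i z).trans (sqrt_dim_le i.blk)

theorem summable_modes_op {c : St → ℝ → ℝ} {A : ℝ → St → St →₀ ℝ} {s q : ℕ} (hq : q + 11 ≤ s)
    (hB : CoeffBound c s) (hop : OpBound A q) {x : Pt 7} (hx : x ∈ chartOff) :
    Summable fun p : St × St => c p.1 (tlog x) * A (tlog x) p.1 p.2 * Y p.2 (sph x) := by
  set t := tlog x
  obtain ⟨B, hB0, hBb⟩ := hB t t
  obtain ⟨B', hBb'⟩ := hop t t
  have ht : t ∈ Icc t t := ⟨le_rfl, le_rfl⟩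
  have hmu : ∀ i : St, 0 < i.blk.mu := fun i => zero_lt_one.trans_le (Blk.one_le_mu _)
  refine Summable.of_abs ((summable_prod_of_nonneg fun p => abs_nonneg _).2 ⟨fun i => ?_, ?_⟩)
  · exact summable_of_ne_finset_zero (s := (A t i).support) fun j hj => by
      simp [Finsupp.notMem_support_iff.1 hj]
  refine Summable.of_nonneg_of_le (fun i => tsum_nonneg fun j => abs_nonneg _) (fun i => ?_)
    ((summable_pow_div (q := q + 2) (s := s) (by omega)).mul_left (B * B'))
  dsimp only
  rw [tsum_eq_sum (s := (A t i).support) fun j hj => by simp [Finsupp.notMem_support_iff.1 hj]]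
  calc ∑ j ∈ (A t i).support, |c i t * A t i j * Y j (sph x)|
      ≤ ∑ j ∈ (A t i).support, |c i t| * (|A t i j| * j.blk.mu ^ 4) := by
        refine Finset.sum_le_sum fun j _ => ?_
        rw [abs_mul, abs_mul, mul_assoc]
        gcongr
        exact (abs_Y_sph_le j hx).trans (pow_le_pow_right₀ (Blk.one_le_mu _) (by norm_num))
    _ = |c i t| * (A t i).sum fun j a => |a| * j.blk.mu ^ 4 := by
        rw [Finsupp.sum, Finset.mul_sum]
    _ ≤ B * (i.blk.mu ^ 2 / i.blk.mu ^ s) * (B' * i.blk.mu ^ q) :=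
        mul_le_mul (hBb i t ht).1 (hBb' t ht i)
          (Finset.sum_nonneg fun j _ => by have := hmu j; positivity)
          (by have := hmu i; positivity)
    _ = B * B' * (i.blk.mu ^ (q + 2) / i.blk.mu ^ s) := by ring

/-- **Harmonicity off the core.** -/
theorem laplacian_modeSum (H : EndHyps C S F τ) {A : ℝ → St → St →₀ ℝ} {c : St → ℝ → ℝ}
    {s q : ℕ} (hs : 15 ≤ s) (hq : q + 11 ≤ s) (hc : ∀ i, ContDiff ℝ 2 (c i))
    (hB : CoeffBound c s) (hA : CrossEq C S F τ A) (hop : OpBound A q) (hode : ModeEq C S c A)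
    {x : Pt 7} (hx : x ∈ chartOff) : laplacian (globalMetric C S F τ) (modeSum c) x = 0 := by
  obtain ⟨I, M, N, ht, hR, hdet⟩ := H.exists_root (tlog x)
  rw [EndHyps.laplacian_eq hx]
  have hP : ∀ p p', DifferentiableAt ℝ (fun a : ℝ × Sph => endP C S F τ a.1 a.2 p p')
      (tlog x, sph x) := by
    intro p p'
    have hmem : I ×ˢ punct ∈ nhds (tlog x, sph x) :=
      (hR.isOpen.prod isOpen_punct).mem_nhds ⟨ht, sph_punct hx⟩
    refine (((contDiffOn_mul_matrix hR.smooth_M (B := fun a => (M a)ᵀ)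
      (fun a b => hR.smooth_M b a) p p').differentiableOn (by simp)).differentiableAt
      hmem).congr_of_eventuallyEq ?_
    filter_upwards [hmem] with a ha
    rw [hR.sqrt a ha]
  have hcd : ∀ i, Differentiable ℝ (c i) := fun i => (hc i).differentiable (by norm_num)
  have hcd' : ∀ i, Differentiable ℝ (deriv (c i)) := fun i =>
    ((hc i).deriv' (n := 1)).differentiable one_ne_zero
  exact laplacian_modes hR.warpLocal (s := {y | y ∈ chartOff ∧ tlog y ∈ I}) ⟨hx, ht⟩
    (D := endD C S) (fun y hy => hdet _ hy.2 _) (H.differentiable_endD (tlog x)).hasDerivAt hP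
    (c := c) (c' := fun i => deriv (c i)) (c'' := fun i => deriv (deriv (c i)) (tlog x))
    (fun i t => (hcd i t).hasDerivAt) (fun i => (hcd' i _).hasDerivAt)
    (Φ := Y) (fun i => Sphere.contDiff_Y i)
    (fun i => (contDiffOn_modeTerm hc i).mono fun _ hy => hy.1)
    ((locallyC2Summable_modes hc hs hB).mono hR.isOpen_dom fun _ hy => hy.1)
    (A := A (tlog x)) (fun i => hA _ i x hx) (summable_modes_op hq hB hop hx)
    fun j z => (hode j (tlog x)).mul_right z

theorem exp_max_tlog_le {x : Pt 7} (hx : x ∈ chartOff) :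
    Real.exp (max (tlog x) 0) ≤ 1 + Real.sqrt (rsq x) := by
  rcases le_total (tlog x) 0 with h | h
  · rw [max_eq_right h, Real.exp_zero]
    linarith [Real.sqrt_nonneg (rsq x)]
  · rw [max_eq_left h, tlog, ← Real.log_sqrt hx.2.le, Real.exp_log (Real.sqrt_pos.2 hx.2)]
    linarith

/-- **Growth off the core.** -/
theorem abs_modeSum_le {c : St → ℝ → ℝ} {s : ℕ} (hs : 13 ≤ s) (hg : GrowthBound c s) :
    ∃ K : ℝ, ∀ x ∈ chartOff, |modeSum c x| ≤ K * (1 + Real.sqrt (rsq x)) ^ 14 := by
  obtain ⟨B, hB⟩ := hg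
  refine ⟨modeConst s * max B 0, fun x hx => ?_⟩
  have h := abs_tsum_modes_le hs hx
    (B := max B 0 * Real.exp (14 * max (tlog x) 0)) (fun i => (hB i (tlog x)).trans (by
      have := zero_le_one.trans (Blk.one_le_mu i.blk)
      gcongr
      exact le_max_left _ _))
  refine h.trans ?_
  rw [mul_assoc]
  refine mul_le_mul_of_nonneg_left (mul_le_mul_of_nonneg_left ?_ (le_max_right _ _))
    (modeConst_nonneg s)
  rw [show (14 : ℝ) * max (tlog x) 0 = ((14 : ℕ) : ℝ) * max (tlog x) 0 by norm_num,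
    Real.exp_nat_mul]
  gcongr
  exact exp_max_tlog_le hx

/-- The point with `tlog = t` and cross-section coordinate `w`. -/
def chartPoint (t : ℝ) (w : Sph) : Pt 7 :=
  ![Real.exp (Real.exp t * w.1 0) * w.2 0, Real.exp (Real.exp t * w.1 0) * w.2 1,
    Real.exp (Real.exp t * w.1 0) * w.2 2, Real.exp (Real.exp t * w.1 0) * w.2 3,
    Real.exp t * w.1 1, Real.exp t * w.1 2, Real.exp t * w.1 3]

theorem chartPoint_spec (t : ℝ) {w : Sph} (h1 : w.1 ⬝ᵥ w.1 = 1) (h2 : w.2 ⬝ᵥ w.2 = 1) :
    chartPoint t w ∈ chartOff ∧ tlog (chartPoint t w) = t ∧ sph (chartPoint t w) = w := by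
  set e := Real.exp (Real.exp t * w.1 0) with he
  set r := Real.exp t with hr
  have he0 : 0 < e := Real.exp_pos _
  have hr0 : 0 < r := Real.exp_pos _
  have hy : yc (chartPoint t w) = e • w.2 := by
    funext i; fin_cases i <;> simp [yc, chartPoint, e]
  have hys : ys (chartPoint t w) = e ^ 2 := by
    rw [← ys_eq, hy, smul_dotProduct, dotProduct_smul, h2, smul_eq_mul, smul_eq_mul]
    ring
  have hx : xc (chartPoint t w) = r • w.1 := by
    funext i
    fin_cases i
    · show Real.log (ys (chartPoint t w)) / 2 = r * w.1 0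
      rw [hys, Real.log_pow, he, Real.log_exp]
      push_cast
      ring
    all_goals rfl
  have hrs : rsq (chartPoint t w) = r ^ 2 := by
    rw [rsq, hx, smul_dotProduct, dotProduct_smul, h1, smul_eq_mul, smul_eq_mul]
    ring
  refine ⟨⟨hys.symm ▸ pow_pos he0 2, hrs.symm ▸ pow_pos hr0 2⟩, ?_, ?_⟩
  · rw [tlog, hrs, Real.log_pow, hr, Real.log_exp]
    push_cast
    ring
  · rw [sph, hrs, hys, hx, hy, Real.sqrt_sq hr0.le, Real.sqrt_sq he0.le, smul_smul, smul_smul,
      inv_mul_cancel₀ hr0.ne', inv_mul_cancel₀ he0.ne', one_smul, one_smul]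

theorem crd2_unit (z : Sphere.N2) : (Sphere.crd2 z).1 ⬝ᵥ (Sphere.crd2 z).1 = 1 ∧
    (Sphere.crd2 z).2 ⬝ᵥ (Sphere.crd2 z).2 = 1 := by
  have h : ∀ q : Sphere.S3, Sphere.crd q ⬝ᵥ Sphere.crd q = 1 := fun q => by
    have e := Quaternion.normSq_eq_norm_mul_self (q : Quaternion ℝ)
    rw [mem_sphere_zero_iff_norm.1 q.2, Quaternion.normSq_def', one_mul] at e
    rw [dotProduct, Fin.sum_univ_four]
    simp only [Sphere.crd, cons_val_zero, cons_val_one, cons_val_two, cons_val_three,
      tail_cons, head_cons]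
    nlinarith
  exact ⟨h z.1, h z.2⟩

theorem continuous_Y_crd2 (i : St) : Continuous fun z => Y i (Sphere.crd2 z) :=
  ((Sphere.contDiff_Y i (n := 0)).continuous).comp Sphere.continuous_crd2

open scoped Classical in
theorem integral_Y_mul (i j : St) :
    ∫ z, Y i (Sphere.crd2 z) * Y j (Sphere.crd2 z) ∂Sphere.haarN = if i = j then 1 else 0 := by
  have h := Sphere.ip_Q i j
  have e : Sphere.ip (Sphere.Q i) (Sphere.Q j)
      = ((∫ z, Y i (Sphere.crd2 z) * Y j (Sphere.crd2 z) ∂Sphere.haarN : ℝ) : ℂ) := by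
    rw [Sphere.ip, ← integral_complex_ofReal]
    exact integral_congr_ae (Filter.Eventually.of_forall fun z => by
      simp [Sphere.evN_apply, ← Sphere.ofReal_Y])
  rw [e] at h
  split_ifs at h ⊢ <;> exact_mod_cast h

/-- **Uniqueness of the coefficients.** -/
theorem coeff_eq_zero {c : St → ℝ → ℝ} {s : ℕ} (hs : 13 ≤ s) (hB : CoeffBound c s)
    (h0 : ∀ x ∈ chartOff, modeSum c x = 0) (i : St) (t : ℝ) : c i t = 0 := by
  have : Countable Blk := by unfold Blk; infer_instance
  obtain ⟨B, hB0, hBb⟩ := hB t t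
  have hpt : ∀ z, ∑' j, c j t * Y j (Sphere.crd2 z) = 0 := by
    intro z
    obtain ⟨hmem, ht, hw⟩ := chartPoint_spec t (crd2_unit z).1 (crd2_unit z).2
    simpa [modeSum, modeTerm, ht, hw] using h0 _ hmem
  let G : St → Sphere.N2 → ℝ := fun j z =>
    c j t * (Y i (Sphere.crd2 z) * Y j (Sphere.crd2 z))
  have hint : ∀ j, Integrable (G j) Sphere.haarN := fun j =>
    (continuous_const.mul ((continuous_Y_crd2 i).mul
      (continuous_Y_crd2 j))).integrable_of_hasCompactSupport (HasCompactSupport.of_compactSpace _)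
  have hsum : Summable fun j => ∫ z, ‖G j z‖ ∂Sphere.haarN := by
    refine Summable.of_nonneg_of_le (fun j => integral_nonneg fun z => norm_nonneg _) (fun j => ?_)
      ((summable_pow_div (q := 4) (s := s) (by omega)).mul_left (B * i.blk.mu ^ 2))
    refine (integral_mono (hint j).norm (integrable_const (B * i.blk.mu ^ 2 *
      (j.blk.mu ^ 4 / j.blk.mu ^ s))) fun z => ?_).trans (by simp)
    have hY : ∀ k, |Y k (Sphere.crd2 z)| ≤ k.blk.mu ^ 2 := fun k =>
      (Sphere.abs_Y_le k z).trans (sqrt_dim_le k.blk)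
    have hj := zero_le_one.trans (Blk.one_le_mu j.blk)
    simp only [G, Real.norm_eq_abs, abs_mul]
    calc |c j t| * (|Y i (Sphere.crd2 z)| * |Y j (Sphere.crd2 z)|)
        ≤ B * (j.blk.mu ^ 2 / j.blk.mu ^ s) * (i.blk.mu ^ 2 * j.blk.mu ^ 2) :=
          mul_le_mul (hBb j t ⟨le_rfl, le_rfl⟩).1
            (mul_le_mul (hY i) (hY j) (abs_nonneg _) (by positivity)) (by positivity)
            (by positivity)
      _ = _ := by ring
  have e := integral_tsum_of_summable_integral_norm hint hsum
  have hG : (fun z => ∑' j, G j z) = fun _ => 0 := funext fun z => by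
    simp only [G, mul_left_comm (c _ t)]
    rw [tsum_mul_left, hpt, mul_zero]
  rw [hG, integral_zero, tsum_eq_single i] at e
  · simpa [G, integral_const_mul, integral_Y_mul] using e
  · intro j hj
    simp [G, integral_const_mul, integral_Y_mul, hj.symm]

theorem summable_modeTerm {c : St → ℝ → ℝ} {s : ℕ} (hs : 15 ≤ s) (hc : ∀ i, ContDiff ℝ 2 (c i))
    (hB : CoeffBound c s) {x : Pt 7} (hx : x ∈ chartOff) : Summable fun i => modeTerm c i x :=
  (locallyC2Summable_modes hc hs hB).summable hx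

/-- **The final reduction.** -/
theorem yauFailsAt_of_modes (H : EndHyps C S F τ)
    (hM : IsCompleteNonnegRicci chart (globalMetric C S F τ)) {o : Pt 7} (ho : o ∈ chart) {C₀ : ℝ}
    (hd : ∀ x ∈ chart, Real.sqrt (rsq x) ≤ dist chart (globalMetric C S F τ) o x + C₀)
    {A : ℝ → St → St →₀ ℝ} {s q : ℕ} (hs : 15 ≤ s) (hq : q + 11 ≤ s) (hA : CrossEq C S F τ A)
    (hop : OpBound A q) {N : ℕ} (hN : euclideanDim 7 14 < N)
    (cf : (Fin N → ℝ) →ₗ[ℝ] St → ℝ → ℝ) (hinj : Function.Injective cf)
    (hsol : ∀ e, CoefSol C S A s (cf e)) : YauFailsAt 7 14 := by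
  classical
  let ext : (Fin N → ℝ) → Pt 7 → ℝ := fun e => chart.indicator (hsol e).core.choose
  have hext : ∀ e, ContDiffOn ℝ 2 (ext e) chart := fun e =>
    (hsol e).core.choose_spec.1.congr fun x hx => indicator_of_mem hx _
  have heq : ∀ e, EqOn (ext e) (modeSum (cf e)) chartOff := fun e x hx => by
    rw [show ext e x = (hsol e).core.choose x from indicator_of_mem (show x ∈ chart from hx.1) _]
    exact (hsol e).core.choose_spec.2 hx
  have hcont : ∀ e, ContinuousOn (ext e) chart := fun e => (hext e).continuousOn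
  have hsm : ∀ e, ∀ x ∈ chartOff, Summable fun i => modeTerm (cf e) i x := fun e x hx =>
    summable_modeTerm hs (hsol e).smooth (hsol e).bound hx
  have hadd : ∀ a b, ext (a + b) = ext a + ext b := fun a b => funext fun x => by
    by_cases hx : x ∈ chart
    · refine sub_eq_zero.1 (eq_zero_of_chartOff
        (h := fun y => ext (a + b) y - (ext a y + ext b y))
        ((hcont _).sub ((hcont a).add (hcont b))) (fun y hy => sub_eq_zero.2 ?_) hx)
      rw [heq _ hy, heq _ hy, heq _ hy, modeSum, modeSum, modeSum,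
        ← (hsm a y hy).tsum_add (hsm b y hy), map_add]
      exact tsum_congr fun i => add_mul _ _ _
    · simp [ext, hx]
  have hsmul : ∀ (r : ℝ) (a), ext (r • a) = r • ext a := fun r a => funext fun x => by
    by_cases hx : x ∈ chart
    · refine sub_eq_zero.1 (eq_zero_of_chartOff
        (h := fun y => ext (r • a) y - r * ext a y)
        ((hcont _).sub ((hcont a).const_smul r)) (fun y hy => sub_eq_zero.2 ?_) hx)
      rw [heq _ hy, heq _ hy, modeSum, modeSum, ← tsum_mul_left, map_smul]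
      exact tsum_congr fun i => mul_assoc _ _ _
    · simp [ext, hx]
  let L : (Fin N → ℝ) →ₗ[ℝ] Pt 7 → ℝ := { toFun := ext, map_add' := hadd, map_smul' := hsmul }
  have hrs : ContinuousOn (fun x => Real.sqrt (rsq x)) chart := contDiffOn_rsq.continuousOn.sqrt
  refine yauFailsAt_of (k := 14) (ρ := fun x => Real.sqrt (rsq x)) 
    ho hM (fun x _ => Real.sqrt_nonneg _) hd hN L hext (fun e x hx => ?_)
    (fun e => ?_) fun e he => ?_
  · refine eq_zero_of_chartOff (h := laplacian (globalMetric C S F τ) (ext e))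
      (continuousOn_laplacian isOpen_chart
        (fun i j => (H.smooth i j).of_le (by exact WithTop.coe_le_coe.2 le_top))
        (fun y hy => H.posDef hy) (hext e)) (fun y hy => ?_) hx
    rw [laplacian_congr_fun _ isOpen_chartOff (heq e) hy]
    exact laplacian_modeSum H hs hq (hsol e).smooth (hsol e).bound hA hop (hsol e).ode hy
  · obtain ⟨K, hK⟩ := abs_modeSum_le (by omega) (hsol e).growth
    refine ⟨K, fun x hx => le_of_chartOff (f := fun y => |ext e y|)
      (h := fun y => K * (1 + Real.sqrt (rsq y)) ^ 14) (hcont e).abs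
      (continuousOn_const.mul ((continuousOn_const.add hrs).pow 14)) (fun y hy => ?_) hx⟩
    rw [heq e hy]
    exact hK y hy
  · refine hinj (a₂ := 0) ?_
    rw [map_zero]
    funext i t
    refine coeff_eq_zero (by omega) (hsol e).bound (fun y hy => ?_) i t
    rw [← heq e hy]
    exact he y hy.1

end

end Vale.Agent.P225
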