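import Vale.Agent.P225.Assembly.Chain
import Vale.Agent.P225.Assembly.Harmonic
import Vale.Agent.P225.Cap.Core
import Vale.Agent.P225.Loop.Pieces

/-!
P225 assembly (helper27): the cap as the first family of the loops.

For the cap weights `C.W` of `CapData`, with the asymptotics at the core of `CapCore`, `slope0` is the
regular slope at the first loop start and `capFam` the regular solutions with given values there.
With the reference `slope0` the deviation operator at the first start is exactly `0`.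
-/

namespace Vale.Agent.P225

open Set Filter Topology
open scoped ContDiff
open Sphere (Y)

noncomputable section

variable {κ : ℝ}

/-- `det` of the dual cross-section metric on the cap. -/
def capVol (C : CapData κ) (t : ℝ) : ℝ := wdet (C.W t) ^ 3

/-- The drift of the mode equations on the cap. -/
def capDrift (C : CapData κ) (t : ℝ) : ℝ := 5 - deriv (capVol C) t / (2 * capVol C t)

/-- Asymptotics of the cap weights at the core: `(W, drift) = (1, 0, 0, 2) + O(e^{2t})`. -/
structure CapCore (C : CapData κ) : Prop where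
  κ_nonneg : 0 ≤ κ
  zero_two : ∀ t, C.W t 2 = 0
  one_le_zero : ∀ t, 1 ≤ C.W t 0
  nonneg_one : ∀ t, 0 ≤ C.W t 1
  one_le_drift : ∀ t, 1 ≤ capDrift C t
  lim_W : ∀ j, ∃ f, Tendsto (fun t => (C.W t j - ![1, 0, 0] j) / Cap.rho t) atBot (𝓝 f)
  lim_drift : ∃ f, Tendsto (fun t => (capDrift C t - 2) / Cap.rho t) atBot (𝓝 f)

theorem capVol_pos (C : CapData κ) (t : ℝ) : 0 < capVol C t := pow_pos (C.pos t).det _

theorem contDiff_capVol (C : CapData κ) : ContDiff ℝ ∞ (capVol C) := by
  have h := C.smooth_W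
  show ContDiff ℝ ∞ fun t => (C.W t 0 * C.W t 1 + C.W t 0 * C.W t 2 + C.W t 1 * C.W t 2) ^ 3
  exact ((((h 0).mul (h 1)).add ((h 0).mul (h 2))).add ((h 1).mul (h 2))).pow 3

theorem contDiff_capDrift (C : CapData κ) : ContDiff ℝ ∞ (capDrift C) :=
  contDiff_const.sub ((contDiff_infty_iff_deriv.1 (contDiff_capVol C)).2.div
    (contDiff_const.mul (contDiff_capVol C)) fun t => mul_ne_zero two_ne_zero (capVol_pos C t).ne')

theorem capDrift_of_gt (C : CapData κ) {t : ℝ} (ht : 2 * C.T < t) :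
    capDrift C t = cDrift κ t := by
  have ht0 : 0 < t := by linarith [C.T_pos]
  have he : capVol C =ᶠ[𝓝 t] fun s => ((dFun κ s)⁻¹) ^ 3 := by
    filter_upwards [Ioi_mem_nhds ht] with s hs
    rw [capVol, wdet_cap C (le_of_lt hs), one_div]
  have hd := dFun_pos κ t
  have hder : HasDerivAt (fun s => ((dFun κ s)⁻¹) ^ 3) _ t :=
    ((hasDerivAt_dFun κ ht0).inv hd.ne').fun_pow 3
  rw [capDrift, he.deriv_eq, he.eq_of_nhds, hder.deriv]
  have hd2 : dFun κ t ^ 2 * (dFun κ t)⁻¹ ^ 2 = 1 := by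
    rw [← mul_pow, mul_inv_cancel₀ hd.ne', one_pow]
  simp only [cDrift, Pi.inv_apply]
  field_simp
  linear_combination (3 * vFun κ t) * hd2

/-- Up to the first loop start the drift of `endD` is the one of the cap. -/
theorem capDrift_eq_endD (C : CapData κ) {S : Sched} (hT : 2 * C.T + 1 ≤ S.t0) {t : ℝ}
    (ht : t ≤ S.t0) : 5 - deriv (endD C S) t / (2 * endD C S t) = capDrift C t := by
  have he : endD C S =ᶠ[𝓝 t] capVol C := by
    rcases lt_or_eq_of_le ht with h | h
    · filter_upwards [Iio_mem_nhds h] with s hs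
      rw [endD, if_pos (le_of_lt (mem_Iio.1 hs)), capVol]
    · filter_upwards [Ioi_mem_nhds (show 2 * C.T < t by linarith)] with s hs
      rw [endD, capVol]
      split_ifs
      · rfl
      · rw [wdet_cap C (le_of_lt hs)]
  rw [capDrift, he.deriv_eq, he.eq_of_nhds]

theorem junction_apply (C : CapData κ) {t : ℝ} (ht : 2 * C.T ≤ t) (V : Blk) :
    Blk.lam (C.W t) V = Real.sqrt (1 / dFun κ t) * (Blk.cas V.la + Blk.cas V.lb) := by
  rw [C.junction t ht, lam_wNorm]
  simp [wdet, rawExc, Blk.lam]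

theorem W_junction (C : CapData κ) {t : ℝ} (ht : 2 * C.T ≤ t) (j : Fin 3) :
    C.W t j = ![1, 1, 0] j * Real.sqrt (1 / dFun κ t) := by
  rw [C.junction t ht]
  simp [wNorm, wdet, rawExc]

/-- A function with an expansion at `-∞` which is bounded on a right half line is
`a + O(e^{2t})` and bounded. -/
theorem exists_near {f : ℝ → ℝ} {a B T₂ : ℝ} (hf : Continuous f)
    (hlim : ∃ L, Tendsto (fun t => (f t - a) / Cap.rho t) atBot (𝓝 L))
    (hB : ∀ t, T₂ ≤ t → |f t| ≤ B) :
    ∃ K, 0 ≤ K ∧ ∀ t, |f t - a| ≤ K * Cap.rho t ∧ |f t| ≤ |a| + K * Cap.rho T₂ + |B| := by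
  obtain ⟨L, hL⟩ := hlim
  obtain ⟨T₁, hT₁⟩ := eventually_atBot.1 (hL.abs.eventually (eventually_le_nhds (lt_add_one |L|)))
  obtain ⟨D, hD⟩ := (isCompact_Icc (a := T₁) (b := T₂)).exists_bound_of_continuousOn
    ((hf.sub (continuous_const (y := a))).div₀ Cap.continuous_rho
      fun t => (Cap.rho_pos t).ne').continuousOn
  have h2 := Cap.rho_pos T₂
  set K := |L| + 1 + |D| + (|B| + |a|) / Cap.rho T₂
  have hn : 0 ≤ (|B| + |a|) / Cap.rho T₂ := by positivity
  have hK : 0 ≤ K := by positivity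
  have key : ∀ t, |f t - a| ≤ K * Cap.rho t := fun t => by
    have hr := Cap.rho_pos t
    rcases le_or_gt T₂ t with h | h
    · calc |f t - a| ≤ |B| + |a| :=
            (abs_sub _ _).trans (add_le_add_left ((hB t h).trans (le_abs_self B)) _)
        _ = (|B| + |a|) / Cap.rho T₂ * Cap.rho T₂ := by field_simp
        _ ≤ K * Cap.rho t := mul_le_mul
            (by linarith [abs_nonneg L, abs_nonneg D]) (Cap.rho_mono h) h2.le hK
    · have hq : |(f t - a) / Cap.rho t| ≤ K := by
        rcases le_or_gt t T₁ with h1 | h1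
        · linarith [hT₁ t h1, abs_nonneg D]
        · have := hD t ⟨h1.le, h.le⟩
          rw [Real.norm_eq_abs, Pi.sub_apply] at this
          linarith [le_abs_self D, abs_nonneg L]
      rwa [abs_div, abs_of_pos hr, div_le_iff₀ hr] at hq
  refine ⟨K, hK, fun t => ⟨key t, ?_⟩⟩
  rcases le_or_gt T₂ t with h | h
  · linarith [hB t h, le_abs_self B, abs_nonneg a, mul_nonneg hK h2.le]
  · calc |f t| ≤ |a| + |f t - a| := by
          simpa using abs_add_le a (f t - a)
      _ ≤ |a| + K * Cap.rho T₂ + |B| := by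
          linarith [key t, mul_le_mul_of_nonneg_left (Cap.rho_mono h.le) hK, abs_nonneg B]

namespace CapCore

variable {C : CapData κ}

theorem nonneg (h : CapCore C) (t : ℝ) (j : Fin 3) : 0 ≤ C.W t j := by
  fin_cases j
  · exact zero_le_one.trans (h.one_le_zero t)
  · exact h.nonneg_one t
  · exact (h.zero_two t).ge

/-- The cap weights satisfy the hypotheses of the radial theory. -/
theorem exists_capData (h : CapCore C) : ∃ K M, Cap.CapData C.W (capDrift C) K M := by
  have hd : (0 : ℝ) < dMin := by norm_num [dMin]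
  have hW : ∀ j t, 2 * C.T + 1 ≤ t → |C.W t j| ≤ Real.sqrt (1 / dMin) := by
    intro j t ht
    rw [W_junction C (by linarith), abs_mul, abs_of_nonneg (Real.sqrt_nonneg (1 / dFun κ t))]
    refine (mul_le_of_le_one_left (Real.sqrt_nonneg _) (by fin_cases j <;> simp)).trans
      (Real.sqrt_le_sqrt (one_div_le_one_div_of_le hd (dMin_le_dFun h.κ_nonneg ?_)))
    linarith [C.T_pos]
  have hc : ∀ t, 2 * C.T + 1 ≤ t → |capDrift C t| ≤ 5 + κ := by
    intro t ht
    rw [capDrift_of_gt C (by linarith), cDrift]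
    have := (abs_vFun_le (L := 1) h.κ_nonneg le_rfl (by linarith [C.T_pos] : 1 ≤ t)).1
    rw [div_one] at this
    exact (abs_add_le _ _).trans (by rw [abs_of_pos (by norm_num : (0 : ℝ) < 5)]; linarith)
  choose Kw hKw hw using fun j => exists_near (C.smooth_W j).continuous (h.lim_W j) (hW j)
  obtain ⟨Kc, hKc, hcc⟩ := exists_near (contDiff_capDrift C).continuous h.lim_drift hc
  set K := Kw 0 + Kw 1 + Kw 2 + Kc
  have hKj : ∀ j, Kw j ≤ K := fun j => by
    rcases (by decide : ∀ j : Fin 3, j = 0 ∨ j = 1 ∨ j = 2) j with rfl | rfl | rfl <;>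
      linarith [hKw 0, hKw 1, hKw 2, hKc]
  have hr := Cap.rho_pos (2 * C.T + 1)
  refine ⟨K, max (|(2 : ℝ)| + K * Cap.rho (2 * C.T + 1) + |5 + κ|)
    (1 + K * Cap.rho (2 * C.T + 1) + |Real.sqrt (1 / dMin)|),
    fun j => (C.smooth_W j).continuous, (contDiff_capDrift C).continuous, h.nonneg,
    h.one_le_zero, h.one_le_drift, fun t j => ?_, fun t => ?_, fun t j => ?_, fun t => ?_,
    h.lim_W, h.lim_drift⟩
  · refine ((le_abs_self _).trans (hw j t).2).trans (le_trans ?_ (le_max_right _ _))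
    gcongr
    · fin_cases j <;> simp
    · exact hKj j
  · refine ((le_abs_self _).trans (hcc t).2).trans (le_trans ?_ (le_max_left _ _))
    gcongr
    linarith [hKw 0, hKw 1, hKw 2]
  · exact (hw j t).1.trans (mul_le_mul_of_nonneg_right (hKj j) (Cap.rho_pos t).le)
  · exact (hcc t).1.trans (mul_le_mul_of_nonneg_right (by linarith [hKw 0, hKw 1, hKw 2])
      (Cap.rho_pos t).le)

/-- The constant `K` of the radial theory. -/
def bK (h : CapCore C) : ℝ := h.exists_capData.choose

/-- The constant `M` of the radial theory. -/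
def bM (h : CapCore C) : ℝ := h.exists_capData.choose_spec.choose

theorem data (h : CapCore C) : Cap.CapData C.W (capDrift C) h.bK h.bM :=
  h.exists_capData.choose_spec.choose_spec

/-- The reference at the first loop start: the regular slope. -/
def slope0 (h : CapCore C) (t0 : ℝ) (i : St) : ℝ := h.data.slope i.blk t0

theorem slope0_zero (h : CapCore C) (t0 : ℝ) {i : St} (hi : i.blk.mu = 1) :
    h.slope0 t0 i = 0 := h.data.slope_zero _ hi t0

/-- `slope0` depends on the level at `J3` only. -/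
theorem slope0_level (h : CapCore C) (t0 : ℝ) {i i' : St}
    (hl : i.blk.level 0 = i'.blk.level 0) : h.slope0 t0 i = h.slope0 t0 i' := by
  simp only [Blk.level, Matrix.cons_val_zero, Prod.mk.injEq] at hl
  unfold slope0
  rw [h.data.slope_congr hl.1 fun t => by simp [Blk.lam, h.zero_two t, hl.1, hl.2]]

/-- **Late starts:** the regular slope is near the quasi-static one, uniformly in the state. -/
theorem exists_slope0_near (h : CapCore C) : ∃ (N : ℕ) (A : ℝ), 0 ≤ A ∧ ∀ (j0 : ℕ) (t0 : ℝ),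
    N ≤ j0 → 2 * ((j0 : ℝ) + 1) ^ 5 ≤ t0 →
      ∀ i, |h.slope0 t0 i - refSlope κ 0 t0 i| ≤ A / ((j0 : ℝ) + 1) ^ 5 := by
  have hκ := h.κ_nonneg
  have hT := C.T_pos
  set m0 := Real.sqrt (1 / dFun κ (2 * C.T))
  have hm0 : 0 < m0 := Real.sqrt_pos.2 (one_div_pos.2 (dFun_pos _ _))
  set k0 := Real.sqrt (min 8 (m0 / 12))
  have hk0 : 0 < k0 := Real.sqrt_pos.2 (lt_min (by norm_num) (by positivity))
  have hM := h.data.one_le_M
  obtain ⟨N₁, hN₁⟩ := exists_nat_ge (2 * C.T + 1 + 10 * κ + 2 / k0)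
  refine ⟨N₁, 3 * κ + (2 * h.bM + 1) * (2 / k0), by positivity, fun j0 t0 hj ht0 i => ?_⟩
  set L := ((j0 : ℝ) + 1) ^ 5
  have h2k : 0 < 2 / k0 := by positivity
  have hL0 : 2 * C.T + 1 + 10 * κ + 2 / k0 ≤ L := by
    refine hN₁.trans (le_trans ?_ (le_self_pow₀ (le_add_of_nonneg_left (Nat.cast_nonneg j0))
      (by norm_num)))
    have : (N₁ : ℝ) ≤ j0 := Nat.cast_le.2 hj
    linarith
  have hL1 : 1 ≤ L := one_le_pow₀ (le_add_of_nonneg_left (Nat.cast_nonneg j0))
  have hL : 0 < L := zero_lt_one.trans_le hL1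
  set η := κ / L with hη
  have hη' : η ≤ 1 / 10 := by rw [hη, div_le_iff₀ hL]; linarith
  have hgt : ∀ s, L ≤ s → 2 * C.T < s := fun s hs => by linarith
  have hv : ∀ s, L ≤ s → |vFun κ s| ≤ η ∧ |vFunD κ s| ≤ η := fun s hs => abs_vFun_le hκ hL1 hs
  have hc' : ∀ s, L ≤ s → deriv (capDrift C) s = vFunD κ s := fun s hs => by
    have he : capDrift C =ᶠ[𝓝 s] cDrift κ := by
      filter_upwards [Ioi_mem_nhds (hgt s hs)] with r hr using capDrift_of_gt C hr
    rw [he.deriv_eq]
    exact ((hasDerivAt_vFun κ (by linarith)).const_add 5).deriv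
  have hw' : ∀ s, L ≤ s → ∀ j, |deriv (fun r => C.W r j) s| ≤ η * C.W s j := by
    intro s hs j
    have hd := dFun_pos κ s
    have he : (fun r => C.W r j) =ᶠ[𝓝 s] fun r => ![1, 1, 0] j * Real.sqrt ((dFun κ r)⁻¹) := by
      filter_upwards [Ioi_mem_nhds (hgt s hs)] with r hr
      rw [W_junction C (le_of_lt hr), one_div]
    have hder : HasDerivAt (fun r => ![1, 1, 0] j * Real.sqrt ((dFun κ r)⁻¹))
        (-(vFun κ s / 3) * (![1, 1, 0] j * Real.sqrt ((dFun κ s)⁻¹))) s := by
      refine ((((hasDerivAt_dFun κ (by linarith)).inv hd.ne').sqrt (inv_ne_zero hd.ne')).const_mul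
        _).congr_deriv ?_
      simp only [Pi.inv_apply]
      have hr := Real.mul_self_sqrt (inv_nonneg.2 hd.le)
      have hr0 := (Real.sqrt_pos.2 (inv_pos.2 hd)).ne'
      generalize Real.sqrt (dFun κ s)⁻¹ = r at hr hr0 ⊢
      field_simp at hr ⊢
      linear_combination (vFun κ s * ![1, 1, 0] j) * hr
    rw [he.deriv_eq, hder.deriv, ← he.eq_of_nhds, abs_mul, abs_neg, abs_div,
      abs_of_pos (by norm_num : (0 : ℝ) < 3), abs_of_nonneg (h.nonneg s j)]
    refine mul_le_mul_of_nonneg_right ?_ (h.nonneg s j)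
    linarith [(hv s hs).1, abs_nonneg (vFun κ s)]
  have hc4 : ∀ s, L ≤ s → 4 ≤ capDrift C s := fun s hs => by
    rw [capDrift_of_gt C (hgt s hs), cDrift]
    linarith [(abs_le.1 (hv s hs).1).1]
  have hmu := Blk.one_le_mu i.blk
  have hgain : ∀ s, L ≤ s → k0 * i.blk.mu / 2 + 3 * η ≤
      Ode.alphaFn (capDrift C s) (Blk.lam (C.W s) i.blk) + capDrift C s := by
    intro s hs
    have hm : m0 ≤ Real.sqrt (1 / dFun κ s) := Real.sqrt_le_sqrt (one_div_le_one_div_of_le
      (dFun_pos _ _) (dFun_anti hκ (mem_Ioi.2 (by linarith : (0 : ℝ) < 2 * C.T))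
        (mem_Ioi.2 (by linarith : (0 : ℝ) < s)) (hgt s hs).le))
    have hX := sq_mu_sub_one_le i.blk
    have htri := cas_le_of_le_add i.blk.2.2.2.2
    have hl : m0 / 9 * (i.blk.mu - 1) ^ 2 ≤ Blk.lam (C.W s) i.blk := by
      rw [junction_apply C (hgt s hs).le]
      refine le_trans ?_ (mul_le_mul_of_nonneg_right hm
        (add_nonneg (cas_nonneg _) (cas_nonneg _)))
      rw [div_mul_eq_mul_div, div_le_iff₀ (by norm_num : (0 : ℝ) < 9), mul_assoc]
      refine mul_le_mul_of_nonneg_left ?_ hm0.le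
      simp only [Blk.la, Blk.lb, Blk.lc] at hX htri ⊢
      linarith
    have hk : (k0 * i.blk.mu) ^ 2 ≤ capDrift C s ^ 2 + 4 * Blk.lam (C.W s) i.blk := by
      rw [mul_pow, Real.sq_sqrt (le_min (by norm_num) (by positivity))]
      have h4 : 16 ≤ capDrift C s ^ 2 := by nlinarith [hc4 s hs]
      have hX0 : 0 ≤ (i.blk.mu - 1) ^ 2 := sq_nonneg _
      have e : i.blk.mu ^ 2 ≤ 2 + 2 * (i.blk.mu - 1) ^ 2 := by
        nlinarith [sq_nonneg (i.blk.mu - 2)]
      have p0 : 0 ≤ min 8 (m0 / 12) := le_min (by norm_num) (by positivity)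
      have p1 : min 8 (m0 / 12) * i.blk.mu ^ 2 ≤
          min 8 (m0 / 12) * 2 + min 8 (m0 / 12) * (2 * (i.blk.mu - 1) ^ 2) := by
        rw [← mul_add]; exact mul_le_mul_of_nonneg_left e p0
      have p2 := mul_le_mul_of_nonneg_right (min_le_left (8 : ℝ) (m0 / 12)) (by norm_num : (0 : ℝ) ≤ 2)
      have p3 := mul_le_mul_of_nonneg_right (min_le_right (8 : ℝ) (m0 / 12))
        (mul_nonneg two_pos.le hX0)
      linarith [mul_nonneg hm0.le hX0]
    have h2 := Ode.two_alphaFn_add (capDrift C s) (Blk.lam (C.W s) i.blk)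
    have h3 : k0 * i.blk.mu ≤ Real.sqrt (capDrift C s ^ 2 + 4 * Blk.lam (C.W s) i.blk) :=
      Real.le_sqrt_of_sq_le hk
    linarith [hc4 s hs]
  have hLt : L ≤ t0 := by linarith
  have hcd : Differentiable ℝ (capDrift C) := (contDiff_capDrift C).differentiable (by simp)
  have hWd : ∀ j, Differentiable ℝ fun r => C.W r j := fun j =>
    (C.smooth_W j).differentiable (by simp)
  have hkey := h.data.abs_slope_sub_alphaFn i.blk (a := L) (t := t0) (η := η)
    (c' := deriv (capDrift C)) (w' := fun s j => deriv (fun r => C.W r j) s) hLt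
    (fun s => (hcd s).hasDerivAt) (contDiff_infty_iff_deriv.1 (contDiff_capDrift C)).2.continuous
    (fun j s => (hWd j s).hasDerivAt)
    (fun j => (contDiff_infty_iff_deriv.1 (C.smooth_W j)).2.continuous) (by positivity) hη'
    (fun s hs => hc4 s hs.1) (fun s hs => by rw [hc' s hs.1]; exact (hv s hs.1).2)
    (fun s hs j => hw' s hs.1 j) (k := k0 * i.blk.mu / 2) (by positivity)
    (fun s hs => hgain s hs.1)
  have href : refSlope κ 0 t0 i = Ode.alphaFn (capDrift C t0) (Blk.lam (C.W t0) i.blk) := by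
    have r0 : rotW 0 (rawExc 0) = rawExc 0 := by funext j; simp [rotW]
    rw [refSlope, capDrift_of_gt C (hgt t0 hLt), C.junction t0 (hgt t0 hLt).le, r0]
  rw [slope0, href]
  refine hkey.trans ?_
  rw [add_div, mul_div_assoc 3 κ L, ← hη]
  refine add_le_add le_rfl ?_
  have hx : 1 ≤ k0 / 2 * L := by
    have : 2 / k0 ≤ L := by linarith
    rw [div_le_iff₀ hk0] at this
    linarith
  have hexp : i.blk.mu * Real.exp (-(k0 * i.blk.mu / 2 * (t0 - L))) ≤ 2 / k0 / L := by
    set x := k0 / 2 * L with hxdef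
    have h1 : Real.exp (-(k0 * i.blk.mu / 2 * (t0 - L))) ≤ Real.exp (-(x * i.blk.mu)) := by
      refine Real.exp_le_exp.2 (neg_le_neg ?_)
      rw [show x * i.blk.mu = k0 * i.blk.mu / 2 * L by ring]
      exact mul_le_mul_of_nonneg_left (by linarith) (by positivity)
    have h2 : i.blk.mu ≤ Real.exp (i.blk.mu - 1) := by
      linarith [Real.add_one_le_exp (i.blk.mu - 1)]
    have h3 : Real.exp (i.blk.mu - 1) * Real.exp (-(x * i.blk.mu)) ≤ Real.exp (-x) := by
      rw [← Real.exp_add]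
      exact Real.exp_le_exp.2 (by nlinarith [mul_nonneg (sub_nonneg.2 hx) (sub_nonneg.2 hmu)])
    have h4 : Real.exp (-x) ≤ 1 / x := by
      rw [Real.exp_neg, one_div]
      exact inv_anti₀ (zero_lt_one.trans_le hx) (by linarith [Real.add_one_le_exp x])
    refine (mul_le_mul h2 h1 (Real.exp_pos _).le (Real.exp_pos _).le).trans
      (h3.trans (h4.trans (le_of_eq ?_)))
    rw [hxdef]
    field_simp
  calc (2 * h.bM + 1) * i.blk.mu * Real.exp (-(k0 * i.blk.mu / 2 * (t0 - L)))
      = (2 * h.bM + 1) * (i.blk.mu * Real.exp (-(k0 * i.blk.mu / 2 * (t0 - L)))) := by ring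
    _ ≤ (2 * h.bM + 1) * (2 / k0 / L) := mul_le_mul_of_nonneg_left hexp (by linarith)
    _ = _ := by ring

/-! ### The family -/

/-- The regular solutions with values `x` at `t0`, as a linear family. -/
def capFam (h : CapCore C) (s : ℕ) (t0 : ℝ) : HSp →ₗ[ℝ] Asm.Fam where
  toFun x k i t := x i / i.blk.mu ^ s * ![h.data.coef i.blk t0 t,
    deriv (h.data.coef i.blk t0) t, deriv (deriv (h.data.coef i.blk t0)) t] k
  map_add' x y := by
    funext k i t
    simp only [lp.coeFn_add, Pi.add_apply, add_div, add_mul]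
  map_smul' r x := by
    funext k i t
    simp only [lp.coeFn_smul, Pi.smul_apply, smul_eq_mul, RingHom.id_apply]
    ring

theorem capFam_apply (h : CapCore C) (s : ℕ) (t0 : ℝ) (x : HSp) (k : Fin 3) (i : St) (t : ℝ) :
    h.capFam s t0 x k i t = x i / i.blk.mu ^ s * ![h.data.coef i.blk t0 t,
      deriv (h.data.coef i.blk t0) t, deriv (deriv (h.data.coef i.blk t0)) t] k := rfl

/-- The family solves the mode equations of any operator family which is the cap one up to `t0`. -/
theorem capFam_sol (h : CapCore C) (s : ℕ) (t0 : ℝ) {A : ℝ → St → St →₀ ℝ} {drift : ℝ → ℝ}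
    (hA : ∀ t ≤ t0, ∀ i : St, A t i = Finsupp.single i (Blk.lam (C.W t) i.blk))
    (hd : ∀ t ≤ t0, drift t = capDrift C t) (x : HSp) :
    Asm.FamSol A drift (Iic t0) (h.capFam s t0 x) := by
  have hd0 : ∀ i : St, Differentiable ℝ (h.data.coef i.blk t0) := fun i t =>
    (h.data.hasDerivAt_coef i.blk t0 t).differentiableAt
  refine ⟨fun i t _ => ?_, fun i t _ => ?_, fun i => ?_, fun j t ht => ?_⟩
  · exact ((hd0 i t).hasDerivAt.const_mul _).hasDerivWithinAt
  · exact (((h.data.hasDerivAt_deriv_coef i.blk t0 t).differentiableAt.hasDerivAt).const_mul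
      _).hasDerivWithinAt
  · exact (continuous_const.mul ((h.data.contDiff_coef i.blk t0).deriv'.continuous_deriv_one)
      ).continuousOn
  · have e : h.capFam s t0 x 2 j t + drift t * h.capFam s t0 x 1 j t
        = h.capFam s t0 x 0 j t * A t j j := by
      simp only [capFam_apply, hd t ht, hA t ht, Finsupp.single_eq_same, Matrix.cons_val_zero,
        Matrix.cons_val_one, Matrix.cons_val]
      rw [(h.data.hasDerivAt_deriv_coef j.blk t0 t).deriv]
      ring
    rw [e]
    exact hasSum_single j fun i hi => by rw [hA t ht i, Finsupp.single_eq_of_ne hi.symm, mul_zero]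

/-- At the first loop start the deviation from `slope0` vanishes. -/
theorem capFam_end (h : CapCore C) (s : ℕ) (t0 : ℝ) (x : HSp) :
    Asm.EndData s (h.capFam s t0 x) t0 (h.slope0 t0) x 0 := by
  refine ⟨fun i => ?_, fun i => ?_⟩
  · simp [capFam_apply, h.data.coef_self]
  · simp [capFam_apply, h.data.deriv_coef, h.data.coef_self, slope0]
    ring

/-- The constant in the bound of `capFam`. -/
def famC (h : CapCore C) : ℝ := 3 * h.bM + h.bM * (2 * h.bM + 1) + (2 * h.bM + 1) + 1

theorem capFam_bd (h : CapCore C) (s : ℕ) (t0 : ℝ) (x : HSp) :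
    Asm.FamBd s (Iic t0) (‖x‖ * h.famC) (h.capFam s t0 x) := by
  intro k i t ht
  have hM := h.data.one_le_M
  obtain ⟨b0, b1, b2⟩ := h.data.abs_coef_bounds i ht
  have hmu := Blk.one_le_mu i.blk
  have hmu2 : i.blk.mu ≤ i.blk.mu ^ 2 := le_self_pow₀ hmu two_ne_zero
  have hb : |![h.data.coef i.blk t0 t, deriv (h.data.coef i.blk t0) t,
      deriv (deriv (h.data.coef i.blk t0)) t] k| ≤ h.famC * i.blk.mu ^ 2 := by
    have hMM : 0 ≤ h.bM * (2 * h.bM + 1) := by positivity
    have hC : ∀ a, a ≤ h.famC → a * i.blk.mu ^ 2 ≤ h.famC * i.blk.mu ^ 2 := fun a ha =>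
      mul_le_mul_of_nonneg_right ha (sq_nonneg _)
    fin_cases k
    · refine (b0.trans ?_).trans (hC 1 (by unfold famC; linarith))
      rw [one_mul]; linarith
    · exact (b1.trans (mul_le_mul_of_nonneg_left hmu2 (by linarith))).trans
        (hC _ (by unfold famC; linarith))
    · exact b2.trans (hC _ (by unfold famC; linarith))
  rw [capFam_apply, abs_mul, abs_div, abs_of_pos (pow_pos (zero_lt_one.trans_le hmu) s)]
  calc |x i| / i.blk.mu ^ s * |![h.data.coef i.blk t0 t, deriv (h.data.coef i.blk t0) t,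
        deriv (deriv (h.data.coef i.blk t0)) t] k|
      ≤ ‖x‖ / i.blk.mu ^ s * (h.famC * i.blk.mu ^ 2) := by
        gcongr
        exact (Real.norm_eq_abs _).symm.le.trans (lp.norm_apply_le_norm (by norm_num) x i)
    _ = _ := by ring

/-- **Bridge to the core:** coefficients equal to the cap family up to `t0` give a function which is
`C²` on the whole chart. -/
theorem exists_extension (h : CapCore C) {s : ℕ} (hs : 19 ≤ s) {c : St → ℝ → ℝ}
    (hc : ∀ i, ContDiff ℝ 2 (c i)) (hB : CoeffBound c s) {t0 : ℝ} {x : HSp}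
    (hcap : ∀ i, ∀ t ≤ t0, c i t = h.capFam s t0 x 0 i t) :
    ∃ f, ContDiffOn ℝ 2 f chart ∧ EqOn f (modeSum c) chartOff := by
  classical
  set y : St → ℝ := fun i => x i / i.blk.mu ^ s
  have hy : ∀ i, |y i| ≤ ‖x‖ * (i.blk.mu ^ 2 / i.blk.mu ^ s) := fun i => by
    have hmu := Blk.one_le_mu i.blk
    simp only [y]
    rw [abs_div, abs_of_pos (pow_pos (zero_lt_one.trans_le hmu) s), ← mul_div_assoc]
    gcongr
    exact ((Real.norm_eq_abs _).symm.le.trans (lp.norm_apply_le_norm (by norm_num) x i)).trans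
      (le_mul_of_one_le_right (norm_nonneg _) (one_le_pow₀ hmu))
  have heq : ∀ p ∈ chartOff, p ∈ Cap.capSet t0 → modeSum c p = h.data.coreSum t0 y p := by
    intro p hp hcs
    have hle : tlog p ≤ t0 := (((Cap.mem_capSet_iff.1 hcs).2.resolve_left hp.2.ne')).le
    rw [h.data.coreSum_eq t0 y hp]
    refine tsum_congr fun i => ?_
    simp only [modeTerm, hcap i _ hle, capFam_apply, Matrix.cons_val_zero, y]
  refine ⟨fun p => if rsq p = 0 then h.data.coreSum t0 y p else modeSum c p, ?_,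
    fun p hp => if_neg hp.2.ne'⟩
  intro p hp
  refine ContDiffAt.contDiffWithinAt ?_
  by_cases hr : rsq p = 0
  · have hmem : p ∈ Cap.capSet t0 := Cap.mem_capSet_iff.2 ⟨hp, Or.inl hr⟩
    refine ((h.data.contDiffOn_coreSum t0 hs hy).contDiffAt
      ((Cap.isOpen_capSet t0).mem_nhds hmem)).congr_of_eventuallyEq ?_
    filter_upwards [(Cap.isOpen_capSet t0).mem_nhds hmem] with q hq
    split_ifs with h0
    · rfl
    · exact heq q ⟨hq.1, lt_of_le_of_ne (Cap.rsq_nonneg q) (Ne.symm h0)⟩ hq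
  · have hmem : p ∈ chartOff := ⟨hp, lt_of_le_of_ne (Cap.rsq_nonneg p) (Ne.symm hr)⟩
    refine (((locallyC2Summable_modes hc (by omega) hB).contDiffOn isOpen_chartOff
      fun i => contDiffOn_modeTerm hc i).contDiffAt
      (isOpen_chartOff.mem_nhds hmem)).congr_of_eventuallyEq ?_
    filter_upwards [isOpen_chartOff.mem_nhds hmem] with q hq
    exact if_neg hq.2.ne'

/-- The two fields `cap_le` and `core` of a system whose first family is `capFam`. -/
theorem cap_le_and_core (h : CapCore C) {s : ℕ} (hs : 19 ≤ s) {A : ℝ → St → St →₀ ℝ}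
    {drift : ℝ → ℝ} (L : Asm.LoopData A drift s) (hok : L.OK)
    (hcap : L.cap = h.capFam s (L.t 0)) :
    (∀ x, ∃ B, ∀ j, ∀ t ≤ L.t 0, |L.cap x 0 j t| ≤ B * (j.blk.mu ^ 2 / j.blk.mu ^ s)) ∧
      ∀ x, L.Orbit x → ∃ f, ContDiffOn ℝ 2 f chart ∧ EqOn f (modeSum (L.coef x)) chartOff := by
  refine ⟨fun x => ⟨_, fun j t ht => by rw [hcap]; exact h.capFam_bd s (L.t 0) x 0 j t ht⟩,
    fun x hx => h.exists_extension hs (hok.contDiff hx) (hok.coeffBound hx) (t0 := L.t 0)
      (x := x 0) fun i t ht => ?_⟩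
  rw [L.coef_eq, hok.sol_cap hx ht, hcap]

end CapCore

end

end Vale.Agent.P225
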