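import Vale.Agent.P225.Assembly.Glue
import Vale.Agent.P225.Seg.Chain

/-!
P225 assembly (helper15): from backward chains of segments to global coefficient families.

A `PieceSol` is a segment with solution families of the mode equations realising every two-point
datum.  A finite chain of pieces with a slope operator at the left end turns a vector at the right
end into a solution on the whole chain; a sequence of loops gives global coefficient functions,
linear in the sequence of loop values.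
-/

namespace Vale.Agent.P225.Asm

open Set Filter Topology

noncomputable section

variable {A : ℝ → St → (St →₀ ℝ)} {drift : ℝ → ℝ} {s : ℕ}

/-- A segment with solution families on its window.  The datum is `(ur, wl)`. -/
structure PieceSol (A : ℝ → St → (St →₀ ℝ)) (drift : ℝ → ℝ) (s : ℕ) where
  a : ℝ
  b : ℝ
  le : a ≤ b
  ρa : St → ℝ
  ρb : St → ℝ
  seg : Seg HSp
  K : ℝ
  K_nonneg : 0 ≤ K
  fam : HSp × HSp →ₗ[ℝ] Fam
  mode : ∀ p, FamSol A drift (Icc a b) (fam p)
  bd : ∀ p, FamBd s (Icc a b) (K * (‖p.1‖ + ‖p.2‖)) (fam p)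
  left : ∀ ul wl ur wr, seg.Sol ul wl ur wr → EndData s (fam (ur, wl)) a ρa ul wl
  right : ∀ ul wl ur wr, seg.Sol ul wl ur wr → EndData s (fam (ur, wl)) b ρb ur wr

/-- The segments of a chain of pieces. -/
def segsOf (S : ℕ → PieceSol A drift s) : ℕ → Seg HSp := fun m => (S m).seg

/-- Value at the left end of piece `m` of a chain of `n` pieces, from the value at the right end. -/
def chainVal (S : ℕ → PieceSol A drift s) (R : HSp →L[ℝ] HSp) (n m : ℕ) : HSp →L[ℝ] HSp :=
  backChain (segsOf S) R m (n - m)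

/-- Datum of piece `m` of a chain of `n` pieces. -/
def chainData (S : ℕ → PieceSol A drift s) (R : HSp →L[ℝ] HSp) (n m : ℕ) :
    HSp →ₗ[ℝ] HSp × HSp :=
  ((chainVal S R n (m + 1) : HSp →L[ℝ] HSp) : HSp →ₗ[ℝ] HSp).prod
    (((slopes (segsOf S) R m).comp (chainVal S R n m) : HSp →L[ℝ] HSp) : HSp →ₗ[ℝ] HSp)

theorem chainData_apply (S : ℕ → PieceSol A drift s) (R : HSp →L[ℝ] HSp) (n m : ℕ) (x : HSp) :
    chainData S R n m x
      = (chainVal S R n (m + 1) x, slopes (segsOf S) R m (chainVal S R n m x)) := rfl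

/-- Glued family of the pieces `0, …, k` of a chain of `n` pieces. -/
def chainFam (S : ℕ → PieceSol A drift s) (R : HSp →L[ℝ] HSp) (n : ℕ) : ℕ → HSp →ₗ[ℝ] Fam
  | 0 => (S 0).fam.comp (chainData S R n 0)
  | k + 1 => (glueL (S k).b).comp
      ((chainFam S R n k).prod ((S (k + 1)).fam.comp (chainData S R n (k + 1))))

/-- The family of a chain of `n` pieces. -/
def chain (S : ℕ → PieceSol A drift s) (R : HSp →L[ℝ] HSp) (n : ℕ) : HSp →ₗ[ℝ] Fam :=
  chainFam S R n (n - 1)

/-- Consecutive pieces fit and the backward steps exist. -/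
structure ChainOK (S : ℕ → PieceSol A drift s) (R : HSp →L[ℝ] HSp) (n : ℕ) : Prop where
  pos : 0 < n
  time : ∀ m, m + 1 < n → (S m).b = (S (m + 1)).a
  ref : ∀ m, m + 1 < n → (S m).ρb = (S (m + 1)).ρa
  inv : ∀ m < n, ‖(S m).seg.B.comp (slopes (segsOf S) R m)‖ < 1

namespace ChainOK

variable {S : ℕ → PieceSol A drift s} {R : HSp →L[ℝ] HSp} {n : ℕ}

theorem chainVal_right (_h : ChainOK S R n) (x : HSp) : chainVal S R n n x = x := by
  simp [chainVal, backChain]

theorem chainVal_succ (_h : ChainOK S R n) {m : ℕ} (hm : m < n) :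
    chainVal S R n m = ((S m).seg.backMap (slopes (segsOf S) R m)).comp (chainVal S R n (m + 1)) := by
  unfold chainVal
  rw [show n - m = (n - (m + 1)) + 1 by omega]
  rfl

/-- The data of the pieces are those of solutions of their segments. -/
theorem sol (h : ChainOK S R n) {m : ℕ} (hm : m < n) (x : HSp) :
    (S m).seg.Sol (chainVal S R n m x) (slopes (segsOf S) R m (chainVal S R n m x))
      (chainVal S R n (m + 1) x) (slopes (segsOf S) R (m + 1) (chainVal S R n (m + 1) x)) := by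
  refine ((S m).seg.sol_iff (h.inv m hm) _ _ _).2 ⟨?_, rfl⟩
  rw [h.chainVal_succ hm]
  rfl

theorem piece_left (h : ChainOK S R n) {m : ℕ} (hm : m < n) (x : HSp) :
    EndData s ((S m).fam (chainData S R n m x)) (S m).a (S m).ρa (chainVal S R n m x)
      (slopes (segsOf S) R m (chainVal S R n m x)) :=
  (S m).left _ _ _ _ (h.sol hm x)

theorem piece_right (h : ChainOK S R n) {m : ℕ} (hm : m < n) (x : HSp) :
    EndData s ((S m).fam (chainData S R n m x)) (S m).b (S m).ρb (chainVal S R n (m + 1) x)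
      (slopes (segsOf S) R (m + 1) (chainVal S R n (m + 1) x)) :=
  (S m).right _ _ _ _ (h.sol hm x)

theorem upTo (h : ChainOK S R n) (x : HSp) : ∀ k, k < n → (S 0).a ≤ (S k).b ∧
    FamSol A drift (Icc (S 0).a (S k).b) (chainFam S R n k x) ∧
    EndData s (chainFam S R n k x) (S 0).a (S 0).ρa (chainVal S R n 0 x) (R (chainVal S R n 0 x)) ∧
    EndData s (chainFam S R n k x) (S k).b (S k).ρb (chainVal S R n (k + 1) x)
      (slopes (segsOf S) R (k + 1) (chainVal S R n (k + 1) x)) ∧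
    ∀ B : ℝ, (∀ m ≤ k, (S m).K * (‖(chainData S R n m x).1‖ + ‖(chainData S R n m x).2‖) ≤ B) →
      FamBd s (Icc (S 0).a (S k).b) B (chainFam S R n k x)
  | 0, hk => ⟨(S 0).le, (S 0).mode _, h.piece_left hk x, h.piece_right hk x,
      fun B hB => ((S 0).bd _).mono subset_rfl (hB 0 le_rfl)⟩
  | k + 1, hk => by
      obtain ⟨hle, hs, hl, hr, hb⟩ := h.upTo x k (by omega)
      have ht := h.time k hk
      have hle' : (S k).b ≤ (S (k + 1)).b := ht.le.trans (S (k + 1)).le
      have hg := (S (k + 1)).mode (chainData S R n (k + 1) x)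
      have hpl := h.piece_left hk x
      rw [← h.ref k hk, ← ht] at hpl
      rw [← ht] at hg
      have hm := hr.toMatch hpl
      have hfull := hs.full_match hg (right_mem_Icc.2 hle) (left_mem_Icc.2 hle') hm
      have e : chainFam S R n (k + 1) x = glue (S k).b (chainFam S R n k x)
          ((S (k + 1)).fam (chainData S R n (k + 1) x)) := rfl
      refine ⟨hle.trans hle', ?_, ?_, ?_, fun B hB => ?_⟩
      · have := hs.glue Icc_subset_Iic_self Icc_subset_Ici_self (right_mem_Icc.2 hle)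
          (left_mem_Icc.2 hle') hg hm
        rw [Icc_union_Icc_eq_Icc hle hle'] at this
        rwa [e]
      · exact hl.congr fun k' i => by rw [e]; exact glue_left _ _ hle k' i
      · exact (h.piece_right hk x).congr fun k' i => by rw [e]; exact glue_right hfull hle' k' i
      · have := (hb B fun m hm' => hB m (by omega)).glue (b := (S k).b) Icc_subset_Iic_self
          Icc_subset_Ici_self hfull
          (((S (k + 1)).bd _).mono (subset_of_eq (by rw [ht])) (hB (k + 1) le_rfl))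
        rw [Icc_union_Icc_eq_Icc hle hle'] at this
        rwa [e]

theorem le (h : ChainOK S R n) : (S 0).a ≤ (S (n - 1)).b :=
  (h.upTo 0 (n - 1) (Nat.sub_lt h.pos one_pos)).1

/-- The chain solves the mode equations on its window. -/
theorem modeSol (h : ChainOK S R n) (x : HSp) :
    FamSol A drift (Icc (S 0).a (S (n - 1)).b) (chain S R n x) :=
  (h.upTo x (n - 1) (Nat.sub_lt h.pos one_pos)).2.1

/-- At the left end the value is the backward image and the deviation its image under `R`. -/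
theorem endLeft (h : ChainOK S R n) (x : HSp) :
    EndData s (chain S R n x) (S 0).a (S 0).ρa (backChain (segsOf S) R 0 n x)
      (R (backChain (segsOf S) R 0 n x)) :=
  (h.upTo x (n - 1) (Nat.sub_lt h.pos one_pos)).2.2.1

/-- At the right end the value is `x` and the deviation its image under the last slope. -/
theorem endRight (h : ChainOK S R n) (x : HSp) :
    EndData s (chain S R n x) (S (n - 1)).b (S (n - 1)).ρb x (slopes (segsOf S) R n x) := by
  have := (h.upTo x (n - 1) (Nat.sub_lt h.pos one_pos)).2.2.2.1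
  rwa [Nat.sub_add_cancel (Nat.one_le_iff_ne_zero.2 h.pos.ne'), h.chainVal_right x] at this

theorem norm_chainVal_le (h : ChainOK S R n) {K : ℝ} (hK : 0 ≤ K)
    (hback : ∀ m < n, ‖(S m).seg.backMap (slopes (segsOf S) R m)‖ ≤ K) (x : HSp) :
    ∀ d m, m + d = n → ‖chainVal S R n m x‖ ≤ K ^ d * ‖x‖
  | 0, m, e => by
      obtain rfl : m = n := e
      rw [h.chainVal_right, pow_zero, one_mul]
  | d + 1, m, e => by
      have ih := h.norm_chainVal_le hK hback x d (m + 1) (by omega)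
      rw [h.chainVal_succ (by omega : m < n), ContinuousLinearMap.comp_apply, pow_succ', mul_assoc]
      refine (ContinuousLinearMap.le_opNorm _ _).trans ?_
      exact mul_le_mul (hback m (by omega)) ih (norm_nonneg _) hK

/-- The chain is bounded by `2 K^(n+2)` times the norm of its right value. -/
theorem bd (h : ChainOK S R n) {K : ℝ} (hK : 1 ≤ K) (hpiece : ∀ m < n, (S m).K ≤ K)
    (hback : ∀ m < n, ‖(S m).seg.backMap (slopes (segsOf S) R m)‖ ≤ K)
    (hslope : ∀ m < n, ‖slopes (segsOf S) R m‖ ≤ K) (x : HSp) :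
    FamBd s (Icc (S 0).a (S (n - 1)).b) (2 * K ^ (n + 2) * ‖x‖) (chain S R n x) := by
  refine (h.upTo x (n - 1) (Nat.sub_lt h.pos one_pos)).2.2.2.2 _ fun m hm => ?_
  have hm' : m < n := by have := h.pos; omega
  have h1 := h.norm_chainVal_le (zero_le_one.trans hK) hback x (n - (m + 1)) (m + 1) (by omega)
  have h2 := h.norm_chainVal_le (zero_le_one.trans hK) hback x (n - m) m (by omega)
  have hp : ∀ d, d ≤ n → K ^ d * ‖x‖ ≤ K ^ n * ‖x‖ := fun d hd =>
    mul_le_mul_of_nonneg_right (pow_le_pow_right₀ hK hd) (norm_nonneg _)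
  have hx : 0 ≤ K ^ n * ‖x‖ := by positivity
  rw [chainData_apply]
  have hw : ‖slopes (segsOf S) R m (chainVal S R n m x)‖ ≤ K * (K ^ n * ‖x‖) :=
    ((slopes (segsOf S) R m).le_opNorm _).trans
      (mul_le_mul (hslope m hm') (h2.trans (hp _ (Nat.sub_le _ _))) (norm_nonneg _)
        (zero_le_one.trans hK))
  have hu : ‖chainVal S R n (m + 1) x‖ ≤ K * (K ^ n * ‖x‖) :=
    (h1.trans (hp _ (Nat.sub_le _ _))).trans (le_mul_of_one_le_left hx hK)
  calc (S m).K * (‖chainVal S R n (m + 1) x‖ + ‖slopes (segsOf S) R m (chainVal S R n m x)‖)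
      ≤ K * (K * (K ^ n * ‖x‖) + K * (K ^ n * ‖x‖)) :=
        mul_le_mul (hpiece m hm') (add_le_add hu hw) (by positivity) (zero_le_one.trans hK)
    _ = 2 * K ^ (n + 2) * ‖x‖ := by ring

theorem exists_bd (h : ChainOK S R n) (x : HSp) :
    ∃ B, FamBd s (Icc (S 0).a (S (n - 1)).b) B (chain S R n x) :=
  ⟨∑ m ∈ Finset.range n, (S m).K * (‖(chainData S R n m x).1‖ + ‖(chainData S R n m x).2‖),
    (h.upTo x (n - 1) (Nat.sub_lt h.pos one_pos)).2.2.2.2 _ fun m hm =>
      Finset.single_le_sum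
        (f := fun m => (S m).K * (‖(chainData S R n m x).1‖ + ‖(chainData S R n m x).2‖))
        (fun l _ => mul_nonneg (S l).K_nonneg (by positivity))
        (Finset.mem_range.2 (by have := h.pos; omega))⟩

end ChainOK

/-- Small slopes at the left keep every backward step of a short chain invertible. -/
theorem slopes_small {S : ℕ → Seg HSp} {R : HSp →L[ℝ] HSp} {n : ℕ} {K δ : ℝ} (hK : 1 ≤ K)
    (hQ : ∀ m < n, ‖(S m).Q‖ ≤ K) (hB : ∀ m < n, ‖(S m).B‖ ≤ K) (hC : ∀ m < n, ‖(S m).C‖ ≤ δ)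
    (hD : ∀ m < n, ‖(S m).D‖ ≤ K) (hδ : 0 ≤ δ)
    (hsmall : (2 * K ^ 2 + 1) ^ n * (‖R‖ + δ) ≤ 1 / (2 * K)) :
    (∀ m ≤ n, ‖slopes S R m‖ + δ ≤ (2 * K ^ 2 + 1) ^ m * (‖R‖ + δ)) ∧
      ∀ m < n, ‖(S m).B.comp (slopes S R m)‖ ≤ 1 / 2 ∧ ‖(S m).backMap (slopes S R m)‖ ≤ 2 * K := by
  have hK0 : 0 < K := zero_lt_one.trans_le hK
  have hM : 1 ≤ 2 * K ^ 2 + 1 := by nlinarith
  have step : ∀ m < n, ∀ T : HSp →L[ℝ] HSp, ‖T‖ ≤ 1 / (2 * K) →
      ‖(S m).B.comp T‖ ≤ 1 / 2 ∧ ‖(S m).backMap T‖ ≤ 2 * K ∧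
      ‖(S m).slopeMap T‖ ≤ δ + 2 * K ^ 2 * ‖T‖ := by
    intro m hm T hT
    have hBT : ‖(S m).B.comp T‖ ≤ 1 / 2 := by
      refine (ContinuousLinearMap.opNorm_comp_le _ _).trans ?_
      calc ‖(S m).B‖ * ‖T‖ ≤ K * (1 / (2 * K)) := mul_le_mul (hB m hm) hT (norm_nonneg _) hK0.le
        _ = 1 / 2 := by field_simp
    have hb : ‖(S m).backMap T‖ ≤ 2 * K := by
      refine ContinuousLinearMap.opNorm_le_bound _ (by positivity) fun x => ?_
      refine ((S m).norm_backMap_le (by linarith) x).trans ?_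
      rw [div_le_iff₀ (by linarith)]
      nlinarith [mul_le_mul_of_nonneg_right (hQ m hm) (norm_nonneg x),
        mul_le_mul_of_nonneg_left (show (1 : ℝ) / 2 ≤ 1 - ‖(S m).B.comp T‖ by linarith)
          (by positivity : 0 ≤ 2 * K * ‖x‖)]
    refine ⟨hBT, hb, (norm_add_le _ _).trans (add_le_add (hC m hm) ?_)⟩
    refine (ContinuousLinearMap.opNorm_comp_le _ _).trans ?_
    calc ‖(S m).D.comp T‖ * ‖(S m).backMap T‖ ≤ (K * ‖T‖) * (2 * K) :=
          mul_le_mul ((ContinuousLinearMap.opNorm_comp_le _ _).trans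
            (mul_le_mul_of_nonneg_right (hD m hm) (norm_nonneg _))) hb (norm_nonneg _) (by positivity)
      _ = 2 * K ^ 2 * ‖T‖ := by ring
  have h1 : ∀ m ≤ n, ‖slopes S R m‖ + δ ≤ (2 * K ^ 2 + 1) ^ m * (‖R‖ + δ) := by
    intro m
    induction m with
    | zero => intro _; simp [slopes]
    | succ m ih =>
        intro hm
        have hi := ih (by omega)
        have hsm : ‖slopes S R m‖ ≤ 1 / (2 * K) := by
          refine le_trans ?_ hsmall
          refine le_trans ?_ (mul_le_mul_of_nonneg_right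
            (pow_le_pow_right₀ hM (by omega : m ≤ n)) (by positivity))
          linarith
        have h3 := (step m (by omega) _ hsm).2.2
        rw [pow_succ', mul_assoc]
        refine le_trans ?_ (mul_le_mul_of_nonneg_left hi (by positivity))
        show ‖(S m).slopeMap (slopes S R m)‖ + δ ≤ _
        nlinarith [norm_nonneg (slopes S R m),
          mul_nonneg hδ (show 0 ≤ 2 * K ^ 2 - 1 by nlinarith)]
  refine ⟨h1, fun m hm => ?_⟩
  have hsm : ‖slopes S R m‖ ≤ 1 / (2 * K) := by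
    refine le_trans ?_ hsmall
    refine le_trans ?_ (mul_le_mul_of_nonneg_right
      (pow_le_pow_right₀ hM hm.le) (by positivity))
    linarith [h1 m hm.le]
  exact ⟨(step m hm _ hsm).1, (step m hm _ hsm).2.1⟩

/-! ### Loops -/

/-- The pieces of all loops, the slopes at their starts and a family up to the first start. -/
structure LoopData (A : ℝ → St → (St →₀ ℝ)) (drift : ℝ → ℝ) (s : ℕ) where
  S : ℕ → ℕ → PieceSol A drift s
  len : ℕ → ℕ
  R : ℕ → HSp →L[ℝ] HSp
  t : ℕ → ℝ
  ρ : ℕ → St → ℝ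
  cap : HSp →ₗ[ℝ] Fam

namespace LoopData

variable (L : LoopData A drift s)

/-- Backward map of loop `i`. -/
def back (i : ℕ) : HSp →L[ℝ] HSp := backChain (segsOf (L.S i)) (L.R i) 0 (L.len i)

/-- The loops fit together; the first family solves the equations up to `t 0`. -/
structure OK : Prop where
  chainOK : ∀ i, ChainOK (L.S i) (L.R i) (L.len i)
  start_eq : ∀ i, (L.S i 0).a = L.t i
  end_eq : ∀ i, (L.S i (L.len i - 1)).b = L.t (i + 1)
  ρ_start : ∀ i, (L.S i 0).ρa = L.ρ i
  ρ_end : ∀ i, (L.S i (L.len i - 1)).ρb = L.ρ (i + 1)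
  slope : ∀ i, L.R (i + 1) = slopes (segsOf (L.S i)) (L.R i) (L.len i)
  strictMono : StrictMono L.t
  tendsto : Tendsto L.t atTop atTop
  cap_sol : ∀ x, FamSol A drift (Iic (L.t 0)) (L.cap x)
  cap_end : ∀ x, EndData s (L.cap x) (L.t 0) (L.ρ 0) x (L.R 0 x)
  cap_bd : ∀ x, ∀ T₀ : ℝ, ∃ B, FamBd s (Icc T₀ (L.t 0)) B (L.cap x)

/-- The families of the cap and of the loops. -/
def fams : (ℕ → HSp) →ₗ[ℝ] ℕ → Fam :=
  LinearMap.pi fun m => match m with
    | 0 => L.cap.comp (LinearMap.proj 0)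
    | i + 1 => (chain (L.S i) (L.R i) (L.len i)).comp (LinearMap.proj (i + 1))

/-- The global family of a sequence of values at the loop starts. -/
def sol : (ℕ → HSp) →ₗ[ℝ] Fam := (seqGlueL L.t).comp L.fams

/-- The coefficient functions. -/
def coef : (ℕ → HSp) →ₗ[ℝ] St → ℝ → ℝ := (LinearMap.proj 0).comp L.sol

theorem coef_eq (x : ℕ → HSp) : L.coef x = L.sol x 0 := rfl

@[simp] theorem fams_zero (x : ℕ → HSp) : L.fams x 0 = L.cap (x 0) := rfl

@[simp] theorem fams_succ (x : ℕ → HSp) (i : ℕ) :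
    L.fams x (i + 1) = chain (L.S i) (L.R i) (L.len i) (x (i + 1)) := rfl

/-- The sequence is a backward orbit of the loop maps. -/
def Orbit (x : ℕ → HSp) : Prop := ∀ i, x i = L.back i (x (i + 1))

variable {L}

namespace OK

variable (h : L.OK)
include h

theorem endData_fams (x : ℕ → HSp) : ∀ i,
    EndData s (L.fams x i) (L.t i) (L.ρ i) (x i) (L.R i (x i))
  | 0 => h.cap_end _
  | i + 1 => by
      have := (h.chainOK i).endRight (x (i + 1))
      rwa [h.end_eq, h.ρ_end, ← h.slope] at this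

theorem seqSol {x : ℕ → HSp} (hx : L.Orbit x) : SeqSol A drift L.t (L.fams x) where
  strictMono := h.strictMono
  tendsto := h.tendsto
  first := h.cap_sol _
  window m := by
    have := (h.chainOK m).modeSol (x (m + 1))
    rwa [h.start_eq, h.end_eq] at this
  joint m := by
    have h2 := (h.chainOK m).endLeft (x (m + 1))
    rw [h.start_eq, h.ρ_start, show backChain (segsOf (L.S m)) (L.R m) 0 (L.len m) (x (m + 1))
      = x m from (hx m).symm] at h2
    exact (h.endData_fams x m).toMatch h2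

theorem modeSol {x : ℕ → HSp} (hx : L.Orbit x) : FamSol A drift univ (L.sol x) :=
  (h.seqSol hx).modeSol

theorem contDiff {x : ℕ → HSp} (hx : L.Orbit x) (i : St) : ContDiff ℝ 2 (L.coef x i) :=
  (h.modeSol hx).contDiff i

theorem exists_window_bd (x : ℕ → HSp) (m : ℕ) :
    ∃ B, FamBd s (Icc (L.t m) (L.t (m + 1))) B (L.fams x (m + 1)) := by
  have := (h.chainOK m).exists_bd (x (m + 1))
  rwa [h.start_eq, h.end_eq] at this

theorem coeffBound {x : ℕ → HSp} (hx : L.Orbit x) : CoeffBound (L.coef x) s :=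
  (h.seqSol hx).coeffBound (h.cap_bd _) (h.exists_window_bd x)

/-- Up to the first start the family is the one of the cap. -/
theorem sol_cap {x : ℕ → HSp} (hx : L.Orbit x) {τ : ℝ} (hτ : τ ≤ L.t 0) (k : Fin 3) (i : St) :
    L.sol x k i τ = L.cap (x 0) k i τ :=
  (h.seqSol hx).seqGlue_first hτ k i

/-- The coefficients at a loop start are the loop values. -/
theorem coef_start {x : ℕ → HSp} (hx : L.Orbit x) (i : ℕ) (j : St) :
    L.coef x j (L.t i) = x i j / j.blk.mu ^ s := by
  have h1 := (h.chainOK i).endLeft (x (i + 1))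
  rw [h.start_eq, show backChain (segsOf (L.S i)) (L.R i) 0 (L.len i) (x (i + 1))
      = x i from (hx i).symm] at h1
  show seqGlue L.t (L.fams x) 0 j (L.t i) = _
  rw [(h.seqSol hx).seqGlue_window (left_mem_Icc.2 (h.strictMono (Nat.lt_succ_self i)).le)]
  exact h1.val j

theorem eq_zero_of_coef {x : ℕ → HSp} (hx : L.Orbit x) {i : ℕ}
    (h0 : ∀ j, L.coef x j (L.t i) = 0) : x i = 0 := by
  ext j
  have := h0 j
  rw [h.coef_start hx] at this
  have hmu : j.blk.mu ^ s ≠ 0 :=
    pow_ne_zero _ (zero_lt_one.trans_le (Blk.one_le_mu _)).ne'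
  simpa [hmu] using this

/-- Growth from bounds on the loop values. -/
theorem growth {x : ℕ → HSp} (hx : L.Orbit x) {K : ℝ} (hK : 1 ≤ K) {M : ℕ}
    (hlen : ∀ i, L.len i ≤ M) (hpiece : ∀ i, ∀ m < L.len i, (L.S i m).K ≤ K)
    (hback : ∀ i, ∀ m < L.len i,
      ‖(L.S i m).seg.backMap (slopes (segsOf (L.S i)) (L.R i) m)‖ ≤ K)
    (hslope : ∀ i, ∀ m < L.len i, ‖slopes (segsOf (L.S i)) (L.R i) m‖ ≤ K)
    {C k : ℝ} (hgrow : ∀ i, ∀ τ, L.t i ≤ τ → ‖x (i + 1)‖ ≤ C * Real.exp (k * τ))
    (q : Fin 3) (j : St) {τ : ℝ} (hτ : L.t 0 ≤ τ) :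
    |L.sol x q j τ| ≤ 2 * K ^ (M + 2) * C * Real.exp (k * τ) * (j.blk.mu ^ 2 / j.blk.mu ^ s) := by
  refine (h.seqSol hx).bd_of_window (B := fun m => 2 * K ^ (M + 2) * ‖x (m + 1)‖)
    (g := fun τ => 2 * K ^ (M + 2) * C * Real.exp (k * τ)) (fun m => ?_) (fun m τ hτ => ?_) q j hτ
  · have := ((h.chainOK m).bd hK (hpiece m) (hback m) (hslope m) (x (m + 1))).mono subset_rfl
      (show 2 * K ^ (L.len m + 2) * ‖x (m + 1)‖ ≤ 2 * K ^ (M + 2) * ‖x (m + 1)‖ by
        gcongr
        exact hlen m)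
    rwa [h.start_eq, h.end_eq] at this
  · rw [mul_assoc (2 * K ^ (M + 2)) C]
    exact mul_le_mul_of_nonneg_left (hgrow m τ hτ) (by positivity)

/-- The pointwise bound of the mode series after the cap. -/
theorem abs_tsum_le {x : ℕ → HSp} (hx : L.Orbit x) (hs : 13 ≤ s) {K : ℝ} (hK : 1 ≤ K) {M : ℕ}
    (hlen : ∀ i, L.len i ≤ M) (hpiece : ∀ i, ∀ m < L.len i, (L.S i m).K ≤ K)
    (hback : ∀ i, ∀ m < L.len i,
      ‖(L.S i m).seg.backMap (slopes (segsOf (L.S i)) (L.R i) m)‖ ≤ K)
    (hslope : ∀ i, ∀ m < L.len i, ‖slopes (segsOf (L.S i)) (L.R i) m‖ ≤ K)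
    {C k : ℝ} (hgrow : ∀ i, ∀ τ, L.t i ≤ τ → ‖x (i + 1)‖ ≤ C * Real.exp (k * τ))
    {p : Pt 7} (hp : p ∈ chartOff) (hτ : L.t 0 ≤ tlog p) :
    |∑' i, modeTerm (L.coef x) i p|
      ≤ modeConst s * (2 * K ^ (M + 2) * C * Real.exp (k * tlog p)) :=
  abs_tsum_modes_le hs hp fun j => h.growth hx hK hlen hpiece hback hslope hgrow 0 j hτ

end OK

end LoopData

end

end Vale.Agent.P225.Asm
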