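import Vale.Agent.P225.Metric.Sched

/-!
P225 assembly (helper29): exponential growth bound along the schedule.

Bounds `exp (k' * start + G * T_j)` at loop ends give `exp (k * t)` at all times when `k' < k`.
-/

namespace Vale.Agent.P225

open Finset

noncomputable section

theorem pow_seven_le {A ε : ℝ} (hA : 0 ≤ A) (hε : 0 < ε) :
    ∃ C : ℝ, ∀ i : ℕ, A * ((i : ℝ) + 1) ^ 7 ≤ ε * (i : ℝ) ^ 8 + C := by
  set N := ⌈128 * A / ε⌉₊ + 1
  refine ⟨A * ((N : ℝ) + 1) ^ 7, fun i => ?_⟩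
  have hi0 : (0 : ℝ) ≤ i := Nat.cast_nonneg i
  rcases le_or_gt N i with h | h
  · have hN : 128 * A / ε ≤ (i : ℝ) := by
      have : (⌈128 * A / ε⌉₊ : ℝ) ≤ i := by exact_mod_cast (Nat.le_succ _).trans h
      exact (Nat.le_ceil _).trans this
    have h1 : (1 : ℝ) ≤ i := by exact_mod_cast (Nat.le_add_left 1 _).trans h
    have h2 : ((i : ℝ) + 1) ^ 7 ≤ 128 * (i : ℝ) ^ 7 := by
      calc ((i : ℝ) + 1) ^ 7 ≤ (2 * i) ^ 7 := by gcongr; linarith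
        _ = 128 * (i : ℝ) ^ 7 := by ring
    have h3 : 128 * A ≤ ε * i := by
      rw [div_le_iff₀ hε] at hN
      linarith
    have h4 : 0 ≤ A * ((N : ℝ) + 1) ^ 7 := by positivity
    calc A * ((i : ℝ) + 1) ^ 7 ≤ A * (128 * (i : ℝ) ^ 7) := by gcongr
      _ = (128 * A) * (i : ℝ) ^ 7 := by ring
      _ ≤ ε * i * (i : ℝ) ^ 7 := by gcongr
      _ = ε * (i : ℝ) ^ 8 := by ring
      _ ≤ ε * (i : ℝ) ^ 8 + A * ((N : ℝ) + 1) ^ 7 := le_add_of_nonneg_right h4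
  · have h1 : ((i : ℝ) + 1) ^ 7 ≤ ((N : ℝ) + 1) ^ 7 := by
      gcongr
    have h2 : A * ((i : ℝ) + 1) ^ 7 ≤ A * ((N : ℝ) + 1) ^ 7 := by gcongr
    have : 0 ≤ ε * (i : ℝ) ^ 8 := by positivity
    linarith

namespace Sched

variable (S : Sched)

theorem loopLen_le {M : ℕ} (hlen : ∀ j, (S.prog j).length ≤ M)
    (hpow : ∀ j, ∀ P ∈ S.prog j, P.power ≤ 7) (j : ℕ) :
    S.loopLen j ≤ M * ((j : ℝ) + 1) ^ 7 := by
  have h1 : ∀ x ∈ (S.prog j).map (fun P => P.len j), x ≤ ((j : ℝ) + 1) ^ 7 := by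
    intro x hx
    obtain ⟨P, hP, rfl⟩ := List.mem_map.1 hx
    exact pow_le_pow_right₀ (by linarith [(Nat.cast_nonneg j : (0 : ℝ) ≤ j)]) (hpow j P hP)
  have h2 := List.sum_le_card_nsmul _ _ h1
  rw [nsmul_eq_mul, List.length_map] at h2
  refine h2.trans ?_
  gcongr
  exact_mod_cast hlen j

theorem pow_seven_le_loopLen (hhold : ∀ j, ∃ P ∈ S.prog j, P.power = 7) (j : ℕ) :
    ((j : ℝ) + 1) ^ 7 ≤ S.loopLen j := by
  obtain ⟨P, hP, hp⟩ := hhold j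
  have h := List.single_le_sum (l := (S.prog j).map fun P => P.len j)
    (fun x hx => by obtain ⟨Q, -, rfl⟩ := List.mem_map.1 hx; exact (Q.len_pos j).le)
    (P.len j) (List.mem_map.2 ⟨P, hP, rfl⟩)
  simpa [loopLen, Piece.len, hp] using h

theorem pow_eight_le_start (hhold : ∀ j, ∃ P ∈ S.prog j, P.power = 7) (i : ℕ) :
    (i : ℝ) ^ 8 / 256 ≤ S.start i := by
  have h1 : ∀ n : ℕ, (n : ℝ) ^ 8 / 8 ≤ ∑ l ∈ range n, ((l : ℝ) + 1) ^ 7 := by
    intro n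
    induction n with
    | zero => simp
    | succ n ih =>
        rw [sum_range_succ, Nat.cast_succ]
        have hn : (0 : ℝ) ≤ n := Nat.cast_nonneg n
        have key : ((n : ℝ) + 1) ^ 8 - (n : ℝ) ^ 8 ≤ 8 * ((n : ℝ) + 1) ^ 7 := by
          nlinarith [pow_nonneg hn 2, pow_nonneg hn 3, pow_nonneg hn 4, pow_nonneg hn 5,
            pow_nonneg hn 6]
        linarith
  have h2 : ∑ l ∈ range i, ((l : ℝ) + 1) ^ 7 ≤ ∑ l ∈ range i, S.loopLen (S.j0 + l) := by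
    refine sum_le_sum fun l _ => le_trans ?_ (S.pow_seven_le_loopLen hhold (S.j0 + l))
    gcongr
    push_cast
    linarith [(Nat.cast_nonneg S.j0 : (0 : ℝ) ≤ S.j0)]
  have h3 : (i : ℝ) ^ 8 / 256 ≤ (i : ℝ) ^ 8 / 8 := by
    have : (0 : ℝ) ≤ (i : ℝ) ^ 8 := by positivity
    linarith
  have := S.one_le_t0
  unfold start
  linarith [h1 i]

/-- Growth at all times from bounds at loop ends. -/
theorem exp_bound {M : ℕ} (hlen : ∀ j, (S.prog j).length ≤ M)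
    (hpow : ∀ j, ∀ P ∈ S.prog j, P.power ≤ 7) (hhold : ∀ j, ∃ P ∈ S.prog j, P.power = 7)
    {k k' G : ℝ} (hk' : 0 ≤ k') (hk : k' < k) (hG : 0 ≤ G) :
    ∃ C : ℝ, ∀ i : ℕ, ∀ t : ℝ, S.start i ≤ t →
      Real.exp (k' * S.start (i + 1) + G * (((S.j0 + i + 1 : ℕ) : ℝ) + 1) ^ 7)
        ≤ C * Real.exp (k * t) := by
  set J : ℝ := (S.j0 : ℝ) + 3
  obtain ⟨C, hC⟩ := pow_seven_le (A := (k' * M + G) * J ^ 7) (ε := (k - k') / 256)
    (by positivity) (by linarith)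
  refine ⟨Real.exp C, fun i t ht => ?_⟩
  rw [← Real.exp_add]
  refine Real.exp_le_exp.2 ?_
  have hlen' := S.loopLen_le hlen hpow (S.j0 + i)
  have hs := S.pow_eight_le_start hhold i
  have hi : (0 : ℝ) ≤ i := Nat.cast_nonneg i
  have hj : (0 : ℝ) ≤ S.j0 := Nat.cast_nonneg _
  have e1 : (((S.j0 + i : ℕ) : ℝ) + 1) ^ 7 ≤ J ^ 7 * ((i : ℝ) + 1) ^ 7 := by
    rw [← mul_pow]
    gcongr
    push_cast
    nlinarith [mul_nonneg hj hi]
  have e2 : (((S.j0 + i + 1 : ℕ) : ℝ) + 1) ^ 7 ≤ J ^ 7 * ((i : ℝ) + 1) ^ 7 := by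
    rw [← mul_pow]
    gcongr
    push_cast
    nlinarith [mul_nonneg hj hi]
  have h1 : k' * S.start (i + 1)
      ≤ k' * S.start i + k' * M * (J ^ 7 * ((i : ℝ) + 1) ^ 7) := by
    rw [S.start_succ, mul_add, mul_assoc k']
    gcongr
    exact hlen'.trans (by gcongr)
  have h2 : G * (((S.j0 + i + 1 : ℕ) : ℝ) + 1) ^ 7 ≤ G * (J ^ 7 * ((i : ℝ) + 1) ^ 7) := by
    gcongr
  have h3 := hC i
  have h4 : (k - k') * ((i : ℝ) ^ 8 / 256) ≤ (k - k') * S.start i := by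
    gcongr
  have h5 : k * S.start i ≤ k * t := by gcongr; linarith
  nlinarith

end Sched

end

end Vale.Agent.P225
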