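import Vale.Agent.P225.Loop.SplitSign
import Vale.Agent.P225.Assembly.Growth

/-!
P225 assembly (helper29): the choice of `k'`, of the finite set of states and the orbits of loop
maps with the block form delivered by the corrector and the controls.
-/

namespace Vale.Agent.P225

open Finset

noncomputable section

attribute [local irreducible] Count.sStates Count.theWord classPeriod

/-- The scale at infinity of the weights. -/
def sInf : ℝ := Real.sqrt (1 / dMin)

theorem sInf_nonneg : 0 ≤ sInf := Real.sqrt_nonneg _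

theorem sInf_sq : sInf ^ 2 = 1000 / 122 := by
  rw [sInf, Real.sq_sqrt (by norm_num [dMin])]
  norm_num [dMin]

/-- Exponent of a state during a hold at infinity. -/
def alphaInf (i : St) : ℝ := Count.alphaJ sInf i.blk.la i.blk.lb

theorem alphaInf_congr {i j : St} (h : i.blk.level 0 = j.blk.level 0) : alphaInf i = alphaInf j := by
  simp only [Blk.level, Matrix.cons_val_zero, Prod.mk.injEq] at h
  simp [alphaInf, h.1, h.2]

/-- The finite set of blocks with both labels at `J3` at most `Mb`. -/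
def wBlk (Mb : ℕ) : Finset Blk :=
  Finset.preimage (range (Mb + 1) ×ˢ (range (Mb + 1) ×ˢ range (2 * Mb + 1)))
    (fun V : Blk => V.1) fun _ _ _ _ h => Subtype.ext h

/-- The finite set: all states with both labels at `J3` at most `Mb`. -/
def wAll (Mb : ℕ) : Finset St := (wBlk Mb).sigma fun _ => univ

/-- States with both labels nonzero and the constant state. -/
def wMono (Mb : ℕ) : Finset St :=
  (wAll Mb).filter fun i => (i.blk.la = 0 ↔ i.blk.lb = 0)

/-- States with exactly one label zero. -/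
def wAxis (Mb : ℕ) : Finset St :=
  (wAll Mb).filter fun i => ¬(i.blk.la = 0 ↔ i.blk.lb = 0)

theorem mem_wAll {Mb : ℕ} {i : St} : i ∈ wAll Mb ↔ i.blk.la ≤ Mb ∧ i.blk.lb ≤ Mb := by
  have h0 : i ∈ wAll Mb ↔ i.1 ∈ wBlk Mb :=
    (Finset.mem_sigma).trans (and_iff_left (mem_univ _))
  refine h0.trans (Finset.mem_preimage.trans ?_)
  simp only [mem_product, mem_range]
  have hc := i.1.2.2.2.2
  show (i.1.la < Mb + 1 ∧ i.1.lb < Mb + 1 ∧ i.1.lc < 2 * Mb + 1) ↔ i.1.la ≤ Mb ∧ i.1.lb ≤ Mb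
  have hc' : i.1.lc ≤ i.1.la + i.1.lb := hc
  omega

theorem disjoint_wMono_wAxis (Mb : ℕ) : Disjoint (wMono Mb) (wAxis Mb) :=
  disjoint_filter_filter_not _ _ _

theorem mem_wMono_or_wAxis {Mb : ℕ} {i : St} :
    i ∈ wMono Mb ∪ wAxis Mb ↔ i.blk.la ≤ Mb ∧ i.blk.lb ≤ Mb := by
  rw [wMono, wAxis, filter_union_filter_not_eq, mem_wAll]

theorem sStates_subset_wMono {Mb : ℕ} (hMb : 10 ≤ Mb) (p : Fin 4) :
    Count.sStates p ⊆ wMono Mb := by
  intro i hi
  obtain ⟨ha, hb, ha', hb', -⟩ := Count.sBlk_spec (Count.mem_sStates.1 hi)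
  refine mem_filter.2 ⟨mem_wAll.2 ⟨ha'.trans hMb, hb'.trans hMb⟩, iff_of_false ?_ ?_⟩ <;> omega

/-- Far states have large exponents. -/
theorem le_alphaInf_of_far {Mb : ℕ} {i : St} (h : ¬(i.blk.la ≤ Mb ∧ i.blk.lb ≤ Mb)) :
    (Mb : ℝ) ≤ alphaInf i := by
  set a := i.blk.la
  set b := i.blk.lb
  have hl : ((Mb : ℝ) + 1) ^ 2 ≤ (Count.lev a b : ℝ) := by
    have h' : (Mb + 1) * (Mb + 1) ≤ Count.lev a b := by
      simp only [Count.lev]
      rcases not_and_or.1 h with h | h
      · have : Mb + 1 ≤ a := by omega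
        nlinarith
      · have : Mb + 1 ≤ b := by omega
        nlinarith
    rw [sq]; exact_mod_cast h'
  have hs : 2 ≤ sInf := Real.le_sqrt_of_sq_le (by norm_num [dMin])
  have hM : (0 : ℝ) ≤ Mb := Nat.cast_nonneg _
  have hsl : 2 * ((Mb : ℝ) + 1) ^ 2 ≤ sInf * Count.lev a b :=
    mul_le_mul hs hl (by positivity) sInf_nonneg
  show (Mb : ℝ) ≤ (Real.sqrt (25 + 4 * sInf * Count.lev a b) - 5) / 2
  rw [le_div_iff₀ two_pos, le_sub_iff_add_le]
  exact Real.le_sqrt_of_sq_le (by nlinarith [sq_nonneg ((Mb : ℝ) - 1 / 2)])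

/-- A threshold avoiding finitely many exponents. -/
theorem exists_threshold (A : Finset ℝ) : ∃ k' ε : ℝ, 0 < ε ∧ ε ≤ 1 ∧ k' < 14 ∧
    1399 / 100 ≤ k' - ε ∧ ∀ x ∈ A, x ≤ k' - ε ∨ k' + ε ≤ x := by
  classical
  obtain ⟨d, hd, hA⟩ : ∃ d : ℝ, 0 < d ∧ d ≤ 1 / 100 ∧
      ∀ x ∈ A, 1399 / 100 < x → 1399 / 100 + d ≤ x := by
    induction A using Finset.induction with
    | empty => exact ⟨1 / 100, by norm_num, le_rfl, fun x hx => absurd hx (notMem_empty x)⟩
    | @insert a A _ ih =>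
        obtain ⟨d, hd, hd1, hA⟩ := ih
        rcases le_or_gt a (1399 / 100) with ha | ha
        · refine ⟨d, hd, hd1, fun x hx hx' => ?_⟩
          rcases mem_insert.1 hx with rfl | hx
          · linarith
          · exact hA x hx hx'
        · refine ⟨min d (a - 1399 / 100), lt_min hd (by linarith), (min_le_left _ _).trans hd1,
            fun x hx hx' => ?_⟩
          rcases mem_insert.1 hx with rfl | hx
          · linarith [min_le_right d (x - 1399 / 100)]
          · linarith [hA x hx hx', min_le_left d (a - 1399 / 100)]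
  refine ⟨1399 / 100 + d / 2, d / 2, by linarith, by linarith [hA.1], by linarith [hA.1],
    by linarith, fun x hx => ?_⟩
  rcases le_or_gt x (1399 / 100) with h | h
  · exact Or.inl (by linarith)
  · exact Or.inr (by linarith [hA.2 x hx h])

/-- The permutation of loop `i`: the first loop is diagonal, loop `i + 1` makes step `i` of the
word. -/
def stepPerm : ℕ → Equiv.Perm St
  | 0 => 1
  | i + 1 => Count.tau i

/-- The block form of one loop map: signed monomial on `wMono`, diagonal up to a tiny perturbation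
on `wAxis`, contracting elsewhere, all logarithms up to `E j^6`. -/
structure LoopBlock (S : Sched) (Mb : ℕ) (E : ℝ) (Q : ℕ → HSp →L[ℝ] HSp) : Prop where
  mono : ∀ i, ∃ κ ρ : {q : St // q ∈ wMono Mb} → ℝ,
    (∀ q, 0 < κ q ∧ |ρ q| = 1 ∧
      |Real.log (κ q) + alphaInf (stepPerm i q.1) * S.T7 i| ≤ E * S.T6 i) ∧
    ∀ u v q, ∀ h : stepPerm i q.1 ∈ wMono Mb,
      pickW (wMono Mb) (Q i (putW (wMono Mb) u + putW (wAxis Mb) v)) q
        = ρ q * (κ q * u ⟨stepPerm i q.1, h⟩)
  axis : ∀ i, ∃ (κ : {q : St // q ∈ wAxis Mb} → ℝ)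
      (Eax : ({q : St // q ∈ wAxis Mb} → ℝ) →L[ℝ] ({q : St // q ∈ wAxis Mb} → ℝ)),
    (∀ q, 0 < κ q ∧ |Real.log (κ q) + alphaInf q.1 * S.T7 i| ≤ E * S.T6 i) ∧
    ‖Eax‖ ≤ Real.exp (-(S.T6 i) / 4) ∧
    ∀ u v, pickW (wAxis Mb) (Q i (putW (wMono Mb) u + putW (wAxis Mb) v))
      = (1 + Eax) fun q => κ q * v q
  farMono : ∀ i, ‖(pickW (wMono Mb)).comp ((Q i).comp (farP (wMono Mb) (wAxis Mb)))‖
    ≤ Real.exp (-((Mb : ℝ) - 1) * S.T7 i)
  farAxis : ∀ i, ‖(pickW (wAxis Mb)).comp ((Q i).comp (farP (wMono Mb) (wAxis Mb)))‖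
    ≤ Real.exp (-((Mb : ℝ) - 1) * S.T7 i)
  bound : ∀ i, ((wMono Mb).card + (wAxis Mb).card : ℝ) * ‖Q i‖ ≤ Real.exp (S.T7 i)
  farFar : ∀ i, ‖(farP (wMono Mb) (wAxis Mb)).comp ((Q i).comp (farP (wMono Mb) (wAxis Mb)))‖
    ≤ Real.exp (-((Mb : ℝ) - 1) * S.T7 i)

/-- A chain from its factors. -/
def chainOf (κ : ℕ → ℝ) (hκ : ∀ i, 0 < κ i) : ScalarChain where
  P j := ∏ l ∈ range j, κ l
  P_pos j := prod_pos fun l _ => hκ l

theorem chainOf_step (κ : ℕ → ℝ) (hκ : ∀ i, 0 < κ i) (i : ℕ) :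
    (chainOf κ hκ).P (i + 1) / (chainOf κ hκ).P i = κ i := by
  show (∏ l ∈ range (i + 1), κ l) / ∏ l ∈ range i, κ l = κ i
  rw [prod_range_succ, mul_comm, mul_div_assoc, div_self (prod_pos fun l _ => hκ l).ne', mul_one]

/-- The constant state. -/
def zeroSt : St := ⟨⟨(0, 0, 0), by simp [Tri]⟩, ⟨0, by simp [Blk.dim]⟩⟩

theorem zeroSt_mem (Mb : ℕ) : zeroSt ∈ wMono Mb :=
  mem_filter.2 ⟨mem_wAll.2 ⟨Nat.zero_le _, Nat.zero_le _⟩, iff_of_true rfl rfl⟩

theorem zeroSt_notMem (p : Fin 4) : zeroSt ∉ Count.sStates p := fun h =>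
  Nat.not_succ_le_zero 0 (Count.sBlk_spec (Count.mem_sStates.1 h)).1

/-- The states whose values parametrise the solutions. -/
def freeStates : Finset St := insert zeroSt (univ.biUnion Count.sStates)

theorem lt_card_freeStates : euclideanDim 7 14 < freeStates.card := by
  rw [freeStates, card_insert_of_notMem, card_biUnion, add_comm]
  · exact Count.sStates_count
  · intro p _ p' _ hne
    exact disjoint_left.2 fun i h h' =>
      hne (Count.sBlk_disjoint (Count.mem_sStates.1 h) (Count.mem_sStates.1 h'))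
  · simpa using zeroSt_notMem

/-- **Orbits of the loop maps.** One choice of `Mb` and `k' < 14` serves every error constant. -/
theorem exists_orbits : ∃ (Mb : ℕ) (k' G : ℝ), 10 ≤ Mb ∧ 0 ≤ k' ∧ k' < 14 ∧ 0 ≤ G ∧
    ∀ E : ℝ, 0 ≤ E → ∃ N : ℕ, ∀ (S : Sched) (Q : ℕ → HSp →L[ℝ] HSp),
      N ≤ S.j0 → S.LenNear E → LoopBlock S Mb E Q →
      ∃ sol : ({q : St // q ∈ freeStates} → ℝ) →ₗ[ℝ] ℕ → HSp,
        (∀ e i, sol e i = Q i (sol e (i + 1))) ∧ (∀ e, sol e 0 = 0 → e = 0) ∧
        ∀ e, ∃ C : ℝ, ∀ i, ‖sol e i‖ ≤ C * Real.exp (k' * S.start i + G * S.T7 i) := by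
  classical
  obtain ⟨Mb₀, hMb₀⟩ := exists_nat_ge (decayM0 (classPeriod + 1) 24 14 + 1)
  set Mb := max Mb₀ 10 with hMbdef
  obtain ⟨k', ε, hε, hε1, hk14, hk, havoid⟩ := exists_threshold ((wAll Mb).image alphaInf)
  have hk0 : 0 ≤ k' := by linarith
  have hM : decayM0 (classPeriod + 1) 24 k' ≤ (Mb : ℝ) - 1 := by
    have h1 : (Mb₀ : ℝ) ≤ Mb := by exact_mod_cast le_max_left _ _
    have h2 : decayM0 (classPeriod + 1) 24 k' ≤ decayM0 (classPeriod + 1) 24 14 := by
      simp only [decayM0, gainH]; linarith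
    linarith
  have hMb10 : 10 ≤ Mb := le_max_right _ _
  refine ⟨Mb, k', gainH (classPeriod + 1) 24 k', hMb10, hk0, hk14,
    gainH_nonneg (by norm_num) hk0, fun E hE => ⟨Sched.threshold k' ε E, fun S Q hj hlen hB => ?_⟩⟩
  have hsub : ∀ p, Count.sStates p ⊆ wMono Mb := sStates_subset_wMono hMb10
  set σ : ℕ → Equiv.Perm {q : St // q ∈ wMono Mb} := fun i => Count.sigOn hsub (i - 1) with hσ
  choose κ ρ hκρ hmono using hB.mono
  choose κ₂ Eax hκ₂ hEax haxis using hB.axis
  have hval : ∀ i q, (σ (i + 1) ((σ i).symm q) : St) = stepPerm i q.1 := fun i q => by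
    cases i with
    | zero =>
      show ((Count.sigOn hsub 0) ((Count.sigOn hsub 0).symm q) : St) = q.1
      rw [Equiv.apply_symm_apply]
    | succ i =>
      show (Count.sigOn hsub (i + 1) ((Count.sigOn hsub i).symm q) : St) = Count.tau i q.1
      rw [Count.sigOn_apply, Count.sig_succ, Equiv.Perm.mul_apply, ← Count.sigOn_apply hsub,
        Equiv.apply_symm_apply]
  let c₁ : {q : St // q ∈ wMono Mb} → ScalarChain := fun q =>
    chainOf (fun i => κ i (σ i q)) fun i => (hκρ i _).1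
  let c₂ : {q : St // q ∈ wAxis Mb} → ScalarChain := fun q =>
    chainOf (fun i => κ₂ i q) fun i => (hκ₂ i q).1
  let a₁ : {q : St // q ∈ wMono Mb} → ℕ → ℝ := fun q i => alphaInf (σ (i + 1) q).1
  let slow : {q : St // q ∈ wMono Mb} → Bool := fun q =>
    if (∃ p, q.1 ∈ Count.sStates p) ∨ alphaInf q.1 ≤ k' - ε then true else false
  have hsq : sInf ^ 2 ≤ 1000 / 122 := sInf_sq.le
  have hfix : ∀ q : {q : St // q ∈ wMono Mb}, (∀ p, q.1 ∉ Count.sStates p) →
      ∀ i, a₁ q i = alphaInf q.1 := fun q h i => by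
    show alphaInf (σ (i + 1) q).1 = _
    show alphaInf (Count.sigOn hsub i q).1 = _
    rw [Count.sigOn_apply, Count.sig_fix i h]
  have hfast : ∀ q, slow q = false → ∀ i, k' + ε ≤ a₁ q i := fun q hq i => by
    obtain ⟨h1, h2⟩ := not_or.1 fun h => Bool.false_ne_true (hq.symm.trans (if_pos h))
    rw [hfix q (fun p hp => h1 ⟨p, hp⟩) i]
    exact (havoid _ (mem_image_of_mem _ (mem_of_mem_filter _ q.2))).resolve_left h2
  have hslow : ∀ q, slow q = true → SlowPeriodic (a₁ q) (classPeriod + 1) 24 k' ε := fun q hq => by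
    by_cases hp : ∃ p, q.1 ∈ Count.sStates p
    · obtain ⟨p, hp⟩ := hp
      obtain ⟨l, hl, hlL, h1, h2, h3⟩ := slowPeriodic_class sInf_nonneg hsq hk hp
      set a : ℕ → ℝ := fun i =>
        Count.alphaJ sInf (Count.sig (i + 1) q.1).blk.la (Count.sig (i + 1) q.1).blk.lb with ha
      have e : a₁ q = fun i => a (i + (Count.period p - 1)) := funext fun i => by
        show alphaInf (Count.sigOn hsub i q).1 = _
        rw [Count.sigOn_apply, ← Count.sig_periodic hp i]
        simp only [alphaInf, ha, Nat.add_assoc, Nat.sub_add_cancel (Count.period_pos p)]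
      rw [e]
      refine ⟨l, hl, hlL.trans (Nat.le_succ _), fun i => ?_, fun i => h2 _, fun i => ?_⟩
      · show a (i + l + (Count.period p - 1)) = a (i + (Count.period p - 1))
        rw [Nat.add_right_comm, h1]
      · show ∑ m ∈ Ico i (i + l), a (m + (Count.period p - 1)) ≤ _
        rw [sum_Ico_add' a i (i + l) (Count.period p - 1), Nat.add_right_comm]
        exact h3 _
    · have hx : alphaInf q.1 ≤ k' - ε := (by_contra fun h => Bool.false_ne_true ((if_neg h).symm.trans hq) :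
        (∃ p, q.1 ∈ Count.sStates p) ∨ alphaInf q.1 ≤ k' - ε).resolve_left hp
      rw [show a₁ q = fun _ => alphaInf q.1 from
        funext (hfix q fun p h => hp ⟨p, h⟩)]
      exact slowPeriodic_const (Nat.le_add_left 1 _) (by linarith) hx
  obtain ⟨sol, hrec, hbd, hinit, -⟩ := exists_sequences_signed S (L := classPeriod + 1) (A := 24)
    hk0 hε hε1 (by norm_num) hE hj (hlen := hlen) (disjoint_wMono_wAxis Mb) σ ρ
    (fun i q => (hκρ i q).2.1) c₁ a₁ slow
    (fun q i => by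
      rw [chainOf_step]
      have h := (hκρ i (σ i q)).2.2
      have e := hval i (σ i q)
      rw [Equiv.symm_apply_apply] at e
      rw [← e] at h
      exact h)
    hslow hfast c₂ (fun q _ => alphaInf q.1)
    (fun q i => by rw [chainOf_step]; exact (hκ₂ i q).2)
    (fun q => by
      rcases havoid _ (mem_image_of_mem _ (mem_of_mem_filter _ q.2)) with h | h
      exacts [Or.inl fun _ => h, Or.inr fun _ => h])
    Eax hEax Q
    (fun i u v q => by
      rw [chainMap_apply, hmono i u v q ((hval i q) ▸ (σ (i + 1) ((σ i).symm q)).2)]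
      congr 1
      rw [ScalarChain.a, chainOf_step, Equiv.apply_symm_apply]
      congr 2
      exact Subtype.ext (hval i q).symm)
    (fun i u v => by
      rw [haxis i u v]
      congr 1
      funext q
      rw [chainMap_apply, ScalarChain.a, chainOf_step]
      rfl)
    hM hB.farMono hB.farAxis hB.bound hB.farFar
  let ext : ({q : St // q ∈ freeStates} → ℝ) →ₗ[ℝ]
      ({q : {q : St // q ∈ wMono Mb} // slow q = true} → ℝ) :=
    { toFun := fun e q => if h : q.1.1 ∈ freeStates then e ⟨q.1.1, h⟩ else 0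
      map_add' := fun e e' => by funext q; simp only [Pi.add_apply]; split_ifs <;> simp
      map_smul' := fun r e => by
        funext q; simp only [Pi.smul_apply, RingHom.id_apply, smul_eq_mul]; split_ifs <;> simp }
  have hmem : ∀ q : {q : St // q ∈ freeStates}, ∃ h : q.1 ∈ wMono Mb, slow ⟨q.1, h⟩ = true := by
    rintro ⟨q, hq⟩
    rcases mem_insert.1 hq with rfl | hq
    · refine ⟨zeroSt_mem Mb, if_pos (Or.inr ?_)⟩
      have h0 : alphaInf zeroSt = 0 := by
        simp [alphaInf, zeroSt, Count.alphaJ, Count.lev, St.blk, Blk.la, Blk.lb]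
        rw [show Real.sqrt 25 = 5 by rw [Real.sqrt_eq_iff_mul_self_eq] <;> norm_num]
        norm_num
      rw [h0]; linarith
    · obtain ⟨p, -, hp⟩ := mem_biUnion.1 hq
      exact ⟨hsub p hp, if_pos (Or.inl ⟨p, hp⟩)⟩
  refine ⟨sol.comp ext, fun e i => hrec _ i, fun e he => funext fun q => ?_, fun e => ?_⟩
  · obtain ⟨h, hs⟩ := hmem q
    have e1 := hinit (ext e) ⟨⟨q.1, h⟩, hs⟩
    rw [LinearMap.comp_apply] at he
    rw [he] at e1
    simpa [ext, dif_pos q.2] using e1.symm
  · exact ⟨2 * ((wMono Mb).card + (wAxis Mb).card + 1) * ‖ext e‖, fun i => hbd _ i⟩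

end

end Vale.Agent.P225
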