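import Vale.Agent.P225.Assembly.Harmonic
import Vale.Agent.P225.Assembly.Chain
import Vale.Agent.P225.Assembly.Orbits

/-!
P225 assembly (helper29): from one schedule with its loop data to `YauFailsAt 7 14`.
-/

namespace Vale.Agent.P225

open Finset Set Asm
open scoped ContDiff

noncomputable section

/-- Drift of the whole end. -/
def endDrift {κ : ℝ} (C : CapData κ) (S : Sched) (t : ℝ) : ℝ :=
  5 - deriv (endD C S) t / (2 * endD C S t)

/-- The analytic data of a schedule: global operator, pieces and their uniform bounds. -/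
structure EndSystem {κ : ℝ} (C : CapData κ) (S : Sched) (F : ModelFields Sph) (τ : Params)
    (s q : ℕ) where
  A : ℝ → St → St →₀ ℝ
  crossEq : CrossEq C S F τ A
  opBound : OpBound A q
  L : LoopData A (endDrift C S) s
  ok : L.OK
  start_eq : L.t = S.start
  K : ℝ
  one_le_K : 1 ≤ K
  len : ℕ
  len_le : ∀ i, L.len i ≤ len
  piece_le : ∀ i, ∀ m < L.len i, (L.S i m).K ≤ K
  back_le : ∀ i, ∀ m < L.len i,
    ‖(L.S i m).seg.backMap (slopes (segsOf (L.S i)) (L.R i) m)‖ ≤ K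
  slope_le : ∀ i, ∀ m < L.len i, ‖slopes (segsOf (L.S i)) (L.R i) m‖ ≤ K
  cap_le : ∀ x, ∃ B, ∀ j, ∀ t ≤ L.t 0, |L.cap x 0 j t| ≤ B * (j.blk.mu ^ 2 / j.blk.mu ^ s)
  core : ∀ x, L.Orbit x → ∃ f, ContDiffOn ℝ 2 f chart ∧ EqOn f (modeSum (L.coef x)) chartOff

variable {κ : ℝ} {C : CapData κ} {S : Sched} {F : ModelFields Sph} {τ : Params} {s q : ℕ}

/-- Exponential growth at most `14` of the coefficients. -/
theorem EndSystem.growthBound (Z : EndSystem C S F τ s q) {M : ℕ}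
    (hlen : ∀ j, (S.prog j).length ≤ M) (hpow : ∀ j, ∀ P ∈ S.prog j, P.power ≤ 7)
    (hhold : ∀ j, ∃ P ∈ S.prog j, P.power = 7) {k' G : ℝ} (hk' : 0 ≤ k') (hk : k' < 14)
    (hG : 0 ≤ G) {x : ℕ → HSp} (hx : Z.L.Orbit x) {C₁ : ℝ}
    (hb : ∀ i, ‖x i‖ ≤ C₁ * Real.exp (k' * S.start i + G * S.T7 i)) :
    GrowthBound (Z.L.coef x) s := by
  obtain ⟨C₂, hC₂⟩ := S.exp_bound hlen hpow hhold hk' hk hG
  have ht0 : 0 ≤ Z.L.t 0 := by
    rw [Z.start_eq]; exact zero_le_one.trans (S.one_le_t0.trans (S.t0_le_start 0))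
  obtain ⟨B₀, hB₀⟩ := Z.cap_le (x 0)
  set B₁ := 2 * Z.K ^ (Z.len + 2) * (|C₁| * |C₂|)
  have hK0 : 0 ≤ Z.K := zero_le_one.trans Z.one_le_K
  have hB₁ : 0 ≤ B₁ := by positivity
  refine ⟨max B₀ 0 + B₁, fun j t => ?_⟩
  have hw := weight_nonneg s j
  rcases le_total t (Z.L.t 0) with h | h
  · rw [Z.L.coef_eq, Z.ok.sol_cap hx h]
    refine (hB₀ j t h).trans (mul_le_mul_of_nonneg_right ?_ hw)
    have he : 1 ≤ Real.exp (14 * max t 0) :=
      Real.one_le_exp (mul_nonneg (by norm_num) (le_max_right _ _))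
    calc B₀ ≤ max B₀ 0 + B₁ := (le_max_left _ _).trans (le_add_of_nonneg_right hB₁)
      _ ≤ _ := le_mul_of_one_le_right (add_nonneg (le_max_right _ _) hB₁) he
  · have hg := Z.ok.growth hx Z.one_le_K Z.len_le Z.piece_le Z.back_le Z.slope_le
      (C := |C₁| * |C₂|) (k := 14) (fun i u hu => ?_) 0 j h
    · rw [Z.L.coef_eq]
      refine hg.trans (mul_le_mul_of_nonneg_right ?_ hw)
      rw [max_eq_left (ht0.trans h)]
      exact mul_le_mul_of_nonneg_right (le_add_of_nonneg_left (le_max_right _ _))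
        (Real.exp_pos _).le
    · rw [Z.start_eq] at hu
      refine (hb (i + 1)).trans ?_
      calc C₁ * Real.exp (k' * S.start (i + 1) + G * S.T7 (i + 1))
          ≤ |C₁| * Real.exp (k' * S.start (i + 1) + G * S.T7 (i + 1)) :=
            mul_le_mul_of_nonneg_right (le_abs_self _) (Real.exp_pos _).le
        _ ≤ |C₁| * (|C₂| * Real.exp (14 * u)) := by
            refine mul_le_mul_of_nonneg_left (le_trans ?_ (mul_le_mul_of_nonneg_right
              (le_abs_self C₂) (Real.exp_pos _).le)) (abs_nonneg _)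
            exact hC₂ i u hu
        _ = _ := by ring

/-- **The disproof from the data.** -/
theorem yauFailsAt_of_system (H : EndHyps C S F τ)
    (hM : IsCompleteNonnegRicci chart (globalMetric C S F τ)) {o : Pt 7} (ho : o ∈ chart) {C₀ : ℝ}
    (hd : ∀ x ∈ chart, Real.sqrt (rsq x) ≤ dist chart (globalMetric C S F τ) o x + C₀)
    (hs : 15 ≤ s) (hq : q + 11 ≤ s) (Z : EndSystem C S F τ s q) {M : ℕ}
    (hlen : ∀ j, (S.prog j).length ≤ M) (hpow : ∀ j, ∀ P ∈ S.prog j, P.power ≤ 7)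
    (hhold : ∀ j, ∃ P ∈ S.prog j, P.power = 7) {k' G : ℝ} (hk' : 0 ≤ k') (hk : k' < 14)
    (hG : 0 ≤ G) (sol : ({i : St // i ∈ freeStates} → ℝ) →ₗ[ℝ] ℕ → HSp)
    (horb : ∀ e, Z.L.Orbit (sol e)) (hinj : ∀ e, sol e 0 = 0 → e = 0)
    (hbd : ∀ e, ∃ C₁, ∀ i, ‖sol e i‖ ≤ C₁ * Real.exp (k' * S.start i + G * S.T7 i)) :
    YauFailsAt 7 14 := by
  let E : (Fin freeStates.card → ℝ) ≃ₗ[ℝ] ({i : St // i ∈ freeStates} → ℝ) :=
    (LinearEquiv.funCongrLeft ℝ ℝ freeStates.equivFin.symm).symm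
  refine yauFailsAt_of_modes H hM ho hd hs hq Z.crossEq Z.opBound lt_card_freeStates
    (Z.L.coef.comp (sol.comp E.toLinearMap)) ?_ fun e => ?_
  · refine (injective_iff_map_eq_zero _).2 fun e he => E.injective ?_
    rw [map_zero]
    refine hinj _ (Z.ok.eq_zero_of_coef (horb _) fun j => ?_)
    exact congrFun (congrFun he j) _
  · have hx := horb (E e)
    have hm := Z.ok.modeSol hx
    obtain ⟨C₁, hb⟩ := hbd (E e)
    refine ⟨Z.ok.contDiff hx, Z.ok.coeffBound hx, fun j t => ?_,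
      Z.growthBound hlen hpow hhold hk' hk hG hx hb, Z.core _ hx⟩
    obtain ⟨e1, e2⟩ := hm.deriv_eq j
    have he := hm.eqn j t (Set.mem_univ t)
    simp only [LinearMap.comp_apply, LinearEquiv.coe_coe, Z.L.coef_eq]
    rw [e2, e1]
    exact he

/-- Block form of the loop maps gives the disproof. -/
theorem exists_constants : ∃ (Mb : ℕ), 10 ≤ Mb ∧ ∀ E : ℝ, 0 ≤ E → ∃ N : ℕ,
    ∀ {κ : ℝ} (C : CapData κ) (S : Sched) (F : ModelFields Sph) (τ : Params) (s q : ℕ)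
      (o : Pt 7) (C₀ : ℝ) (M : ℕ) (Z : EndSystem C S F τ s q),
      EndHyps C S F τ → IsCompleteNonnegRicci chart (globalMetric C S F τ) → o ∈ chart →
      (∀ x ∈ chart, Real.sqrt (rsq x) ≤ dist chart (globalMetric C S F τ) o x + C₀) →
      15 ≤ s → q + 11 ≤ s → (∀ j, (S.prog j).length ≤ M) →
      (∀ j, ∀ P ∈ S.prog j, P.power ≤ 7) → (∀ j, ∃ P ∈ S.prog j, P.power = 7) →
      N ≤ S.j0 → S.LenNear E → LoopBlock S Mb E Z.L.back → YauFailsAt 7 14 := by
  obtain ⟨Mb, k', G, hMb, hk0, hk, hG, h⟩ := exists_orbits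
  refine ⟨Mb, hMb, fun E hE => ?_⟩
  obtain ⟨N, hN⟩ := h E hE
  refine ⟨N, fun C S F τ s q o C₀ M Z H hM ho hd hs hq hlen hpow hhold hj hnear hblk => ?_⟩
  obtain ⟨sol, h1, h2, h3⟩ := hN S Z.L.back hj hnear hblk
  exact yauFailsAt_of_system H hM ho hd hs hq Z hlen hpow hhold hk0 hk hG sol
    (fun e i => h1 e i) h2 h3

end

end Vale.Agent.P225
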