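import Vale.Agent.P225.Assembly.PieceOps
import Vale.Agent.P225.Loop.PieceIns

/-!
P225 assembly (helper23): the one family of operators of a scheduled end metric, its value on every
window, `CrossEq`, `OpBound`, and the drift.
-/

namespace Vale.Agent.P225

open scoped BigOperators
open Set Matrix
open Sphere (Y)

noncomputable section

variable {κ : ℝ} (C : CapData κ) (S : Sched) (F : ModelFields Sph) (τ : Params)

open scoped Classical in
/-- The operator of `endP` at time `t` in the basis `Y`. -/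
def opA (t : ℝ) (i : St) : St →₀ ℝ :=
  if h : ∃ a : St →₀ ℝ, ∀ z, Model.OnS z →
      crossLap (endP C S F τ t) (Y i) z = -a.sum fun j c => c * Y j z
  then h.choose else 0

variable {C S F τ}

/-- Any coefficient vector of the cross Laplacian is the operator. -/
theorem opA_eq {t : ℝ} {i : St} {a : St →₀ ℝ}
    (h : ∀ z, Model.OnS z → crossLap (endP C S F τ t) (Y i) z = -a.sum fun j c => c * Y j z) :
    opA C S F τ t i = a := by
  have he : ∃ a : St →₀ ℝ, ∀ z, Model.OnS z →
      crossLap (endP C S F τ t) (Y i) z = -a.sum fun j c => c * Y j z := ⟨a, h⟩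
  rw [opA, dif_pos he]
  exact finsupp_eq_of_onS fun z hz => neg_injective ((he.choose_spec z hz).symm.trans (h z hz))

theorem single_sum_Y (c : ℝ) (i : St) (z : Sph) :
    ((Finsupp.single i c).sum fun j r => r * Y j z) = c * Y i z :=
  Finsupp.sum_single_index (by simp)

namespace PieceOps

variable (O : PieceOps F)

/-- The operator of one piece. -/
def pieceOp (κ : ℝ) (P : Piece) (j : ℕ) (τ : ℕ → ℝ) (a t : ℝ) (i : St) : St →₀ ℝ :=
  match P with
  | .exc J g k => O.iso J g (wNorm (dFun κ t) ((Piece.exc J g k).raw j τ (t - a))) i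
  | .ins f k => Finsupp.single i (pieceLam κ (Piece.ins f k) j τ a i t)
      + insF₁ κ (τ k) ((Piece.ins f k).len j) a t • O.ins₁ f i
      + insF₂ κ (τ k) ((Piece.ins f k).len j) a t • O.ins₂ f i
  | .wait J q => Finsupp.single i (pieceLam κ (Piece.wait J q) j τ a i t)
  | .out J => Finsupp.single i (pieceLam κ (Piece.out J) j τ a i t)
  | .back J => Finsupp.single i (pieceLam κ (Piece.back J) j τ a i t)

theorem sqrt_smul_wNorm {d : ℝ} (hd : 0 < d) (w : Fin 3 → ℝ) :
    (fun k => Real.sqrt (1 / d) * wNorm 1 w k) = wNorm d w := by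
  funext k
  simp only [wNorm, one_mul]
  rw [show 1 / (d * wdet w) = 1 / d * (1 / wdet w) by rw [one_div, one_div, one_div, mul_inv],
    Real.sqrt_mul (one_div_pos.2 hd).le]
  ring

/-- The cross Laplacian of a scaled piece. -/
theorem crossLap_piece (κ : ℝ) (P : Piece) (j : ℕ) (τ : ℕ → ℝ) (a t : ℝ) (ha : 0 < a)
    (hins : a ≤ t ∨ ∀ f k, P ≠ Piece.ins f k) (i : St) {z : Sph} (hz : Model.OnS z) :
    crossLap (fun x => Real.sqrt (1 / dFun κ t) • P.pmat F j τ (t - a) x) (Y i) z
      = -(O.pieceOp κ P j τ a t i).sum fun l c => c * Y l z := by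
  have hd := dFun_pos κ t
  have plain : ∀ Q : Piece, (∀ x, Q.pmat F j τ (t - a) x = gram (wNorm 1 (Q.raw j τ (t - a)))) →
      crossLap (fun x => Real.sqrt (1 / dFun κ t) • Q.pmat F j τ (t - a) x) (Y i) z
        = -(Finsupp.single i (pieceLam κ Q j τ a i t)).sum fun l c => c * Y l z := by
    intro Q hQ
    simp only [hQ, ← gram_smul, sqrt_smul_wNorm hd]
    rw [Model.crossLap_gram, single_sum_Y, neg_mul]
    rfl
  cases P with
  | wait J q => exact plain _ fun _ => rfl
  | out J => exact plain _ fun _ => rfl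
  | back J => exact plain _ fun _ => rfl
  | exc J g k =>
      have e : ∀ x, Real.sqrt (1 / dFun κ t) • (Piece.exc J g k).pmat F j τ (t - a) x
          = F.iso J g x * gram (wNorm (dFun κ t) ((Piece.exc J g k).raw j τ (t - a)))
            * (F.iso J g x)ᵀ := fun x => by
        rw [← sqrt_smul_wNorm hd, gram_smul, Matrix.mul_smul, Matrix.smul_mul]
        rfl
      simp only [e]
      exact O.iso_eq J g _ i z hz
  | ins f k =>
      have hat : a ≤ t := hins.resolve_right fun h => h f k rfl
      set e := τ k * bump ((t - a) / (Piece.ins f k).len j) with he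
      have hG : ∀ x, (Piece.ins f k).pmat F j τ (t - a) x
          = (1 + e • F.nil f x)ᵀ * gram (rawExc 0) * (1 + e • F.nil f x) := fun x => by
        have r0 : rotW 0 (rawExc 0) = rawExc 0 := by funext l; simp [rotW]
        have w1 : wNorm 1 (rawExc 0) = rawExc 0 := by rw [← r0]; exact wNorm_junc 0
        simp only [Piece.pmat, Piece.raw, w1, he]
      simp only [hG]
      rw [crossLap_const_smul, O.ins_eq f e i z hz]
      have hl : pieceLam κ (Piece.ins f k) j τ a i t
          = Real.sqrt (1 / dFun κ t) * Blk.lam (rawExc 0) i.blk := by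
        show Blk.lam (wNorm (dFun κ t) (rawExc 0)) i.blk = _
        rw [lam_wNorm, show wdet (rawExc 0) = 1 by simp [wdet, rawExc], mul_one]
      have hF : insF₁ κ (τ k) ((Piece.ins f k).len j) a t = Real.sqrt (1 / dFun κ t) * e ∧
          insF₂ κ (τ k) ((Piece.ins f k).len j) a t = Real.sqrt (1 / dFun κ t) * e ^ 2 := by
        simp only [insF₁, insF₂, insAmp, scaleFun, (clampT_of_ge ha hat).1, ← he, and_self]
      rw [mul_neg, ← smul_sum_Y, smul_add, smul_add, Finsupp.smul_single, smul_eq_mul, smul_smul,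
        smul_smul, pieceOp, hl, hF.1, hF.2]

variable (H : EndHyps C S F τ)
include H

omit O in
theorem t0_le_pieceStart (i m : ℕ) : S.t0 ≤ S.pieceStart i m := by
  have := H.late
  calc S.t0 ≤ S.start i := S.t0_le_start i
    _ = S.pieceStart i 0 := (S.pieceStart_zero i).symm
    _ ≤ S.pieceStart i m := S.pieceStart_mono i (Nat.zero_le m)

/-- **The family on the window of a piece.** -/
theorem opA_window {i m : ℕ} (hm : m < (S.prog (S.j0 + i)).length) {t : ℝ}
    (ht : t ∈ Icc (S.pieceStart i m) (S.pieceStart i (m + 1))) (l : St) :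
    opA C S F τ t l
      = O.pieceOp κ ((S.prog (S.j0 + i))[m]) (S.j0 + i) (τ i) (S.pieceStart i m) t l := by
  have h0 := t0_le_pieceStart H i m
  have hl := H.late
  have hT := C.T_pos
  refine opA_eq fun z hz => ?_
  rw [show endP C S F τ t = fun x => Real.sqrt (1 / dFun κ t) •
      ((S.prog (S.j0 + i))[m]).pmat F (S.j0 + i) (τ i) (t - S.pieceStart i m) x from
    funext fun x => by
      rw [endP_end H.ne hl (by linarith [ht.1]),
        S.pEnd_window τ H.ne H.chained hm (by linarith [ht.1]) (by linarith [ht.2])]]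
  exact O.crossLap_piece κ _ _ _ _ t (by linarith [S.one_le_t0]) (Or.inl ht.1) l hz

omit O in
/-- The family on the cap. -/
theorem opA_cap {t : ℝ} (ht : t ≤ S.t0) (l : St) :
    opA C S F τ t l = Finsupp.single l (Blk.lam (C.W t) l.blk) := by
  refine opA_eq fun z _ => ?_
  rw [show endP C S F τ t = fun _ => gram (C.W t) from
    funext fun x => endP_cap H.ne H.late (by linarith) x, Model.crossLap_gram, single_sum_Y, neg_mul]

include O in
/-- `CrossEq` for the family. -/
theorem crossEq : CrossEq C S F τ (opA C S F τ) := by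
  intro t l x hx
  obtain ⟨z, hz⟩ := exists_crd2_sph hx
  rw [← hz]
  have key : ∃ a : St →₀ ℝ, ∀ z, Model.OnS z →
      crossLap (endP C S F τ t) (Y l) z = -a.sum fun j c => c * Y j z := by
    rcases le_total t S.t0 with ht | ht
    · refine ⟨Finsupp.single l (Blk.lam (C.W t) l.blk), fun w _ => ?_⟩
      rw [show endP C S F τ t = fun _ => gram (C.W t) from
        funext fun y => endP_cap H.ne H.late (by linarith) y, Model.crossLap_gram, single_sum_Y,
        neg_mul]
    · obtain ⟨i, m, hm, h1, h2⟩ := S.exists_window H.ne ht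
      refine ⟨O.pieceOp κ ((S.prog (S.j0 + i))[m]) (S.j0 + i) (τ i) (S.pieceStart i m) t l,
        fun w hw => ?_⟩
      have h0 := t0_le_pieceStart H i m
      have hl := H.late
      have hT := C.T_pos
      rw [show endP C S F τ t = fun y => Real.sqrt (1 / dFun κ t) •
          ((S.prog (S.j0 + i))[m]).pmat F (S.j0 + i) (τ i) (t - S.pieceStart i m) y from
        funext fun y => by
          rw [endP_end H.ne hl (by linarith),
            S.pEnd_window τ H.ne H.chained hm (by linarith) (by linarith)]]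
      exact O.crossLap_piece κ _ _ _ _ t (by linarith [S.one_le_t0]) (Or.inl h1) l hw
  obtain ⟨a, ha⟩ := key
  rw [opA_eq ha, ha _ (Model.onS_crd2 z)]

omit H

theorem le_sum_abs (w : Fin 3 → ℝ) : 0 ≤ |w 0| + |w 1| + |w 2| := by positivity

/-- Bound of one piece at one time. -/
theorem pieceOp_bd (κ : ℝ) (P : Piece) (j : ℕ) (τ : ℕ → ℝ) :
    ∃ K : ℝ, 0 ≤ K ∧ ∀ (a t : ℝ) (i : St), ((O.pieceOp κ P j τ a t i).sum
      fun l c => |c| * l.blk.mu ^ 4) ≤ K * (|wNorm (dFun κ t) (P.raw j τ (t - a)) 0|
        + |wNorm (dFun κ t) (P.raw j τ (t - a)) 1| + |wNorm (dFun κ t) (P.raw j τ (t - a)) 2|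
        + |scaleFun κ (clampT a t)|) * i.blk.mu ^ max O.q 6 := by
  have hmu : ∀ i : St, 1 ≤ i.blk.mu := fun i => Blk.one_le_mu _
  have hsingle : ∀ (Q : Piece) (a t : ℝ) (i : St),
      ((Finsupp.single i (pieceLam κ Q j τ a i t)).sum fun l c => |c| * l.blk.mu ^ 4) ≤
        (|wNorm (dFun κ t) (Q.raw j τ (t - a)) 0| + |wNorm (dFun κ t) (Q.raw j τ (t - a)) 1|
          + |wNorm (dFun κ t) (Q.raw j τ (t - a)) 2|) * i.blk.mu ^ max O.q 6 := by
    intro Q a t i
    rw [sum_abs_single]
    refine (mul_le_mul_of_nonneg_right (abs_lam_le _ i.blk)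
      (pow_nonneg (zero_le_one.trans (hmu i)) 4)).trans ?_
    rw [mul_assoc, ← pow_add]
    exact mul_le_mul_of_nonneg_left (pow_le_pow_right₀ (hmu i) (le_max_right _ _)) (le_sum_abs _)
  have hplain : ∀ Q : Piece, (∀ a t i, O.pieceOp κ Q j τ a t i
      = Finsupp.single i (pieceLam κ Q j τ a i t)) →
      ∃ K : ℝ, 0 ≤ K ∧ ∀ (a t : ℝ) (i : St), ((O.pieceOp κ Q j τ a t i).sum
        fun l c => |c| * l.blk.mu ^ 4) ≤ K * (|wNorm (dFun κ t) (Q.raw j τ (t - a)) 0|
          + |wNorm (dFun κ t) (Q.raw j τ (t - a)) 1| + |wNorm (dFun κ t) (Q.raw j τ (t - a)) 2|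
          + |scaleFun κ (clampT a t)|) * i.blk.mu ^ max O.q 6 := fun Q hQ =>
    ⟨1, zero_le_one, fun a t i => by
      have := zero_le_one.trans (hmu i)
      rw [hQ, one_mul]
      exact (hsingle Q a t i).trans (mul_le_mul_of_nonneg_right
        (le_add_of_nonneg_right (abs_nonneg _)) (pow_nonneg this _))⟩
  cases P with
  | wait J q => exact hplain _ fun _ _ _ => rfl
  | out J => exact hplain _ fun _ _ _ => rfl
  | back J => exact hplain _ fun _ _ _ => rfl
  | exc J g k =>
      obtain ⟨K, hK⟩ := O.iso_bd J g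
      refine ⟨max K 0, le_max_right _ _, fun a t i => ?_⟩
      have := zero_le_one.trans (hmu i)
      refine (hK _ i).trans ?_
      gcongr ?_ * ?_ * ?_
      · exact le_max_left _ _
      · exact le_add_of_nonneg_right (abs_nonneg _)
      · exact pow_le_pow_right₀ (hmu i) (le_max_left _ _)
  | ins f k =>
      classical
      obtain ⟨K, hK⟩ := O.ins_bd f
      set K₀ := max K 0
      refine ⟨1 + (|τ k| + |τ k| ^ 2) * K₀, by positivity, fun a t i => ?_⟩
      have hi := zero_le_one.trans (hmu i)
      set W := |wNorm (dFun κ t) ((Piece.ins f k).raw j τ (t - a)) 0|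
        + |wNorm (dFun κ t) ((Piece.ins f k).raw j τ (t - a)) 1|
        + |wNorm (dFun κ t) ((Piece.ins f k).raw j τ (t - a)) 2|
      set sc := |scaleFun κ (clampT a t)|
      set e := insAmp (τ k) ((Piece.ins f k).len j) a t
      have he : |e| ≤ |τ k| := by
        rw [show e = τ k * bump ((t - a) / (Piece.ins f k).len j) from rfl, abs_mul]
        exact mul_le_of_le_one_right (abs_nonneg _) (abs_bump_le _)
      have hq : i.blk.mu ^ O.q ≤ i.blk.mu ^ max O.q 6 := pow_le_pow_right₀ (hmu i) (le_max_left _ _)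
      have hpart : ∀ (r M : ℝ) (v : St →₀ ℝ), |r| ≤ sc * M →
          (v.sum fun l c => |c| * l.blk.mu ^ 4) ≤ K * i.blk.mu ^ O.q →
          ((r • v).sum fun l c => |c| * l.blk.mu ^ 4) ≤ sc * M * (K₀ * i.blk.mu ^ max O.q 6) := by
        intro r M v hr hv
        rw [Finsupp.sum_smul_index fun l => by simp]
        simp only [abs_mul, mul_assoc |r|]
        rw [← Finsupp.mul_sum]
        refine mul_le_mul hr (hv.trans ((mul_le_mul_of_nonneg_right (le_max_left _ _)
          (pow_nonneg hi _)).trans (mul_le_mul_of_nonneg_left hq (le_max_right _ _)))) ?_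
          ((abs_nonneg r).trans hr)
        exact Finset.sum_nonneg fun l _ => mul_nonneg (abs_nonneg _)
          (pow_nonneg (zero_le_one.trans (Blk.one_le_mu _)) _)
      have hadd : ∀ u v : St →₀ ℝ, ((u + v).sum fun l c => |c| * l.blk.mu ^ 4)
          ≤ (u.sum fun l c => |c| * l.blk.mu ^ 4) + v.sum fun l c => |c| * l.blk.mu ^ 4 := by
        intro u v
        rw [Finsupp.sum_of_support_subset _ Finsupp.support_add _ fun l _ => by simp,
          Finsupp.sum_of_support_subset u Finset.subset_union_left _ fun l _ => by simp,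
          Finsupp.sum_of_support_subset v (Finset.subset_union_right (s₁ := u.support)) _
            fun l _ => by simp,
          ← Finset.sum_add_distrib]
        refine Finset.sum_le_sum fun l _ => ?_
        rw [← add_mul, Finsupp.add_apply]
        exact mul_le_mul_of_nonneg_right (abs_add_le _ _)
          (pow_nonneg (zero_le_one.trans (Blk.one_le_mu _)) _)
      have h1 : |insF₁ κ (τ k) ((Piece.ins f k).len j) a t| ≤ sc * |τ k| := by
        rw [insF₁, abs_mul]
        exact mul_le_mul_of_nonneg_left he (abs_nonneg _)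
      have h2 : |insF₂ κ (τ k) ((Piece.ins f k).len j) a t| ≤ sc * |τ k| ^ 2 := by
        rw [insF₂, abs_mul, abs_pow]
        exact mul_le_mul_of_nonneg_left (pow_le_pow_left₀ (abs_nonneg _) he 2) (abs_nonneg _)
      refine (hadd _ _).trans ((add_le_add ((hadd _ _).trans (add_le_add (hsingle _ a t i)
        (hpart _ _ _ h1 (hK i).1))) (hpart _ _ _ h2 (hK i).2)).trans ?_)
      have hW : 0 ≤ W := le_sum_abs _
      have hsc : 0 ≤ sc := abs_nonneg _
      have hm : 0 ≤ i.blk.mu ^ max O.q 6 := pow_nonneg hi _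
      have : 0 ≤ (|τ k| + |τ k| ^ 2) * K₀ := by positivity
      nlinarith [mul_nonneg (mul_nonneg this hW) hm, mul_nonneg hsc hm]

include H

/-- `OpBound` for the family. -/
theorem opBound : OpBound (opA C S F τ) (max O.q 6) := by
  intro T₀ T₁
  classical
  have hl := H.late
  have hT := C.T_pos
  have ht1 := S.one_le_t0
  obtain ⟨B₀, hB₀⟩ := (isCompact_Icc (a := T₀) (b := T₁)).exists_bound_of_continuousOn
    (f := fun t => |C.W t 0| + |C.W t 1| + |C.W t 2|)
    ((((C.smooth_W 0).continuous.abs).add ((C.smooth_W 1).continuous.abs)).add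
      ((C.smooth_W 2).continuous.abs)).continuousOn
  have hwin : ∀ i m, ∃ B : ℝ, 0 ≤ B ∧ ∀ hm : m < (S.prog (S.j0 + i)).length,
      ∀ t ∈ Icc (S.pieceStart i m) (S.pieceStart i (m + 1)), ∀ l : St,
        ((opA C S F τ t l).sum fun j c => |c| * j.blk.mu ^ 4) ≤ B * l.blk.mu ^ max O.q 6 := by
    intro i m
    by_cases hm : m < (S.prog (S.j0 + i)).length
    swap
    · exact ⟨0, le_rfl, fun h => absurd h hm⟩
    set P := (S.prog (S.j0 + i))[m]
    set a := S.pieceStart i m
    have ha : 0 < a := by linarith [t0_le_pieceStart H i m]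
    obtain ⟨K, hK0, hK⟩ := O.pieceOp_bd κ P (S.j0 + i) (τ i)
    have hd : ContinuousOn (fun t => dFun κ t) (Icc a (S.pieceStart i (m + 1))) :=
      (Sched.contDiffOn_dFun κ).continuousOn.mono fun t ht => ha.trans_le ht.1
    have hw : ∀ k, ContinuousOn (fun t => wNorm (dFun κ t) (P.raw (S.j0 + i) (τ i) (t - a)) k)
        (Icc a (S.pieceStart i (m + 1))) := by
      intro k
      have hr : ∀ k, Continuous fun t => P.raw (S.j0 + i) (τ i) (t - a) k := fun k =>
        (contDiff_raw P _ _ k).continuous.comp (continuous_id.sub continuous_const)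
      have hdet : Continuous fun t => wdet (P.raw (S.j0 + i) (τ i) (t - a)) :=
        (((hr 0).mul (hr 1)).add ((hr 0).mul (hr 2))).add ((hr 1).mul (hr 2))
      unfold wNorm
      exact (hr k).continuousOn.mul (continuousOn_const.div (hd.mul hdet.continuousOn) fun t _ =>
        mul_ne_zero (dFun_pos κ t).ne' (P.raw_ok _ _ (H.small i m hm) _).det.ne').sqrt
    have hs : ContinuousOn (fun t => scaleFun κ (clampT a t)) (Icc a (S.pieceStart i (m + 1))) :=
      ((continuousOn_const.div hd fun t _ => (dFun_pos κ t).ne').sqrt).congr fun t ht => by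
        rw [(clampT_of_ge ha ht.1).1]
        rfl
    obtain ⟨B, hB⟩ := isCompact_Icc.exists_bound_of_continuousOn
      ((((hw 0).abs.add (hw 1).abs).add (hw 2).abs).add hs.abs)
    refine ⟨K * max B 0, by positivity, fun _ t ht l => ?_⟩
    rw [O.opA_window H hm ht l]
    refine (hK a t l).trans ?_
    have := pow_nonneg (zero_le_one.trans (Blk.one_le_mu l.blk)) (max O.q 6)
    gcongr
    exact ((le_abs_self _).trans (hB t ht)).trans (le_max_left _ _)
  choose Bw hBw0 hBw using hwin
  set idx := (Finset.range (⌈T₁⌉₊ + 1)).sigma fun i => Finset.range (S.prog (S.j0 + i)).length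
  refine ⟨max B₀ 0 + ∑ p ∈ idx, Bw p.1 p.2, fun t ht l => ?_⟩
  have hi := Blk.one_le_mu l.blk
  have hpow := pow_nonneg (zero_le_one.trans hi) (max O.q 6)
  rcases le_total t S.t0 with h | h
  · rw [opA_cap H h, sum_abs_single]
    refine (mul_le_mul_of_nonneg_right (abs_lam_le _ l.blk)
      (pow_nonneg (zero_le_one.trans hi) 4)).trans ?_
    rw [mul_assoc, ← pow_add]
    refine mul_le_mul ((((le_abs_self _).trans (hB₀ t ht)).trans (le_max_left _ _)).trans
      (le_add_of_nonneg_right (Finset.sum_nonneg fun p _ => hBw0 _ _)))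
      (pow_le_pow_right₀ hi (le_max_right _ _)) (by positivity) ?_
    exact add_nonneg (le_max_right _ _) (Finset.sum_nonneg fun p _ => hBw0 _ _)
  · obtain ⟨i, m, hm, h1, h2⟩ := S.exists_window H.ne h
    refine (hBw i m hm t ⟨h1, h2.le⟩ l).trans (mul_le_mul_of_nonneg_right ?_ hpow)
    have hmem : (⟨i, m⟩ : Σ _ : ℕ, ℕ) ∈ idx := by
      refine Finset.mem_sigma.2 ⟨Finset.mem_range.2 (Nat.lt_succ_of_le ?_), Finset.mem_range.2 hm⟩
      have hi1 : (i : ℝ) ≤ T₁ := by
        calc (i : ℝ) ≤ S.start i := S.natCast_le_start H.ne i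
          _ = S.pieceStart i 0 := (S.pieceStart_zero i).symm
          _ ≤ S.pieceStart i m := S.pieceStart_mono i (Nat.zero_le m)
          _ ≤ T₁ := h1.trans ht.2
      exact_mod_cast hi1.trans (Nat.le_ceil T₁)
    exact (Finset.single_le_sum (f := fun p : Σ _ : ℕ, ℕ => Bw p.1 p.2)
      (fun p _ => hBw0 _ _) hmem).trans (le_add_of_nonneg_left (le_max_right _ _))

end PieceOps

namespace EndHyps

variable (H : EndHyps C S F τ)
include H

/-- The drift from `2T` on. -/
theorem drift_end {t : ℝ} (ht : 2 * C.T ≤ t) :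
    5 - deriv (endD C S) t / (2 * endD C S t) = cDrift κ t := by
  have hT := C.T_pos
  obtain ⟨D', hD, he⟩ := hasDerivAt_detFun κ (show 0 < t by linarith)
  have heq : ∀ s ∈ Ici t, endD C S s = (1 / dFun κ s) ^ 3 := fun s hs => by
    rw [endD]
    split_ifs
    · rw [wdet_cap C (ht.trans hs)]
    · rfl
  have h1 := ((H.differentiable_endD t).hasDerivAt.hasDerivWithinAt (s := Ici t))
  have h2 := (hD.hasDerivWithinAt (s := Ici t)).congr heq (heq t self_mem_Ici)
  rw [(uniqueDiffWithinAt_Ici t).eq_deriv _ h1 h2, heq t self_mem_Ici, he]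
  rfl

/-- The drift on the cap. -/
theorem drift_cap {t : ℝ} (ht : t ≤ S.t0) :
    5 - deriv (endD C S) t / (2 * endD C S t)
      = 5 - 3 / 2 * (deriv (fun s => wdet (C.W s)) t / wdet (C.W t)) := by
  have hW : DifferentiableAt ℝ (fun s => wdet (C.W s)) t := by
    have h : ∀ i, DifferentiableAt ℝ (fun s => C.W s i) t := fun i =>
      ((C.smooth_W i).differentiable (by simp)) t
    exact (((h 0).fun_mul (h 1)).fun_add ((h 0).fun_mul (h 2))).fun_add ((h 1).fun_mul (h 2))
  have heq : ∀ s ∈ Iic t, endD C S s = wdet (C.W s) ^ 3 := fun s hs => by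
    rw [endD, if_pos (le_trans hs ht)]
  have h1 := ((H.differentiable_endD t).hasDerivAt.hasDerivWithinAt (s := Iic t))
  have h2 := ((hW.hasDerivAt.fun_pow 3).hasDerivWithinAt (s := Iic t)).congr heq
    (heq t self_mem_Iic)
  rw [(uniqueDiffWithinAt_Iic t).eq_deriv _ h1 h2, heq t self_mem_Iic]
  have := (C.pos t).det.ne'
  field_simp
  push_cast
  ring

end EndHyps

end

end Vale.Agent.P225
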