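import Vale.Agent.P225.Assembly.Chain
import Vale.Agent.P225.Seg.Diag
import Vale.Agent.P225.Loop.Pieces
import Vale.Agent.P225.Sphere.Op

/-!
P225 assembly (helper15): solution families of diagonal pieces and of diagonal pieces seen through
a pair of inverse pull-backs.

A segment of a slope family carries a `PieceSol` when the operator family is the diagonal one on
the window; the same segment conjugated by the weighted operators of pull-backs carries one when
the operator family is the conjugate.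
-/

namespace Vale.Agent.P225.Asm

open Set
open Sphere (levSet mem_levSet)
open Sphere.Pullback (wOp)

noncomputable section

variable {A : ℝ → St → (St →₀ ℝ)} {drift : ℝ → ℝ} {s : ℕ}
variable {a b k δ : ℝ} {c : ℝ → ℝ} {z : St → ℝ → ℝ} {ρ : St → ℝ}

/-! ### Diagonal pieces -/

theorem devSol_eq_mul (c z : ℝ → ℝ) (a W t : ℝ) :
    Ode.devSol c z a W t = W * Ode.devSol c z a 1 t := by
  simp [Ode.devSol]

theorem uSol_eq_add (c z : ℝ → ℝ) (a b U W t : ℝ) :
    Ode.uSol c z a b U W t = U * Ode.uSol c z a b 1 0 t + W * Ode.uSol c z a b 0 1 t := by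
  have e : (fun s => Real.exp (-Ode.prim z b s) * Ode.devSol c z a W s)
      = fun s => W * (Real.exp (-Ode.prim z b s) * Ode.devSol c z a 1 s) := by
    funext s
    rw [devSol_eq_mul c z a W s]
    ring
  have e0 : (fun s => Real.exp (-Ode.prim z b s) * Ode.devSol c z a 0 s) = fun _ => 0 := by
    funext s
    simp [Ode.devSol]
  simp only [Ode.uSol, e, e0, intervalIntegral.integral_const_mul, intervalIntegral.integral_zero]
  ring

/-- Value of the solution with two-point data `(U, W)`, split at an intermediate time. -/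
theorem uSol_split {c z : ℝ → ℝ} (hc : Continuous c) (hz : Continuous z) (a b U W t : ℝ) :
    Ode.uSol c z a b U W t
      = Ode.coefQ z t b * U + Ode.coefB c z t b * Ode.devSol c z a W t := by
  have hcz : Continuous fun r => c r + z r := hc.add hz
  have hs : ∀ s, Ode.devSol c z a W s = Ode.devSol c z t (Ode.devSol c z a W t) s := by
    intro s
    have e : Ode.prim (fun r => c r + z r) a s
        = Ode.prim (fun r => c r + z r) a t + Ode.prim (fun r => c r + z r) t s :=
      (intervalIntegral.integral_add_adjacent_intervals (hcz.intervalIntegrable _ _)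
        (hcz.intervalIntegrable _ _)).symm
    simp only [Ode.devSol, e, neg_add, Real.exp_add, mul_assoc]
  have e1 : Ode.uSol c z a b U W t = Ode.uSol c z t b U (Ode.devSol c z a W t) t := by
    simp only [Ode.uSol]
    rw [funext fun s => congrArg (Real.exp (-Ode.prim z b s) * ·) (hs s)]
  rw [e1, Ode.uSol_left hz]

/-- What a diagonal piece is asked: the Riccati equation, continuity and bounds. -/
structure DiagHyp (a b : ℝ) (c : ℝ → ℝ) (z : St → ℝ → ℝ) (drift : ℝ → ℝ) (l : St → ℝ → ℝ)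
    (Z Λ Kc : ℝ) : Prop where
  ode : ∀ i, ∀ t ∈ Icc a b, ∃ z', HasDerivAt (z i) z' t ∧ z' + z i t ^ 2 + c t * z i t = l i t
  cont_l : ∀ i, ContinuousOn (l i) (Icc a b)
  drift_eq : ∀ t ∈ Icc a b, drift t = c t
  Z_nonneg : 0 ≤ Z
  Λ_nonneg : 0 ≤ Λ
  Kc_nonneg : 0 ≤ Kc
  z_le : ∀ i : St, ∀ t ∈ Icc a b, |z i t| ≤ Z * i.blk.mu
  l_le : ∀ i : St, ∀ t ∈ Icc a b, |l i t| ≤ Λ * i.blk.mu ^ 2
  c_le : ∀ t ∈ Icc a b, |c t| ≤ Kc

/-- Constant of a diagonal piece. -/
def diagK (k Z Λ Kc : ℝ) : ℝ := (1 + 1 / k) * (1 + Z + Λ + Kc * (Z + 1))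

theorem diagK_nonneg {k Z Λ Kc : ℝ} (hk : 0 < k) (hZ : 0 ≤ Z) (hΛ : 0 ≤ Λ) (hKc : 0 ≤ Kc) :
    0 ≤ diagK k Z Λ Kc := by
  unfold diagK
  positivity

/-- Solution family of a slope family, in weighted coordinates. -/
def diagFam (h : SlopeFam a b c z ρ k δ) (s : ℕ) (l : St → ℝ → ℝ) : HSp × HSp →ₗ[ℝ] Fam where
  toFun p := fun q i t => ![h.value p.1 p.2 i t, h.deriv' p.1 p.2 i t,
    l i t * h.value p.1 p.2 i t - c t * h.deriv' p.1 p.2 i t] q / i.blk.mu ^ s
  map_add' p p' := by
    funext q i t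
    have hv : h.value (p.1 + p'.1) (p.2 + p'.2) i t = h.value p.1 p.2 i t + h.value p'.1 p'.2 i t := by
      simp only [SlopeFam.value, lp.coeFn_add, Pi.add_apply]
      rw [uSol_eq_add, uSol_eq_add c (z i) a b (p.1 i), uSol_eq_add c (z i) a b (p'.1 i)]
      ring
    have hd : h.deriv' (p.1 + p'.1) (p.2 + p'.2) i t
        = h.deriv' p.1 p.2 i t + h.deriv' p'.1 p'.2 i t := by
      simp only [SlopeFam.deriv', hv]
      rw [devSol_eq_mul, devSol_eq_mul c (z i) a (i.blk.mu * p.2 i),
        devSol_eq_mul c (z i) a (i.blk.mu * p'.2 i)]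
      simp only [lp.coeFn_add, Pi.add_apply]
      ring
    fin_cases q <;> simp [hv, hd] <;> ring
  map_smul' r p := by
    funext q i t
    have hv : h.value (r • p.1) (r • p.2) i t = r * h.value p.1 p.2 i t := by
      simp only [SlopeFam.value, lp.coeFn_smul, Pi.smul_apply, smul_eq_mul]
      rw [uSol_eq_add, uSol_eq_add c (z i) a b (p.1 i)]
      ring
    have hd : h.deriv' (r • p.1) (r • p.2) i t = r * h.deriv' p.1 p.2 i t := by
      simp only [SlopeFam.deriv', hv]
      rw [devSol_eq_mul, devSol_eq_mul c (z i) a (i.blk.mu * p.2 i)]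
      simp only [lp.coeFn_smul, Pi.smul_apply, smul_eq_mul]
      ring
    fin_cases q <;> simp [hv, hd] <;> ring

variable (h : SlopeFam a b c z ρ k δ) {l : St → ℝ → ℝ} {Z Λ Kc : ℝ}

theorem diagFam_zero (p : HSp × HSp) (i : St) (t : ℝ) :
    diagFam h s l p 0 i t = h.value p.1 p.2 i t / i.blk.mu ^ s := rfl

theorem diagFam_one (p : HSp × HSp) (i : St) (t : ℝ) :
    diagFam h s l p 1 i t = h.deriv' p.1 p.2 i t / i.blk.mu ^ s := rfl

theorem diagFam_two (p : HSp × HSp) (i : St) (t : ℝ) :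
    diagFam h s l p 2 i t
      = (l i t * h.value p.1 p.2 i t - c t * h.deriv' p.1 p.2 i t) / i.blk.mu ^ s := rfl

/-- Derivatives of the family and continuity of the second one. -/
theorem diagFam_deriv (H : DiagHyp a b c z drift l Z Λ Kc) (p : HSp × HSp) (i : St) :
    (∀ t ∈ Icc a b, HasDerivWithinAt (diagFam h s l p 0 i) (diagFam h s l p 1 i t) (Icc a b) t) ∧
    (∀ t ∈ Icc a b, HasDerivWithinAt (diagFam h s l p 1 i) (diagFam h s l p 2 i t) (Icc a b) t) ∧
    ContinuousOn (diagFam h s l p 2 i) (Icc a b) := by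
  refine ⟨fun t _ => ((h.hasDerivAt_value p.1 p.2 i t).div_const _).hasDerivWithinAt,
    fun t ht => ((h.hasDerivAt_deriv' p.1 p.2 i (H.ode i t ht)).div_const _).hasDerivWithinAt, ?_⟩
  have hv : ContinuousOn (h.value p.1 p.2 i) (Icc a b) := fun t _ =>
    (h.hasDerivAt_value p.1 p.2 i t).continuousAt.continuousWithinAt
  have hd : ContinuousOn (h.deriv' p.1 p.2 i) (Icc a b) := fun t ht =>
    (h.hasDerivAt_deriv' p.1 p.2 i (H.ode i t ht)).continuousAt.continuousWithinAt
  exact (((H.cont_l i).mul hv).sub (h.cont_c.continuousOn.mul hd)).div_const _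

/-- Right hand side of the mode equation of a diagonal family. -/
theorem diagFam_eqn (H : DiagHyp a b c z drift l Z Λ Kc) (p : HSp × HSp) (i : St) {t : ℝ}
    (ht : t ∈ Icc a b) :
    diagFam h s l p 2 i t + drift t * diagFam h s l p 1 i t = l i t * diagFam h s l p 0 i t := by
  rw [diagFam_zero, diagFam_one, diagFam_two, H.drift_eq t ht]
  ring

/-- The two-point data of a diagonal family. -/
theorem diagFam_ends {ul wl ur wr : HSp} (hs : h.coef.seg.Sol ul wl ur wr) :
    EndData s (diagFam h s l (ur, wl)) a (fun i => z i a) ul wl ∧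
      EndData s (diagFam h s l (ur, wl)) b ρ ur wr := by
  have key := fun i => h.sol_value hs i
  refine ⟨⟨fun i => ?_, fun i => ?_⟩, ⟨fun i => ?_, fun i => ?_⟩⟩
  · rw [diagFam_zero, (key i).1]
  · rw [diagFam_one, ← (key i).2.2.1]; ring
  · rw [diagFam_zero, (key i).2.1]
  · rw [diagFam_one, ← (key i).2.2.2]; ring

/-- State by state bound of a diagonal family. -/
theorem diagFam_le (H : DiagHyp a b c z drift l Z Λ Kc) (p : HSp × HSp) (q : Fin 3) (i : St)
    {t : ℝ} (ht : t ∈ Icc a b) :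
    |diagFam h s l p q i t|
      ≤ diagK k Z Λ Kc * (|p.1 i| + |p.2 i|) * (i.blk.mu ^ 2 / i.blk.mu ^ s) := by
  have hμ1 := Blk.one_le_mu i.blk
  have hμ : 0 < i.blk.mu := zero_lt_one.trans_le hμ1
  have hk : 0 ≤ 1 / k := (div_pos one_pos h.k_pos).le
  have hz := h.cont_z i
  have hQ : |Ode.coefQ (z i) t b| ≤ 1 := by
    rw [abs_of_pos (Ode.coefQ_pos _ _ _)]
    simpa using Ode.coefQ_le hz ht.2 (fun r hr => h.z_nonneg i r ⟨ht.1.trans hr.1, hr.2⟩)
  have hB : |Ode.coefB c (z i) t b| ≤ 1 / (k * i.blk.mu) :=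
    Ode.abs_coefB_le h.cont_c hz ht.2 (mul_pos h.k_pos hμ) fun r hr =>
      h.gain i r ⟨ht.1.trans hr.1, hr.2⟩
  have hW : |Ode.devSol c (z i) a (i.blk.mu * p.2 i) t| ≤ i.blk.mu * |p.2 i| := by
    rw [Ode.devSol, abs_mul, Real.abs_exp, abs_mul, abs_of_pos hμ]
    refine mul_le_of_le_one_right (by positivity) (Real.exp_le_one_iff.2 ?_)
    have := Ode.prim_le_prim (a := a) (k := 0) (κ := fun r => c r + z i r) (h.cont_c.add hz)
      (fun r hr => add_nonneg (h.c_nonneg r ⟨hr.1, hr.2.trans ht.2⟩)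
        (h.z_nonneg i r ⟨hr.1, hr.2.trans ht.2⟩)) ht.1
    simp only [Ode.prim_self, zero_mul, add_zero] at this
    linarith
  set N := |p.1 i| + |p.2 i| with hN
  have hN0 : 0 ≤ N := by positivity
  have hv : |h.value p.1 p.2 i t| ≤ (1 + 1 / k) * N := by
    rw [SlopeFam.value, uSol_split h.cont_c hz]
    calc |Ode.coefQ (z i) t b * p.1 i
          + Ode.coefB c (z i) t b * Ode.devSol c (z i) a (i.blk.mu * p.2 i) t|
        ≤ 1 * |p.1 i| + 1 / (k * i.blk.mu) * (i.blk.mu * |p.2 i|) := by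
          refine (abs_add_le _ _).trans (add_le_add ?_ ?_)
          · rw [abs_mul]; exact mul_le_mul_of_nonneg_right hQ (abs_nonneg _)
          · rw [abs_mul]
            exact mul_le_mul hB hW (abs_nonneg _) (by have := h.k_pos; positivity)
      _ = |p.1 i| + 1 / k * |p.2 i| := by
          have := h.k_pos.ne'
          field_simp
      _ ≤ (1 + 1 / k) * N := by
          rw [hN]
          nlinarith [abs_nonneg (p.1 i), abs_nonneg (p.2 i),
            mul_nonneg hk (abs_nonneg (p.1 i))]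
  have hd : |h.deriv' p.1 p.2 i t| ≤ (1 + 1 / k) * (Z + 1) * N * i.blk.mu := by
    rw [SlopeFam.deriv']
    refine (abs_add_le _ _).trans ?_
    rw [abs_mul]
    have e : i.blk.mu * |p.2 i| ≤ (1 + 1 / k) * N * i.blk.mu := by
      rw [mul_comm i.blk.mu]
      refine mul_le_mul_of_nonneg_right ?_ hμ.le
      nlinarith [abs_nonneg (p.1 i), mul_nonneg hk hN0]
    nlinarith [mul_le_mul (H.z_le i t ht) hv (abs_nonneg _) (by nlinarith [H.Z_nonneg]),
      hW.trans e]
  have hdd : |l i t * h.value p.1 p.2 i t - c t * h.deriv' p.1 p.2 i t|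
      ≤ (1 + 1 / k) * (Λ + Kc * (Z + 1)) * N * i.blk.mu ^ 2 := by
    refine (abs_sub _ _).trans ?_
    rw [abs_mul, abs_mul]
    have h1 := mul_le_mul (H.l_le i t ht) hv (abs_nonneg _)
      (by have := H.Λ_nonneg; positivity)
    have h2 := mul_le_mul (H.c_le t ht) hd (abs_nonneg _) H.Kc_nonneg
    have h3 : Kc * ((1 + 1 / k) * (Z + 1) * N * i.blk.mu)
        ≤ Kc * ((1 + 1 / k) * (Z + 1) * N * i.blk.mu ^ 2) := by
      refine mul_le_mul_of_nonneg_left (mul_le_mul_of_nonneg_left ?_ ?_) H.Kc_nonneg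
      · nlinarith
      · have := H.Z_nonneg; positivity
    linarith
  have hK : diagK k Z Λ Kc = (1 + 1 / k) * (1 + Z + Λ + Kc * (Z + 1)) := rfl
  have hμ2 : 1 ≤ i.blk.mu ^ 2 := one_le_pow₀ hμ1
  have hμs : 0 < i.blk.mu ^ s := pow_pos hμ s
  have hX : (1 + 1 / k) * N ≥ 0 := by positivity
  have hZ := H.Z_nonneg
  have hΛ := H.Λ_nonneg
  have hKc := mul_nonneg H.Kc_nonneg (add_nonneg hZ zero_le_one)
  rw [← mul_div_assoc, le_div_iff₀ hμs]
  have fin : ∀ {v C e : ℝ}, |v| ≤ (1 + 1 / k) * C * N * e → 0 ≤ C → C ≤ 1 + Z + Λ + Kc * (Z + 1) →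
      e ≤ i.blk.mu ^ 2 → |v / i.blk.mu ^ s| * i.blk.mu ^ s ≤ diagK k Z Λ Kc * N * i.blk.mu ^ 2 := by
    intro v C e hv hC0 hC he
    rw [abs_div, abs_of_pos hμs, div_mul_cancel₀ _ hμs.ne', hK]
    refine hv.trans ((mul_le_mul_of_nonneg_left he (by positivity)).trans ?_)
    gcongr
  fin_cases q
  · exact fin (C := 1) (e := 1) (by simpa using hv) zero_le_one (by linarith) hμ2
  · exact fin (C := Z + 1) (e := i.blk.mu) hd (by linarith) (by linarith) (by nlinarith)
  · exact fin (C := Λ + Kc * (Z + 1)) (e := i.blk.mu ^ 2) hdd (by linarith) (by linarith) le_rfl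

theorem abs_apply_le (x : HSp) (i : St) : |x i| ≤ ‖x‖ :=
  (Real.norm_eq_abs _).symm.le.trans (lp.norm_apply_le_norm (by norm_num) x i)

/-- A slope family whose operator is diagonal on the window gives a piece. -/
def PieceSol.diag (H : DiagHyp a b c z drift l Z Λ Kc)
    (hA : ∀ t ∈ Icc a b, ∀ i, A t i = Finsupp.single i (l i t)) : PieceSol A drift s where
  a := a
  b := b
  le := h.le
  ρa i := z i a
  ρb := ρ
  seg := h.coef.seg
  K := diagK k Z Λ Kc
  K_nonneg := diagK_nonneg h.k_pos H.Z_nonneg H.Λ_nonneg H.Kc_nonneg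
  fam := diagFam h s l
  mode p :=
    { deriv_zero := fun i => (diagFam_deriv h H p i).1
      deriv_one := fun i => (diagFam_deriv h H p i).2.1
      cont := fun i => (diagFam_deriv h H p i).2.2
      eqn := fun j t ht => by
        rw [diagFam_eqn h H p j ht, mul_comm]
        have := hasSum_single (f := fun i => diagFam h s l p 0 i t * A t i j) j fun i hi => by
          rw [hA t ht i, Finsupp.single_eq_of_ne hi.symm, mul_zero]
        rwa [hA t ht j, Finsupp.single_eq_same] at this }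
  bd p q i t ht := (diagFam_le h H p q i ht).trans (mul_le_mul_of_nonneg_right
    (mul_le_mul_of_nonneg_left (add_le_add (abs_apply_le _ i) (abs_apply_le _ i))
      (diagK_nonneg h.k_pos H.Z_nonneg H.Λ_nonneg H.Kc_nonneg)) (weight_nonneg s i))
  left _ _ _ _ hs := (diagFam_ends h hs).1
  right _ _ _ _ hs := (diagFam_ends h hs).2

/-! ### Diagonal pieces seen through pull-backs -/

variable {U V : Sphere.Pullback} {J J' : Fin 3}

/-- Coefficients of a composition with a pull-back. -/
def conjSum (V : Sphere.Pullback) (J J' : Fin 3) (f : St → ℝ) (j : St) : ℝ :=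
  ∑ i ∈ levSet J (j.blk.level J'), V.M j i * f i

theorem conjSum_value (hV : V.Moves J J') (x : HSp) (j : St) :
    conjSum V J J' (fun i => x i / i.blk.mu ^ s) j = wOp hV s x j / j.blk.mu ^ s := by
  rw [conjSum, Sphere.Pullback.wOp_apply, Finset.sum_div]
  refine Finset.sum_congr rfl fun i _ => ?_
  have h1 := Blk.one_le_mu i.blk
  have h2 := Blk.one_le_mu j.blk
  rw [zpow_natCast, div_pow]
  field_simp

theorem conjSum_deriv (hV : V.Moves J J') {ρ' : St → ℝ}
    (hρ : ∀ i j : St, j.blk.level J' = i.blk.level J → ρ' j = ρ i) (u w : HSp) (j : St) :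
    conjSum V J J' (fun i => (i.blk.mu * w i + ρ i * u i) / i.blk.mu ^ s) j
      = (j.blk.mu * wOp hV ((s : ℤ) - 1) w j + ρ' j * wOp hV s u j) / j.blk.mu ^ s := by
  rw [conjSum, Sphere.Pullback.wOp_apply, Sphere.Pullback.wOp_apply, Finset.mul_sum, Finset.mul_sum,
    ← Finset.sum_add_distrib, Finset.sum_div]
  refine Finset.sum_congr rfl fun i hi => ?_
  rw [hρ i j (mem_levSet.1 hi).symm]
  have h1 := Blk.one_le_mu i.blk
  have h2 := Blk.one_le_mu j.blk
  rw [zpow_sub_one₀ (div_ne_zero (by linarith) (by linarith)), zpow_natCast, div_pow]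
  field_simp

theorem abs_conjSum_le (hV : V.Moves J J') (f : St → ℝ) (j : St) :
    |conjSum V J J' f j| ≤ Real.sqrt (∑ i ∈ levSet J (j.blk.level J'), f i ^ 2) := by
  refine Real.abs_le_sqrt ?_
  rw [← Sphere.Pullback.sum_sq_M hV (j.blk.level J') f]
  exact Finset.single_le_sum (f := fun k => (∑ i ∈ levSet J (j.blk.level J'), V.M k i * f i) ^ 2)
    (fun _ _ => sq_nonneg _) (mem_levSet.2 rfl)

/-- On a level the coefficients of the inverse pull-back undo `conjSum`. -/
theorem sum_M_conjSum (hV : V.Moves J J') (hg : ∀ x, V.g (U.g x) = x) (f : St → ℝ) {k : St}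
    {L : ℕ × ℕ} (hk : k.blk.level J = L) :
    ∑ i ∈ levSet J' L, U.M k i * conjSum V J J' f i = f k := by
  calc ∑ i ∈ levSet J' L, U.M k i * conjSum V J J' f i
      = ∑ i ∈ levSet J' L, ∑ m ∈ levSet J L, U.M k i * V.M i m * f m := by
        refine Finset.sum_congr rfl fun i hi => ?_
        rw [conjSum, mem_levSet.1 hi, Finset.mul_sum]
        exact Finset.sum_congr rfl fun m _ => by ring
    _ = ∑ m ∈ levSet J L, (U.trans V).M k m * f m := by
        rw [Finset.sum_comm]
        refine Finset.sum_congr rfl fun m hm => ?_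
        rw [Sphere.Pullback.M_trans U V (fun i hi => hV.zero (mem_levSet.1 hm) hi), Finset.sum_mul]
    _ = f k := by
        rw [Finset.sum_eq_single_of_mem k (mem_levSet.2 hk) fun m _ hm => by
          rw [Sphere.Pullback.M_congr (T := U.trans V) (S := .one) hg, Sphere.Pullback.M_one,
            if_neg (Ne.symm hm), zero_mul]]
        rw [Sphere.Pullback.M_congr (T := U.trans V) (S := .one) hg, Sphere.Pullback.M_one,
          if_pos rfl, one_mul]

theorem mu_le_two_mul {i j : St} (e : i.blk.level J = j.blk.level J') :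
    i.blk.mu ≤ 2 * j.blk.mu := by
  refine (Blk.mu_le_level J i.blk).trans (mul_le_mul_of_nonneg_left ?_ zero_le_two)
  rw [e]
  exact Sphere.level_le_mu J' j.blk

theorem weight_level {i j : St} (e : i.blk.level J = j.blk.level J') :
    i.blk.mu ^ 2 / i.blk.mu ^ s ≤ 2 ^ (s + 2) * (j.blk.mu ^ 2 / j.blk.mu ^ s) := by
  have h1 := mu_le_two_mul e
  have h2 := mu_le_two_mul e.symm
  have hi : 0 < i.blk.mu := zero_lt_one.trans_le (Blk.one_le_mu _)
  have hj : 0 < j.blk.mu := zero_lt_one.trans_le (Blk.one_le_mu _)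
  calc i.blk.mu ^ 2 / i.blk.mu ^ s ≤ (2 * j.blk.mu) ^ 2 / (j.blk.mu / 2) ^ s := by
        gcongr
        linarith
    _ = 2 ^ (s + 2) * (j.blk.mu ^ 2 / j.blk.mu ^ s) := by
        rw [div_pow, pow_add]
        field_simp

/-- `conjSum` on families. -/
def conjL (V : Sphere.Pullback) (J J' : Fin 3) : Fam →ₗ[ℝ] Fam where
  toFun f := fun q j t => conjSum V J J' (fun i => f q i t) j
  map_add' f g := by
    funext q j t
    simp [conjSum, mul_add, Finset.sum_add_distrib]
  map_smul' r f := by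
    funext q j t
    simp [conjSum, Finset.mul_sum, mul_left_comm]

/-- Data and solution family of a diagonal piece seen through pull-backs. -/
def conjFam (hU : U.Moves J' J) (V : Sphere.Pullback) (h : SlopeFam a b c z ρ k δ) (s : ℕ)
    (l : St → ℝ → ℝ) : HSp × HSp →ₗ[ℝ] Fam :=
  (conjL V J J').comp ((diagFam h s l).comp
    (LinearMap.prodMap (wOp hU s : HSp →L[ℝ] HSp).toLinearMap
      (wOp hU ((s : ℤ) - 1) : HSp →L[ℝ] HSp).toLinearMap))

theorem conjFam_apply (hU : U.Moves J' J) (p : HSp × HSp) (q : Fin 3) (j : St) (t : ℝ) :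
    conjFam hU V h s l p q j t = conjSum V J J'
      (fun i => diagFam h s l (wOp hU s p.1, wOp hU ((s : ℤ) - 1) p.2) q i t) j := rfl

/-- A slope family seen through inverse pull-backs gives a piece when the operator on the window
is the conjugate of the diagonal one. -/
def PieceSol.conj (hU : U.Moves J' J) (hV : V.Moves J J') (hUV : ∀ x, U.g (V.g x) = x)
    (hVU : ∀ x, V.g (U.g x) = x) (H : DiagHyp a b c z drift l Z Λ Kc) (ρa ρb : St → ℝ)
    (hρa : ∀ i j : St, j.blk.level J' = i.blk.level J → ρa j = z i a)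
    (hρb : ∀ i j : St, j.blk.level J' = i.blk.level J → ρb j = ρ i)
    (hA : ∀ t ∈ Icc a b, ∀ i j, A t i j
      = ∑ m ∈ levSet J (j.blk.level J'), V.M j m * (l m t * U.M m i)) : PieceSol A drift s where
  a := a
  b := b
  le := h.le
  ρa := ρa
  ρb := ρb
  seg := h.coef.seg.conj (wOp hV s) (wOp hU s) (wOp hV ((s : ℤ) - 1)) (wOp hU ((s : ℤ) - 1))
  K := diagK k Z Λ Kc * 2 ^ (2 * s + 4)
  K_nonneg := mul_nonneg (diagK_nonneg h.k_pos H.Z_nonneg H.Λ_nonneg H.Kc_nonneg) (by positivity)
  fam := conjFam hU V h s l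
  mode p :=
    { deriv_zero := fun j t ht => by
        simp only [conjFam_apply]
        exact (HasDerivWithinAt.fun_sum fun i _ =>
          ((diagFam_deriv h H _ i).1 t ht).const_mul (V.M j i))
      deriv_one := fun j t ht => by
        simp only [conjFam_apply]
        exact (HasDerivWithinAt.fun_sum fun i _ =>
          ((diagFam_deriv h H _ i).2.1 t ht).const_mul (V.M j i))
      cont := fun j => continuousOn_finsetSum _ fun i _ =>
        continuousOn_const.mul (diagFam_deriv h H _ i).2.2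
      eqn := fun j t ht => by
        simp only [conjFam_apply]
        set p' : HSp × HSp := (wOp hU s p.1, wOp hU ((s : ℤ) - 1) p.2)
        set L := j.blk.level J'
        have hzero : ∀ i ∉ levSet J' L,
            conjSum V J J' (fun m => diagFam h s l p' 0 m t) i * A t i j = 0 := by
          intro i hi
          rw [hA t ht i j, Finset.sum_eq_zero fun m hm => ?_, mul_zero]
          have : U.M m i = 0 := by
            by_contra hne
            exact hi (mem_levSet.2 ((hU i m hne).symm.trans (mem_levSet.1 hm)))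
          rw [this, mul_zero, mul_zero]
        have hs : HasSum (fun i => conjSum V J J' (fun m => diagFam h s l p' 0 m t) i * A t i j)
            (∑ i ∈ levSet J' L, conjSum V J J' (fun m => diagFam h s l p' 0 m t) i * A t i j) :=
          hasSum_sum_of_ne_finset_zero hzero
        convert hs using 1
        calc conjSum V J J' (fun m => diagFam h s l p' 2 m t) j
              + drift t * conjSum V J J' (fun m => diagFam h s l p' 1 m t) j
            = ∑ m ∈ levSet J L, V.M j m * (l m t * diagFam h s l p' 0 m t) := by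
              simp only [conjSum, Finset.mul_sum, ← Finset.sum_add_distrib]
              refine Finset.sum_congr rfl fun m _ => ?_
              rw [← diagFam_eqn h H p' m ht]
              ring
          _ = ∑ m ∈ levSet J L, ∑ i ∈ levSet J' L,
                conjSum V J J' (fun m => diagFam h s l p' 0 m t) i
                  * (V.M j m * (l m t * U.M m i)) := by
              refine Finset.sum_congr rfl fun m hm => ?_
              rw [← sum_M_conjSum hV hVU (fun m => diagFam h s l p' 0 m t) (mem_levSet.1 hm),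
                Finset.mul_sum, Finset.mul_sum]
              exact Finset.sum_congr rfl fun i _ => by ring
          _ = _ := by
              rw [Finset.sum_comm]
              refine Finset.sum_congr rfl fun i _ => ?_
              rw [hA t ht i j, Finset.mul_sum] }
  bd p q j t ht := by
    rw [conjFam_apply]
    set u := wOp hU s p.1
    set w := wOp hU ((s : ℤ) - 1) p.2
    have hK := diagK_nonneg h.k_pos H.Z_nonneg H.Λ_nonneg H.Kc_nonneg
    set C := diagK k Z Λ Kc * (2 ^ (s + 2) * (j.blk.mu ^ 2 / j.blk.mu ^ s))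
    have hC : 0 ≤ C := mul_nonneg hK (mul_nonneg (by positivity) (weight_nonneg s j))
    have hi : ∀ i ∈ levSet J (j.blk.level J'),
        (diagFam h s l (u, w) q i t) ^ 2 ≤ C ^ 2 * (2 * (‖u i‖ ^ 2 + ‖w i‖ ^ 2)) := by
      intro i hi
      have h1 := (diagFam_le h H (u, w) q i ht).trans
        (mul_le_mul_of_nonneg_left (weight_level (s := s) (mem_levSet.1 hi))
          (mul_nonneg hK (by positivity)))
      have h2 : diagK k Z Λ Kc * (|u i| + |w i|)
          * (2 ^ (s + 2) * (j.blk.mu ^ 2 / j.blk.mu ^ s)) = C * (|u i| + |w i|) := by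
        simp only [C]; ring
      rw [h2] at h1
      rw [← sq_abs (diagFam h s l (u, w) q i t)]
      refine (pow_le_pow_left₀ (abs_nonneg _) h1 2).trans ?_
      rw [mul_pow, Real.norm_eq_abs, Real.norm_eq_abs]
      exact mul_le_mul_of_nonneg_left (add_sq_le) (sq_nonneg _)
    have h3 : Real.sqrt (∑ i ∈ levSet J (j.blk.level J'), (diagFam h s l (u, w) q i t) ^ 2)
        ≤ C * (2 * (‖u‖ + ‖w‖)) := by
      refine Real.sqrt_le_iff.2 ⟨by positivity, (Finset.sum_le_sum hi).trans ?_⟩
      rw [← Finset.mul_sum, ← Finset.mul_sum, Finset.sum_add_distrib, mul_pow C]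
      refine mul_le_mul_of_nonneg_left ?_ (sq_nonneg C)
      nlinarith [sum_sq_le_lp u (levSet J (j.blk.level J')),
        sum_sq_le_lp w (levSet J (j.blk.level J')), mul_nonneg (norm_nonneg u) (norm_nonneg w)]
    refine (abs_conjSum_le hV _ j).trans (h3.trans ?_)
    have hu : ‖u‖ ≤ 2 ^ (s + 1) * ‖p.1‖ := (ContinuousLinearMap.le_of_opNorm_le _
      ((Sphere.Pullback.norm_wOp_le hU _).trans (pow_le_pow_right₀ one_le_two (by omega))) _)
    have hw : ‖w‖ ≤ 2 ^ (s + 1) * ‖p.2‖ := (ContinuousLinearMap.le_of_opNorm_le _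
      ((Sphere.Pullback.norm_wOp_le hU _).trans (pow_le_pow_right₀ one_le_two (by omega))) _)
    calc C * (2 * (‖u‖ + ‖w‖))
        ≤ C * (2 * (2 ^ (s + 1) * ‖p.1‖ + 2 ^ (s + 1) * ‖p.2‖)) := by gcongr
      _ = _ := by
          simp only [C]
          ring
  left ul wl ur wr hs := by
    obtain ⟨h1, -⟩ := hs
    have hm : h.coef.seg.Sol (h.coef.seg.Q (wOp hU s ur) + h.coef.seg.B (wOp hU ((s : ℤ) - 1) wl))
        (wOp hU ((s : ℤ) - 1) wl) (wOp hU s ur)
        (h.coef.seg.C (wOp hU s ur) + h.coef.seg.D (wOp hU ((s : ℤ) - 1) wl)) := ⟨rfl, rfl⟩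
    have he := (diagFam_ends h (s := s) (l := l) hm).1
    have hu : wOp hV s (h.coef.seg.Q (wOp hU s ur) + h.coef.seg.B (wOp hU ((s : ℤ) - 1) wl)) = ul := by
      rw [map_add, h1]
      rfl
    have hw : wOp hV ((s : ℤ) - 1) (wOp hU ((s : ℤ) - 1) wl) = wl :=
      congrArg (fun T : HSp →L[ℝ] HSp => T wl) (Sphere.Pullback.wOp_inverse hV hU _ hUV)
    refine ⟨fun j => ?_, fun j => ?_⟩
    · simp only [conjFam_apply, he.val]
      rw [conjSum_value hV, hu]
    · simp only [conjFam_apply, he.der]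
      rw [conjSum_deriv hV (ρ := fun i => z i a) hρa, hu, hw]
  right ul wl ur wr hs := by
    obtain ⟨-, h2⟩ := hs
    have hm : h.coef.seg.Sol (h.coef.seg.Q (wOp hU s ur) + h.coef.seg.B (wOp hU ((s : ℤ) - 1) wl))
        (wOp hU ((s : ℤ) - 1) wl) (wOp hU s ur)
        (h.coef.seg.C (wOp hU s ur) + h.coef.seg.D (wOp hU ((s : ℤ) - 1) wl)) := ⟨rfl, rfl⟩
    have he := (diagFam_ends h (s := s) (l := l) hm).2
    have hu : wOp hV s (wOp hU s ur) = ur :=
      congrArg (fun T : HSp →L[ℝ] HSp => T ur) (Sphere.Pullback.wOp_inverse hV hU _ hUV)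
    have hw : wOp hV ((s : ℤ) - 1)
        (h.coef.seg.C (wOp hU s ur) + h.coef.seg.D (wOp hU ((s : ℤ) - 1) wl)) = wr := by
      rw [map_add, h2]
      rfl
    refine ⟨fun j => ?_, fun j => ?_⟩
    · simp only [conjFam_apply, he.val]
      rw [conjSum_value hV, hu]
    · simp only [conjFam_apply, he.der]
      rw [conjSum_deriv hV hρb, hu, hw]

/-! ### Pieces of the schedule -/

theorem pieceLam_le {κ t : ℝ} (hκ : 0 ≤ κ) (ht : 0 ≤ t) (P : Piece) (j : ℕ) (τ : ℕ → ℝ) (a : ℝ)
    (hw : Wide (P.raw j τ (t - a))) (i : St) :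
    0 ≤ pieceLam κ P j τ a i t ∧ pieceLam κ P j τ a i t ≤ 30 * i.blk.mu ^ 2 := by
  set w := P.raw j τ (t - a)
  have hl : pieceLam κ P j τ a i t
      = Real.sqrt (1 / (dFun κ t * wdet w)) * Blk.lam w i.blk := lam_wNorm _ _ _
  have hlam : Blk.lam w i.blk ≤ 6 * i.blk.mu ^ 2 := by
    have ha : (0 : ℝ) ≤ i.blk.la := Nat.cast_nonneg _
    have hb : (0 : ℝ) ≤ i.blk.lb := Nat.cast_nonneg _
    have hc : (0 : ℝ) ≤ i.blk.lc := Nat.cast_nonneg _
    have hsum : Blk.cas i.blk.la + Blk.cas i.blk.lb + Blk.cas i.blk.lc ≤ 3 * i.blk.mu ^ 2 := by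
      simp only [Blk.cas, Blk.mu]; nlinarith
    have h2 : ∀ (m : Fin 3) (n : ℕ), w m * Blk.cas n ≤ 2 * Blk.cas n := fun m n =>
      mul_le_mul_of_nonneg_right ((le_abs_self _).trans (hw.le_two m)) (cas_nonneg n)
    simp only [Blk.lam]
    linarith [h2 0 i.blk.la, h2 1 i.blk.lb, h2 2 i.blk.lc]
  have hs : Real.sqrt (1 / (dFun κ t * wdet w)) ≤ 5 := by
    rw [Real.sqrt_le_iff]
    refine ⟨by norm_num, ?_⟩
    have h1 := dMin_le_dFun hκ ht
    have h2 : (61 / 1000 : ℝ) ≤ dFun κ t * wdet w := by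
      have := mul_le_mul h1 hw.det (by norm_num) (dFun_pos κ t).le
      simp only [dMin] at this
      linarith
    rw [div_le_iff₀ (by linarith)]
    linarith
  rw [hl]
  refine ⟨mul_nonneg (Real.sqrt_nonneg _) (hw.lam_nonneg _), ?_⟩
  calc Real.sqrt (1 / (dFun κ t * wdet w)) * Blk.lam w i.blk ≤ 5 * (6 * i.blk.mu ^ 2) :=
        mul_le_mul hs hlam (hw.lam_nonneg _) (by norm_num)
    _ = 30 * i.blk.mu ^ 2 := by ring

/-- The hypotheses of a diagonal piece for every piece of the schedule with slopes near the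
quasi-static ones. -/
theorem diagHyp_piece {κ e : ℝ} {P : Piece} {j : ℕ} {τ : ℕ → ℝ} (hκ : 0 ≤ κ) (ha : 0 < a)
    (hw : ∀ r, Wide (P.raw j τ r))
    (hc : ∀ t, 4 ≤ cPiece κ a t ∧ cPiece κ a t ≤ 6)
    (hnear : ∀ i, ∀ t ∈ Icc a b,
      |z i t - Ode.alphaFn (cDrift κ t) (pieceLam κ P j τ a i t)| ≤ e)
    (hode : ∀ i, ∀ t ∈ Icc a b, ∃ z', HasDerivAt (z i) z' t ∧
      z' + z i t ^ 2 + cPiece κ a t * z i t = pieceLam κ P j τ a i t)
    (hdrift : ∀ t ∈ Icc a b, drift t = cDrift κ t) :
    DiagHyp a b (cPiece κ a) z drift (fun i t => pieceLam κ P j τ a i t) (6 + max e 0) 30 6 where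
  ode := hode
  cont_l i t ht := (hasDerivAt_pieceLam κ P j τ a i (lt_of_lt_of_le ha ht.1)
    (hw _)).continuousAt.continuousWithinAt
  drift_eq t ht := by rw [hdrift t ht, cPiece_of_ge κ ha ht.1]
  Z_nonneg := by positivity
  Λ_nonneg := by norm_num
  Kc_nonneg := by norm_num
  l_le i t ht := by
    obtain ⟨h0, h1⟩ := pieceLam_le hκ (ha.le.trans ht.1) P j τ a (hw _) i
    rwa [abs_of_nonneg h0]
  c_le t _ := abs_le.2 ⟨by linarith [(hc t).1], (hc t).2⟩
  z_le i t ht := by
    obtain ⟨h0, h1⟩ := pieceLam_le hκ (ha.le.trans ht.1) P j τ a (hw _) i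
    have hc0 : 0 ≤ cDrift κ t := by
      rw [← cPiece_of_ge κ ha ht.1]; linarith [(hc t).1]
    have hn := Ode.alphaFn_nonneg (c := cDrift κ t) h0
    have hμ := Blk.one_le_mu i.blk
    have hsq : Ode.alphaFn (cDrift κ t) (pieceLam κ P j τ a i t) ≤ 6 * i.blk.mu := by
      refine (Ode.alphaFn_le_sqrt hc0 h0).trans ?_
      rw [Real.sqrt_le_iff]
      exact ⟨by linarith, by nlinarith⟩
    have hd := abs_le.1 (hnear i t ht)
    have he : max e 0 ≤ max e 0 * i.blk.mu := le_mul_of_one_le_right (le_max_right _ _) hμ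
    rw [abs_le]
    constructor <;> nlinarith [le_max_left e 0]

end

end Vale.Agent.P225.Asm
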