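import Vale.Agent.P225.Assembly.PieceSols
import Vale.Agent.P225.Loop.PieceIns

/-!
P225 assembly (helper15): solution families of insertions.

`InsOp.segH` carries a `PieceSol` when the operator family on the window is the scalar of each level
of `J3` plus the banded blocks `f₁ O₁ + f₂ O₂` written in plain coefficients.
-/

namespace Vale.Agent.P225.Asm

open Set
open Sphere (levSet mem_levSet)
open InsOp (muRatio)
open scoped Classical

noncomputable section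

variable {A : ℝ → St → (St →₀ ℝ)} {drift : ℝ → ℝ} {s : ℕ}
variable (O : InsOp) {a b k δ m : ℝ} {c : ℝ → ℝ} {z : St → ℝ → ℝ} {ρ : St → ℝ}
  (h : SlopeFam a b c z ρ k δ) (hm : 0 < m)
  (hz : ∀ g : ℕ × ℕ, g ≠ 0 → ∀ t ∈ Icc a b, m * muL g ≤ z (levRep g) t)
  (f₁ f₂ : ℝ → ℝ) (hf₁ : Continuous f₁) (hf₂ : Continuous f₂) (Am : ℝ) (hAm : 0 ≤ Am)
  (hb : ∀ t ∈ Icc a b, |f₁ t| ≤ Am ∧ |f₂ t| ≤ Am)

/-- The perturbation of an insertion. -/
abbrev insPert : PicardPert (h.levBase hm hz) (LevSp 0) :=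
  O.pert h hm hz f₁ f₂ hf₁ hf₂ Am hAm hb

/-- The path of a solution of an insertion, linear in the datum. -/
def insPath : HSp × HSp →ₗ[ℝ] PX (h.levBase hm hz) (LevSp 0) where
  toFun p := (insPert O h hm hz f₁ f₂ hf₁ hf₂ Am hAm hb).path (toLev 0 p.1) (toLev 0 (muRatio p.2))
  map_add' p q := by
    simp only [PicardPert.path, Prod.fst_add, Prod.snd_add, map_add]
    abel
  map_smul' r p := by
    simp only [PicardPert.path, Prod.smul_fst, Prod.smul_snd, map_smul, map_add, smul_add,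
      RingHom.id_apply]

theorem insPath_eq (p : HSp × HSp) :
    insPath O h hm hz f₁ f₂ hf₁ hf₂ Am hAm hb p
      = (insPert O h hm hz f₁ f₂ hf₁ hf₂ Am hAm hb).path (toLev 0 p.1) (toLev 0 (muRatio p.2)) :=
  rfl

/-- Coordinate of the path. -/
def insVal (p : HSp × HSp) (i : St) (t : ℝ) : ℝ :=
  PicardPert.ext (insPath O h hm hz f₁ f₂ hf₁ hf₂ Am hAm hb p) (i.blk.level 0) t ⟨i, rfl⟩

/-- Coordinate of the derivative. -/
def insDer (p : HSp × HSp) (i : St) (t : ℝ) : ℝ :=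
  z (levRep (i.blk.level 0)) t * insVal O h hm hz f₁ f₂ hf₁ hf₂ Am hAm hb p i t
    + (Ode.devSol c (z (levRep (i.blk.level 0))) a (muL (i.blk.level 0)) t * muRatio p.2 i
      + (insPert O h hm hz f₁ f₂ hf₁ hf₂ Am hAm hb).devPert
          (insPath O h hm hz f₁ f₂ hf₁ hf₂ Am hAm hb p) (i.blk.level 0) t ⟨i, rfl⟩)

/-- Coordinate of the second derivative. -/
def insDd (l : ℕ × ℕ → ℝ → ℝ) (p : HSp × HSp) (i : St) (t : ℝ) : ℝ :=
  l (i.blk.level 0) t * insVal O h hm hz f₁ f₂ hf₁ hf₂ Am hAm hb p i t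
    - c t * insDer O h hm hz f₁ f₂ hf₁ hf₂ Am hAm hb p i t
    + (insPert O h hm hz f₁ f₂ hf₁ hf₂ Am hAm hb).force
        (insPath O h hm hz f₁ f₂ hf₁ hf₂ Am hAm hb p) (i.blk.level 0) t ⟨i, rfl⟩

theorem insVal_add_smul (r : ℝ) (p q : HSp × HSp) (i : St) (t : ℝ) :
    insVal O h hm hz f₁ f₂ hf₁ hf₂ Am hAm hb (r • p + q) i t
      = r * insVal O h hm hz f₁ f₂ hf₁ hf₂ Am hAm hb p i t
        + insVal O h hm hz f₁ f₂ hf₁ hf₂ Am hAm hb q i t := by
  simp only [insVal, map_add, map_smul]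
  rfl

theorem insDer_add_smul (r : ℝ) (p q : HSp × HSp) (i : St) (t : ℝ) :
    insDer O h hm hz f₁ f₂ hf₁ hf₂ Am hAm hb (r • p + q) i t
      = r * insDer O h hm hz f₁ f₂ hf₁ hf₂ Am hAm hb p i t
        + insDer O h hm hz f₁ f₂ hf₁ hf₂ Am hAm hb q i t := by
  have hR : muRatio (r • p + q).2 i = r * muRatio p.2 i + muRatio q.2 i := by
    simp only [Prod.snd_add, Prod.smul_snd, map_add, map_smul]
    rfl
  simp only [insDer, insVal_add_smul, hR, map_add, map_smul, PicardPert.devPert_add_smul,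
    PiLp.add_apply, PiLp.smul_apply, smul_eq_mul]
  ring

theorem insDd_add_smul (l : ℕ × ℕ → ℝ → ℝ) (r : ℝ) (p q : HSp × HSp) (i : St) (t : ℝ) :
    insDd O h hm hz f₁ f₂ hf₁ hf₂ Am hAm hb l (r • p + q) i t
      = r * insDd O h hm hz f₁ f₂ hf₁ hf₂ Am hAm hb l p i t
        + insDd O h hm hz f₁ f₂ hf₁ hf₂ Am hAm hb l q i t := by
  simp only [insDd, insVal_add_smul, insDer_add_smul, map_add, map_smul,
    PicardPert.force_add_smul, PiLp.add_apply, PiLp.smul_apply, smul_eq_mul]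
  ring

/-- Unscaled jets of an insertion. -/
def insJet (l : ℕ × ℕ → ℝ → ℝ) (p : HSp × HSp) : Fam :=
  ![insVal O h hm hz f₁ f₂ hf₁ hf₂ Am hAm hb p, insDer O h hm hz f₁ f₂ hf₁ hf₂ Am hAm hb p,
    insDd O h hm hz f₁ f₂ hf₁ hf₂ Am hAm hb l p]

theorem insJet_add_smul (l : ℕ × ℕ → ℝ → ℝ) (r : ℝ) (p q : HSp × HSp) :
    insJet O h hm hz f₁ f₂ hf₁ hf₂ Am hAm hb l (r • p + q)
      = r • insJet O h hm hz f₁ f₂ hf₁ hf₂ Am hAm hb l p
        + insJet O h hm hz f₁ f₂ hf₁ hf₂ Am hAm hb l q := by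
  funext n i t
  fin_cases n <;>
    simp [insJet, insVal_add_smul, insDer_add_smul, insDd_add_smul]

/-- Solution family of an insertion, in weighted coordinates. -/
def insFam (l : ℕ × ℕ → ℝ → ℝ) (s : ℕ) : HSp × HSp →ₗ[ℝ] Fam where
  toFun p := fun n i t => insJet O h hm hz f₁ f₂ hf₁ hf₂ Am hAm hb l p n i t / i.blk.mu ^ s
  map_add' p q := by
    funext n i t
    have := congrFun (congrFun (congrFun
      (insJet_add_smul O h hm hz f₁ f₂ hf₁ hf₂ Am hAm hb l 1 p q) n) i) t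
    simp only [one_smul, Pi.add_apply] at this
    simp only [Pi.add_apply, this, add_div]
  map_smul' r p := by
    funext n i t
    have h1 := congrFun (congrFun (congrFun
      (insJet_add_smul O h hm hz f₁ f₂ hf₁ hf₂ Am hAm hb l r p 0) n) i) t
    have h0 := congrFun (congrFun (congrFun
      (insJet_add_smul O h hm hz f₁ f₂ hf₁ hf₂ Am hAm hb l 1 0 0) n) i) t
    simp only [one_smul, add_zero, Pi.add_apply, Pi.smul_apply, smul_eq_mul] at h1 h0
    simp only [Pi.smul_apply, smul_eq_mul, RingHom.id_apply]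
    rw [h1, show insJet O h hm hz f₁ f₂ hf₁ hf₂ Am hAm hb l 0 n i t = 0 by linarith, add_zero,
      mul_div_assoc]

theorem insFam_zero (l : ℕ × ℕ → ℝ → ℝ) (p : HSp × HSp) (i : St) (t : ℝ) :
    insFam O h hm hz f₁ f₂ hf₁ hf₂ Am hAm hb l s p 0 i t
      = insVal O h hm hz f₁ f₂ hf₁ hf₂ Am hAm hb p i t / i.blk.mu ^ s := rfl

theorem insFam_one (l : ℕ × ℕ → ℝ → ℝ) (p : HSp × HSp) (i : St) (t : ℝ) :
    insFam O h hm hz f₁ f₂ hf₁ hf₂ Am hAm hb l s p 1 i t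
      = insDer O h hm hz f₁ f₂ hf₁ hf₂ Am hAm hb p i t / i.blk.mu ^ s := rfl

theorem insFam_two (l : ℕ × ℕ → ℝ → ℝ) (p : HSp × HSp) (i : St) (t : ℝ) :
    insFam O h hm hz f₁ f₂ hf₁ hf₂ Am hAm hb l s p 2 i t
      = insDd O h hm hz f₁ f₂ hf₁ hf₂ Am hAm hb l p i t / i.blk.mu ^ s := rfl

section Solved

variable (hs : Am * O.size k m ≤ 1 / 2)
include hs

theorem insVal_eq (p : HSp × HSp) (i : St) {t : ℝ} (ht : t ∈ Icc a b) :
    insVal O h hm hz f₁ f₂ hf₁ hf₂ Am hAm hb p i t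
      = O.valueH h hm hz f₁ f₂ hf₁ hf₂ Am hAm hb p.1 p.2 i t := by
  have e : PicardPert.ext (insPath O h hm hz f₁ f₂ hf₁ hf₂ Am hAm hb p) (i.blk.level 0) t
      = (insPert O h hm hz f₁ f₂ hf₁ hf₂ Am hAm hb).value (toLev 0 p.1) (toLev 0 (muRatio p.2))
          (i.blk.level 0) t := by
    rw [(insPert O h hm hz f₁ f₂ hf₁ hf₂ Am hAm hb).value_eq_path
      (hθ := show Am * O.size k m < 1 by linarith) _ _ _ ⟨t, ht⟩, ← insPath_eq]
    exact IccExtend_of_mem _ _ ht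
  exact congrArg (fun v : LevSp 0 (i.blk.level 0) => v ⟨i, rfl⟩) e

theorem insDer_eq (p : HSp × HSp) (i : St) {t : ℝ} (ht : t ∈ Icc a b) :
    insDer O h hm hz f₁ f₂ hf₁ hf₂ Am hAm hb p i t
      = O.derivH h hm hz f₁ f₂ hf₁ hf₂ Am hAm hb p.1 p.2 i t := by
  rw [insDer, InsOp.derivH, insVal_eq O h hm hz f₁ f₂ hf₁ hf₂ Am hAm hb hs p i ht, insPath_eq,
    (O.pert h hm hz f₁ f₂ hf₁ hf₂ Am hAm hb).dev_eq]
  simp [SlopeFam.levBase]

theorem force_eq_sum (p : HSp × HSp) (i : St) {t : ℝ} (ht : t ∈ Icc a b) :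
    (insPert O h hm hz f₁ f₂ hf₁ hf₂ Am hAm hb).force
        (insPath O h hm hz f₁ f₂ hf₁ hf₂ Am hAm hb p) (i.blk.level 0) t ⟨i, rfl⟩
      = ∑ g ∈ bandSet O.N (i.blk.level 0),
          (f₁ t * O.O₁ (i.blk.level 0) g ((insPert O h hm hz f₁ f₂ hf₁ hf₂ Am hAm hb).value
              (toLev 0 p.1) (toLev 0 (muRatio p.2)) g t) ⟨i, rfl⟩
            + f₂ t * O.O₂ (i.blk.level 0) g ((insPert O h hm hz f₁ f₂ hf₁ hf₂ Am hAm hb).value
              (toLev 0 p.1) (toLev 0 (muRatio p.2)) g t) ⟨i, rfl⟩) := by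
  rw [insPath_eq, (insPert O h hm hz f₁ f₂ hf₁ hf₂ Am hAm hb).force_eq
    (hθ := show Am * O.size k m < 1 by linarith) _ _ _ ht, WithLp.ofLp_sum, Finset.sum_apply]
  rfl

/-- Two-point data of the family. -/
theorem insFam_ends (l : ℕ × ℕ → ℝ → ℝ) {ul wl ur wr : HSp}
    (hsol : (O.segH h hm hz f₁ f₂ hf₁ hf₂ Am hAm hb).Sol ul wl ur wr) :
    EndData s (insFam O h hm hz f₁ f₂ hf₁ hf₂ Am hAm hb l s (ur, wl)) a
        (fun i => z (levRep (i.blk.level 0)) a) ul wl ∧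
      EndData s (insFam O h hm hz f₁ f₂ hf₁ hf₂ Am hAm hb l s (ur, wl)) b
        (fun i => ρ (levRep (i.blk.level 0))) ur wr := by
  have key := O.sol_valueH h hm hz f₁ f₂ hf₁ hf₂ Am hAm hb hs hsol
  have ha := left_mem_Icc.2 h.le
  have hb' := right_mem_Icc.2 h.le
  refine ⟨⟨fun i => ?_, fun i => ?_⟩, ⟨fun i => ?_, fun i => ?_⟩⟩
  · rw [insFam_zero, insVal_eq O h hm hz f₁ f₂ hf₁ hf₂ Am hAm hb hs _ i ha, (key i).1]
  · rw [insFam_one, insDer_eq O h hm hz f₁ f₂ hf₁ hf₂ Am hAm hb hs _ i ha, ← (key i).2.2.1]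
    ring
  · rw [insFam_zero, insVal_eq O h hm hz f₁ f₂ hf₁ hf₂ Am hAm hb hs _ i hb', (key i).2.1]
  · rw [insFam_one, insDer_eq O h hm hz f₁ f₂ hf₁ hf₂ Am hAm hb hs _ i hb', ← (key i).2.2.2]
    ring

end Solved

/-- What an insertion piece is asked. -/
structure InsHyp (a b : ℝ) (c : ℝ → ℝ) (z : St → ℝ → ℝ) (drift : ℝ → ℝ) (l : ℕ × ℕ → ℝ → ℝ)
    (Z Λ Kc : ℝ) : Prop where
  ode : ∀ g : ℕ × ℕ, ∀ t ∈ Icc a b, ∃ z', HasDerivAt (z (levRep g)) z' t ∧
    z' + z (levRep g) t ^ 2 + c t * z (levRep g) t = l g t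
  cont_l : ∀ g, ContinuousOn (l g) (Icc a b)
  drift_eq : ∀ t ∈ Icc a b, drift t = c t
  Z_nonneg : 0 ≤ Z
  Λ_nonneg : 0 ≤ Λ
  Kc_nonneg : 0 ≤ Kc
  z_le : ∀ g, ∀ t ∈ Icc a b, |z (levRep g) t| ≤ Z * muL g
  l_le : ∀ g, ∀ t ∈ Icc a b, |l g t| ≤ Λ * muL g ^ 2
  c_le : ∀ t ∈ Icc a b, |c t| ≤ Kc

/-- The operator of an insertion in plain coefficients. -/
def InsOperator (A : ℝ → St → (St →₀ ℝ)) (s : ℕ) (a b : ℝ) (l : ℕ × ℕ → ℝ → ℝ) : Prop :=
  ∀ t ∈ Icc a b, ∀ i j : St, A t i j = (if i = j then l (j.blk.level 0) t else 0)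
    + i.blk.mu ^ s / j.blk.mu ^ s
      * (f₁ t * O.O₁ (j.blk.level 0) (i.blk.level 0)
            (EuclideanSpace.single (⟨i, rfl⟩ : Fib 0 (i.blk.level 0)) (1 : ℝ)) ⟨j, rfl⟩
        + f₂ t * O.O₂ (j.blk.level 0) (i.blk.level 0)
            (EuclideanSpace.single (⟨i, rfl⟩ : Fib 0 (i.blk.level 0)) (1 : ℝ)) ⟨j, rfl⟩)

theorem clm_apply_eq_sum {L L' : ℕ × ℕ} (T : LevSp 0 L →L[ℝ] LevSp 0 L') (v : LevSp 0 L)
    (j : Fib 0 L') :
    T v j = ∑ i : Fib 0 L, v i * T (EuclideanSpace.single i (1 : ℝ)) j := by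
  conv_lhs => rw [← (EuclideanSpace.basisFun (Fib 0 L) ℝ).sum_repr v]
  simp only [map_sum, map_smul, WithLp.ofLp_sum, Finset.sum_apply, PiLp.smul_apply, smul_eq_mul,
    EuclideanSpace.basisFun_repr, EuclideanSpace.basisFun_apply]

/-- Constant of an insertion piece. -/
def insK (k Z Λ Kc : ℝ) : ℝ := (2 + 4 / k) * (2 + Z + Λ + k + Kc * (Z + 2))

theorem insK_nonneg {k Z Λ Kc : ℝ} (hk : 0 < k) (hZ : 0 ≤ Z) (hΛ : 0 ≤ Λ) (hKc : 0 ≤ Kc) :
    0 ≤ insK k Z Λ Kc := by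
  unfold insK
  positivity

variable {l : ℕ × ℕ → ℝ → ℝ} {Z Λ Kc : ℝ}

theorem insFam_mode (hs : Am * O.size k m ≤ 1 / 2) (H : InsHyp a b c z drift l Z Λ Kc)
    (hA : InsOperator O f₁ f₂ A s a b l) (p : HSp × HSp) :
    FamSol A drift (Icc a b) (insFam O h hm hz f₁ f₂ hf₁ hf₂ Am hAm hb l s p) := by
  set P := insPert O h hm hz f₁ f₂ hf₁ hf₂ Am hAm hb with hP
  have hV := insVal_eq O h hm hz f₁ f₂ hf₁ hf₂ Am hAm hb hs p
  have hD := insDer_eq O h hm hz f₁ f₂ hf₁ hf₂ Am hAm hb hs p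
  refine ⟨fun i t ht => ?_, fun i t ht => ?_, fun i => ?_, fun j t ht => ?_⟩
  · refine HasDerivWithinAt.div_const ?_ _
    show HasDerivWithinAt (insVal O h hm hz f₁ f₂ hf₁ hf₂ Am hAm hb p i)
      (insDer O h hm hz f₁ f₂ hf₁ hf₂ Am hAm hb p i t) (Icc a b) t
    rw [hD i ht]
    exact (O.hasDerivAt_valueH h hm hz f₁ f₂ hf₁ hf₂ Am hAm hb p.1 p.2 i t).hasDerivWithinAt.congr
      (fun r hr => hV i hr) (hV i ht)
  · refine HasDerivWithinAt.div_const ?_ _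
    show HasDerivWithinAt (insDer O h hm hz f₁ f₂ hf₁ hf₂ Am hAm hb p i)
      (insDd O h hm hz f₁ f₂ hf₁ hf₂ Am hAm hb l p i t) (Icc a b) t
    rw [insDd, hV i ht, hD i ht, force_eq_sum O h hm hz f₁ f₂ hf₁ hf₂ Am hAm hb hs p i ht]
    exact (O.hasDerivAt_derivH h hm hz f₁ f₂ hf₁ hf₂ Am hAm hb hs p.1 p.2 i ht
      (H.ode _ t ht)).hasDerivWithinAt.congr (fun r hr => hD i hr) (hD i ht)
  · refine ContinuousOn.div_const ?_ _
    show ContinuousOn (insDd O h hm hz f₁ f₂ hf₁ hf₂ Am hAm hb l p i) (Icc a b)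
    have hev : Continuous fun v : LevSp 0 (i.blk.level 0) => v ⟨i, rfl⟩ :=
      (EuclideanSpace.proj (⟨i, rfl⟩ : Fib 0 (i.blk.level 0))).continuous
    have h1 : Continuous (insVal O h hm hz f₁ f₂ hf₁ hf₂ Am hAm hb p i) :=
      hev.comp (PicardPert.continuous_ext _ _)
    have h2 : Continuous (insDer O h hm hz f₁ f₂ hf₁ hf₂ Am hAm hb p i) :=
      ((h.cont_z _).mul h1).add (((Ode.continuous_devSol h.cont_c (h.cont_z _) _ _).mul
        continuous_const).add (hev.comp (P.continuous_devPert _ _)))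
    exact (((H.cont_l _).mul h1.continuousOn).sub (h.cont_c.continuousOn.mul h2.continuousOn)).add
      (hev.comp (P.continuous_force _ _)).continuousOn
  · set g := j.blk.level 0
    set x := insPath O h hm hz f₁ f₂ hf₁ hf₂ Am hAm hb p with hx
    have h1 : HasSum (fun i => insFam O h hm hz f₁ f₂ hf₁ hf₂ Am hAm hb l s p 0 i t
        * (if i = j then l g t else 0))
        (insFam O h hm hz f₁ f₂ hf₁ hf₂ Am hAm hb l s p 0 j t * l g t) := by
      have := hasSum_single (f := fun i => insFam O h hm hz f₁ f₂ hf₁ hf₂ Am hAm hb l s p 0 i t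
        * (if i = j then l g t else 0)) j fun i hi => by rw [if_neg hi, mul_zero]
      rwa [if_pos rfl] at this
    let T : ℕ × ℕ → ℝ := fun g' => (f₁ t * O.O₁ g g' (PicardPert.ext x g' t) ⟨j, rfl⟩
        + f₂ t * O.O₂ g g' (PicardPert.ext x g' t) ⟨j, rfl⟩) / j.blk.mu ^ s
    let B : St → ℝ := fun i => insFam O h hm hz f₁ f₂ hf₁ hf₂ Am hAm hb l s p 0 i t
        * (i.blk.mu ^ s / j.blk.mu ^ s
          * (f₁ t * O.O₁ g (i.blk.level 0)
                (EuclideanSpace.single (⟨i, rfl⟩ : Fib 0 (i.blk.level 0)) (1 : ℝ)) ⟨j, rfl⟩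
            + f₂ t * O.O₂ g (i.blk.level 0)
                (EuclideanSpace.single (⟨i, rfl⟩ : Fib 0 (i.blk.level 0)) (1 : ℝ)) ⟨j, rfl⟩))
    have h2 : HasSum B (∑ g' ∈ bandSet O.N g, T g') := by
      have hz' : ∀ i ∉ (bandSet O.N g).biUnion (levSet 0), B i = 0 := by
        intro i hi
        have hni : i.blk.level 0 ∉ bandSet O.N g := fun hh =>
          hi (Finset.mem_biUnion.2 ⟨_, hh, mem_levSet.2 rfl⟩)
        obtain ⟨e1, e2⟩ := O.band g _ hni
        simp [B, e1, e2]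
      have e : ∑ i ∈ (bandSet O.N g).biUnion (levSet 0), B i = ∑ g' ∈ bandSet O.N g, T g' := by
        rw [Finset.sum_biUnion]
        · refine Finset.sum_congr rfl fun g' _ => ?_
          simp only [T]
          rw [clm_apply_eq_sum (O.O₁ g g'), clm_apply_eq_sum (O.O₂ g g'), Finset.mul_sum,
            Finset.mul_sum, ← Finset.sum_add_distrib, Finset.sum_div, levSet, Finset.sum_map]
          refine Finset.sum_congr rfl fun i _ => ?_
          obtain ⟨i, hi⟩ := i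
          subst hi
          have hμ : i.blk.mu ^ s ≠ 0 :=
            pow_ne_zero _ (zero_lt_one.trans_le (Blk.one_le_mu _)).ne'
          show insVal O h hm hz f₁ f₂ hf₁ hf₂ Am hAm hb p i t / i.blk.mu ^ s * _ = _
          simp only [insVal, ← hx, Function.Embedding.coe_subtype]
          field_simp
          rfl
        · intro g₁ _ g₂ _ hne
          rw [Function.onFun, Finset.disjoint_left]
          exact fun i h1 h2 => hne ((mem_levSet.1 h1).symm.trans (mem_levSet.1 h2))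
      exact e ▸ hasSum_sum_of_ne_finset_zero hz'
    have h3 := h1.add h2
    convert h3 using 1
    · funext i
      rw [hA t ht i j, mul_add]
    · rw [insFam_zero, insFam_one, insFam_two, insDd, H.drift_eq t ht]
      have e : (insPert O h hm hz f₁ f₂ hf₁ hf₂ Am hAm hb).force x g t ⟨j, rfl⟩
          = ∑ g' ∈ bandSet O.N g, (f₁ t * O.O₁ g g' (PicardPert.ext x g' t) ⟨j, rfl⟩
              + f₂ t * O.O₂ g g' (PicardPert.ext x g' t) ⟨j, rfl⟩) := by
        simp only [PicardPert.force, WithLp.ofLp_sum, Finset.sum_apply]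
        rfl
      simp only [T, ← Finset.sum_div, ← e]
      ring

theorem insFam_bd (hs : Am * O.size k m ≤ 1 / 2) (H : InsHyp a b c z drift l Z Λ Kc)
    (p : HSp × HSp) :
    FamBd s (Icc a b) (insK k Z Λ Kc * (‖p.1‖ + ‖p.2‖))
      (insFam O h hm hz f₁ f₂ hf₁ hf₂ Am hAm hb l s p) := by
  intro n i t ht
  set P := insPert O h hm hz f₁ f₂ hf₁ hf₂ Am hAm hb with hP
  set g := i.blk.level 0 with hg
  set x := insPath O h hm hz f₁ f₂ hf₁ hf₂ Am hAm hb p with hx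
  set N := ‖p.1‖ + ‖p.2‖ with hN
  set K₀ := 2 + 4 / k with hK₀
  have hN0 : 0 ≤ N := by positivity
  have hk := h.k_pos
  have hK₀2 : 2 ≤ K₀ := le_add_of_nonneg_right (by positivity)
  have hμg := muL_pos g
  have hμ : muL g ≤ i.blk.mu := muL_le_mu i
  have hμ1 := Blk.one_le_mu i.blk
  have hR : ‖muRatio p.2‖ ≤ 2 * ‖p.2‖ :=
    ContinuousLinearMap.le_of_opNorm_le _ (norm_diagOp_le _ _ _ _) _
  have hL : ∀ y : HSp, ‖toLev 0 y‖ ≤ ‖y‖ := fun y =>
    (ContinuousLinearMap.le_of_opNorm_le _ (norm_toLev_le 0) y).trans_eq (one_mul _)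
  have hx' : ‖x‖ ≤ K₀ * N := by
    rw [hx, insPath_eq]
    refine (P.norm_sol_le (hθ := hs) _).trans ?_
    have e1 := ((h.levBase hm hz).norm_baseU_apply_le (toLev 0 p.1)).trans (hL _)
    have e2 := ((h.levBase hm hz).norm_baseV_apply_le (toLev 0 (muRatio p.2))).trans
      (mul_le_mul_of_nonneg_left ((hL _).trans hR) (h.levBase hm hz).K_nonneg)
    have hK : (h.levBase hm hz).K = 1 / k := rfl
    rw [hK] at e2
    refine (mul_le_mul_of_nonneg_left ((norm_add_le _ _).trans (add_le_add e1 e2))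
      zero_le_two).trans ?_
    have h4 : 0 ≤ 4 / k := by positivity
    rw [hN, hK₀]
    nlinarith [mul_nonneg h4 (norm_nonneg p.1), norm_nonneg p.1, norm_nonneg p.2,
      show 1 / k * (2 * ‖p.2‖) * 2 = 4 / k * ‖p.2‖ by ring]
  have hcoord : ∀ v : LevSp 0 g, |v ⟨i, rfl⟩| ≤ ‖v‖ := fun v =>
    (Real.norm_eq_abs _).symm.le.trans (PiLp.norm_apply_le v _)
  have hxg : ∀ g', ‖x g'‖ ≤ ‖x‖ := fun g' => lp.norm_apply_le_norm (by norm_num) x g'
  have hsum : ∑ g' ∈ P.nb g, P.p g g' * ‖x g'‖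
      ≤ 1 / 2 * ((h.levBase hm hz).kw g * muL g) * ‖x‖ := by
    have hkw := (h.levBase hm hz).kw_pos g
    have h1 : (∑ g' ∈ P.nb g, P.p g g') / ((h.levBase hm hz).kw g * muL g) ≤ Am * O.size k m := by
      have := P.rowW g
      rw [← Finset.sum_div] at this
      exact this
    rw [div_le_iff₀ (mul_pos hkw hμg)] at h1
    calc ∑ g' ∈ P.nb g, P.p g g' * ‖x g'‖ ≤ ∑ g' ∈ P.nb g, P.p g g' * ‖x‖ :=
          Finset.sum_le_sum fun g' _ => mul_le_mul_of_nonneg_left (hxg g') (P.p_nonneg g g')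
      _ = (∑ g' ∈ P.nb g, P.p g g') * ‖x‖ := (Finset.sum_mul _ _ _).symm
      _ ≤ 1 / 2 * ((h.levBase hm hz).kw g * muL g) * ‖x‖ := by
          refine mul_le_mul_of_nonneg_right (h1.trans ?_) (norm_nonneg _)
          exact mul_le_mul_of_nonneg_right hs (by positivity)
  have hv : |insVal O h hm hz f₁ f₂ hf₁ hf₂ Am hAm hb p i t| ≤ K₀ * N :=
    (hcoord _).trans ((PicardPert.norm_ext_le x g t).trans ((hxg g).trans hx'))
  have hd : |insDer O h hm hz f₁ f₂ hf₁ hf₂ Am hAm hb p i t| ≤ (Z + 2) * K₀ * N * i.blk.mu := by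
    have h1 : |Ode.devSol c (z (levRep g)) a (muL g) t| ≤ muL g := by
      rw [Ode.devSol, abs_mul, Real.abs_exp, abs_of_pos hμg]
      refine mul_le_of_le_one_right hμg.le (Real.exp_le_one_iff.2 ?_)
      have := Ode.prim_le_prim (a := a) (k := 0) (κ := fun r => c r + z (levRep g) r)
        (h.cont_c.add (h.cont_z _))
        (fun r hr => add_nonneg (h.c_nonneg r ⟨hr.1, hr.2.trans ht.2⟩)
          (h.z_nonneg _ r ⟨hr.1, hr.2.trans ht.2⟩)) ht.1
      simp only [Ode.prim_self, zero_mul, add_zero] at this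
      linarith
    have h2 : |muRatio p.2 i| ≤ 2 * N :=
      ((abs_apply_le _ i).trans hR).trans (mul_le_mul_of_nonneg_left
        (le_add_of_nonneg_left (norm_nonneg _)) zero_le_two)
    have h3 : |P.devPert x g t ⟨i, rfl⟩| ≤ 1 / 2 * muL g * (K₀ * N) := by
      refine (hcoord _).trans ((P.norm_devPert_le x g ht).trans ?_)
      rw [div_le_iff₀ ((h.levBase hm hz).kw_pos g)]
      refine hsum.trans ?_
      have := (h.levBase hm hz).kw_pos g
      nlinarith [mul_le_mul_of_nonneg_left hx'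
        (by positivity : (0 : ℝ) ≤ 1 / 2 * ((h.levBase hm hz).kw g * muL g))]
    show |z (levRep g) t * insVal O h hm hz f₁ f₂ hf₁ hf₂ Am hAm hb p i t
      + (Ode.devSol c (z (levRep g)) a (muL g) t * muRatio p.2 i + P.devPert x g t ⟨i, rfl⟩)| ≤ _
    refine (abs_add_le _ _).trans ((add_le_add (le_of_eq (abs_mul _ _))
      ((abs_add_le _ _).trans (add_le_add (le_of_eq (abs_mul _ _)) h3))).trans ?_)
    have e1 : |z (levRep g) t| * |insVal O h hm hz f₁ f₂ hf₁ hf₂ Am hAm hb p i t|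
        ≤ Z * muL g * (K₀ * N) :=
      mul_le_mul (H.z_le g t ht) hv (abs_nonneg _) (mul_nonneg H.Z_nonneg hμg.le)
    have e2 : |Ode.devSol c (z (levRep g)) a (muL g) t| * |muRatio p.2 i| ≤ muL g * (K₀ * N) :=
      mul_le_mul h1 (h2.trans (mul_le_mul_of_nonneg_right hK₀2 hN0)) (abs_nonneg _) hμg.le
    have e3 : (Z + 2) * (K₀ * N) * muL g ≤ (Z + 2) * (K₀ * N) * i.blk.mu :=
      mul_le_mul_of_nonneg_left hμ (by have := H.Z_nonneg; positivity)
    nlinarith [mul_nonneg hμg.le (mul_nonneg (zero_le_two.trans hK₀2) hN0)]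
  have hdd : |insDd O h hm hz f₁ f₂ hf₁ hf₂ Am hAm hb l p i t|
      ≤ (Λ + Kc * (Z + 2) + k) * K₀ * N * i.blk.mu ^ 2 := by
    have hμ2 : muL g ^ 2 ≤ i.blk.mu ^ 2 := pow_le_pow_left₀ hμg.le hμ 2
    have hKN : 0 ≤ K₀ * N := mul_nonneg (zero_le_two.trans hK₀2) hN0
    have e1 : |l g t| * |insVal O h hm hz f₁ f₂ hf₁ hf₂ Am hAm hb p i t|
        ≤ Λ * i.blk.mu ^ 2 * (K₀ * N) :=
      mul_le_mul ((H.l_le g t ht).trans (mul_le_mul_of_nonneg_left hμ2 H.Λ_nonneg)) hv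
        (abs_nonneg _) (mul_nonneg H.Λ_nonneg (sq_nonneg _))
    have e2 : |c t| * |insDer O h hm hz f₁ f₂ hf₁ hf₂ Am hAm hb p i t|
        ≤ Kc * ((Z + 2) * K₀ * N * i.blk.mu ^ 2) :=
      mul_le_mul (H.c_le t ht) (hd.trans (mul_le_mul_of_nonneg_left (le_self_pow₀ hμ1 two_ne_zero)
        (by have := H.Z_nonneg; positivity))) (abs_nonneg _) H.Kc_nonneg
    have e3 : |P.force x g t ⟨i, rfl⟩| ≤ k * i.blk.mu ^ 2 * (K₀ * N) := by
      refine (hcoord _).trans ((P.norm_force_le x g ht).trans (hsum.trans ?_))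
      show 1 / 2 * (k * muL g / 2 * muL g) * ‖x‖ ≤ _
      calc 1 / 2 * (k * muL g / 2 * muL g) * ‖x‖ ≤ k * muL g ^ 2 * (K₀ * N) := by
            refine mul_le_mul ?_ hx' (norm_nonneg _) (by positivity)
            nlinarith [mul_pos hk (pow_pos hμg 2)]
        _ ≤ _ := by gcongr
    show |l g t * insVal O h hm hz f₁ f₂ hf₁ hf₂ Am hAm hb p i t
      - c t * insDer O h hm hz f₁ f₂ hf₁ hf₂ Am hAm hb p i t + P.force x g t ⟨i, rfl⟩| ≤ _
    refine (abs_add_le _ _).trans ((add_le_add ((abs_sub _ _).trans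
      (add_le_add (le_of_eq (abs_mul _ _)) (le_of_eq (abs_mul _ _)))) e3).trans ?_)
    linarith
  have hZ := H.Z_nonneg
  have hΛ := H.Λ_nonneg
  have hKc := mul_nonneg H.Kc_nonneg (add_nonneg hZ zero_le_two)
  have hμs : 0 < i.blk.mu ^ s := pow_pos (zero_lt_one.trans_le hμ1) s
  have fin : ∀ {v C e : ℝ}, |v| ≤ C * K₀ * N * e → 0 ≤ C →
      C ≤ 2 + Z + Λ + k + Kc * (Z + 2) → e ≤ i.blk.mu ^ 2 →
      |v / i.blk.mu ^ s| ≤ insK k Z Λ Kc * N * (i.blk.mu ^ 2 / i.blk.mu ^ s) := by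
    intro v C e hv hC0 hC he
    rw [abs_div, abs_of_pos hμs, ← mul_div_assoc]
    refine div_le_div_of_nonneg_right (hv.trans ((mul_le_mul_of_nonneg_left he
      (by have := hK₀2; positivity)).trans ?_)) hμs.le
    show C * K₀ * N * i.blk.mu ^ 2 ≤ K₀ * (2 + Z + Λ + k + Kc * (Z + 2)) * N * i.blk.mu ^ 2
    rw [mul_comm K₀]
    gcongr
  fin_cases n
  · exact fin (v := insVal O h hm hz f₁ f₂ hf₁ hf₂ Am hAm hb p i t) (C := 1) (e := 1)
      (by simpa using hv) zero_le_one (by linarith)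
      (one_le_pow₀ hμ1)
  · exact fin (C := Z + 2) (e := i.blk.mu) hd (by linarith) (by linarith)
      (le_self_pow₀ hμ1 two_ne_zero)
  · exact fin (C := Λ + Kc * (Z + 2) + k) (e := i.blk.mu ^ 2) hdd (by linarith) (by linarith) le_rfl

/-- An insertion gives a piece when the operator on the window is the scalar of the level plus
the banded blocks. -/
def PieceSol.ins (hs : Am * O.size k m ≤ 1 / 2) (H : InsHyp a b c z drift l Z Λ Kc)
    (hA : InsOperator O f₁ f₂ A s a b l) : PieceSol A drift s where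
  a := a
  b := b
  le := h.le
  ρa i := z (levRep (i.blk.level 0)) a
  ρb i := ρ (levRep (i.blk.level 0))
  seg := O.segH h hm hz f₁ f₂ hf₁ hf₂ Am hAm hb
  K := insK k Z Λ Kc
  K_nonneg := insK_nonneg h.k_pos H.Z_nonneg H.Λ_nonneg H.Kc_nonneg
  fam := insFam O h hm hz f₁ f₂ hf₁ hf₂ Am hAm hb l s
  mode := insFam_mode O h hm hz f₁ f₂ hf₁ hf₂ Am hAm hb hs H hA
  bd := insFam_bd O h hm hz f₁ f₂ hf₁ hf₂ Am hAm hb hs H
  left _ _ _ _ hsol := (insFam_ends O h hm hz f₁ f₂ hf₁ hf₂ Am hAm hb hs l hsol).1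
  right _ _ _ _ hsol := (insFam_ends O h hm hz f₁ f₂ hf₁ hf₂ Am hAm hb hs l hsol).2

end

end Vale.Agent.P225.Asm
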