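import Vale.Agent.P225.Assembly.Final
import Vale.Agent.P225.Assembly.CapLink
import Vale.Agent.P225.Assembly.OpFamily
import Vale.Agent.P225.Assembly.PieceSols
import Vale.Agent.P225.Assembly.PieceSolsIns
import Vale.Agent.P225.Loop.LoopData
import Vale.Agent.P225.Model.PieceModelInst

/-!
P225 assembly (helper15): the analytic data of a late schedule of loop programs of the model.

Every piece of a good loop carries solutions of the mode equations of `opA` with the references of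
the schedule, and the cap family ends at the deviation `capR` from the reference of the first piece.
-/

namespace Vale.Agent.P225

open Set Filter
open Sphere.Pullback (wOp)

noncomputable section

/-- The frames are the weighted isometries of the junctions, the insertions below `Nf` the weighted
blocks of the model. -/
structure IsModelPM (Mo : PieceModel) (s Nf : ℕ) : Prop where
  Uu : ∀ J g, (Mo.frame J g).Uu = wOp (Alg.isoJ_moves J (Model.isoIdx g)) s
  Vu : ∀ J g, (Mo.frame J g).Vu = wOp (Alg.isoJInv_moves J (Model.isoIdx g)) s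
  Uw : ∀ J g, (Mo.frame J g).Uw = wOp (Alg.isoJ_moves J (Model.isoIdx g)) ((s : ℤ) - 1)
  Vw : ∀ J g, (Mo.frame J g).Vw = wOp (Alg.isoJInv_moves J (Model.isoIdx g)) ((s : ℤ) - 1)
  ins : ∀ f < Nf, Mo.ins f = (Model.nilOp f).weighted s

theorem isModelPM_modelPM (s Nf : ℕ) : IsModelPM (Model.modelPM s Nf) s Nf :=
  ⟨fun _ _ => rfl, fun _ _ => rfl, fun _ _ => rfl, fun _ _ => rfl, fun _ hf => if_pos hf⟩

/-! ### Chains with equal segments -/

theorem slopes_eq_of_segs {S S' : ℕ → Seg HSp} {R : HSp →L[ℝ] HSp} {n : ℕ}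
    (h : ∀ m < n, S m = S' m) : ∀ m ≤ n, slopes S R m = slopes S' R m
  | 0, _ => rfl
  | m + 1, hm => by
      show (S m).slopeMap (slopes S R m) = (S' m).slopeMap (slopes S' R m)
      rw [h m hm, slopes_eq_of_segs h m (Nat.le_of_succ_le hm)]

theorem backChain_eq_of_segs {S S' : ℕ → Seg HSp} {R : HSp →L[ℝ] HSp} {n : ℕ}
    (h : ∀ m < n, S m = S' m) : ∀ k i, i + k ≤ n → backChain S R i k = backChain S' R i k
  | 0, _, _ => rfl
  | k + 1, i, hik => by
      show ((S i).backMap (slopes S R i)).comp (backChain S R (i + 1) k) = _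
      rw [h i (by omega), slopes_eq_of_segs h i (by omega), backChain_eq_of_segs h k (i + 1) (by omega)]
      rfl

/-! ### The slope operator at the first start -/

variable {κ : ℝ} {C : CapData κ}

open Classical in
/-- The deviation of the regular slope from the reference at `t0`, relative to `mu`. -/
def CapCore.capR (h : CapCore C) (t0 : ℝ) : HSp →L[ℝ] HSp :=
  if hb : ∃ B : ℝ, 0 ≤ B ∧ ∀ i : St, |(h.slope0 t0 i - refSlope κ 0 t0 i) / i.blk.mu| ≤ B then
    diagOp (fun i => (h.slope0 t0 i - refSlope κ 0 t0 i) / i.blk.mu) hb.choose hb.choose_spec.1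
      hb.choose_spec.2
  else 0

theorem CapCore.capR_spec (h : CapCore C) {t0 B : ℝ} (hB : 0 ≤ B)
    (hd : ∀ i, |h.slope0 t0 i - refSlope κ 0 t0 i| ≤ B) :
    ‖h.capR t0‖ ≤ B ∧
      ∀ x i, h.capR t0 x i = (h.slope0 t0 i - refSlope κ 0 t0 i) / i.blk.mu * x i := by
  have hg : ∀ i : St, |(h.slope0 t0 i - refSlope κ 0 t0 i) / i.blk.mu| ≤ B := fun i => by
    have hμ := Blk.one_le_mu i.blk
    rw [abs_div, abs_of_pos (zero_lt_one.trans_le hμ)]
    exact (div_le_self (abs_nonneg _) hμ).trans (hd i)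
  have he : h.capR t0 = diagOp _ B hB hg := by
    rw [CapCore.capR, dif_pos ⟨B, hB, hg⟩]
    refine ContinuousLinearMap.ext fun x => ?_
    ext i
    simp only [diagOp_apply]
  rw [he]
  exact ⟨norm_diagOp_le _ _ _ _, fun x i => diagOp_apply _ _ _ _ x i⟩

/-- The cap family in terms of the reference of the schedule. -/
theorem CapCore.capFam_end_ref (h : CapCore C) (s : ℕ) {t0 B : ℝ} (hB : 0 ≤ B)
    (hd : ∀ i, |h.slope0 t0 i - refSlope κ 0 t0 i| ≤ B) (x : HSp) :
    Asm.EndData s (h.capFam s t0 x) t0 (refSlope κ 0 t0) x (h.capR t0 x) := by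
  obtain ⟨h1, h2⟩ := h.capFam_end s t0 x
  refine ⟨h1, fun i => ?_⟩
  have hμ : i.blk.mu ≠ 0 := (zero_lt_one.trans_le (Blk.one_le_mu _)).ne'
  rw [h2 i, (h.capR_spec hB hd).2 x i]
  congr 1
  simp only [lp.coeFn_zero, Pi.zero_apply, mul_zero, zero_add]
  field_simp
  ring

/-! ### Pieces -/

/-- Bound of the constants of all pieces. -/
def sysK (Cc : ℝ) (s : ℕ) : ℝ :=
  Asm.diagK (1 / 10) (6 + max (3 * Cc) 0) 30 6 * 2 ^ (2 * s + 4)
    + Asm.insK (1 / 10) (2 * (6 + max (3 * Cc) 0)) 120 6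

theorem diagK_le_sysK (Cc : ℝ) (s : ℕ) :
    Asm.diagK (1 / 10) (6 + max (3 * Cc) 0) 30 6 ≤ sysK Cc s ∧
      Asm.diagK (1 / 10) (6 + max (3 * Cc) 0) 30 6 * 2 ^ (2 * s + 4) ≤ sysK Cc s ∧
      Asm.insK (1 / 10) (2 * (6 + max (3 * Cc) 0)) 120 6 ≤ sysK Cc s := by
  have hm : 0 ≤ 6 + max (3 * Cc) 0 := by positivity
  have h1 := Asm.diagK_nonneg (k := 1 / 10) (Λ := 30) (Kc := 6) (by norm_num) hm (by norm_num)
    (by norm_num)
  have h2 := Asm.insK_nonneg (k := 1 / 10) (Λ := 120) (Kc := 6) (by norm_num)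
    (mul_nonneg zero_le_two hm) (by norm_num) (by norm_num)
  have h3 : (1 : ℝ) ≤ 2 ^ (2 * s + 4) := one_le_pow₀ one_le_two
  have h4 := le_mul_of_one_le_right h1 h3
  refine ⟨?_, ?_, ?_⟩ <;> unfold sysK <;> linarith

variable {W : LoopSpec} {P0 j0 : ℕ} {t0 : ℝ} {ht : 1 ≤ t0} {τ : Params} {s Nf : ℕ}
variable {Mo : PieceModel} {Cc K ε Ra : ℝ}

open Asm in
/-- Every piece of a good loop as a solved segment with the references of the schedule. -/
theorem exists_pieceSol (hκ : 0 ≤ κ) (hC : 0 ≤ Cc) (hW : W.Ok P0) (hMo : IsModelPM Mo s Nf)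
    (hins : ∀ j f k, Piece.ins f k ∈ W.corr j → f < Nf)
    (H : EndHyps C (W.sched j0 t0 ht) Model.modelF τ) (hamp : (W.sched j0 t0 ht).AmpOk τ Ra ε)
    (hε : 6 * ε * Mo.Ks ≤ 1) {i m : ℕ} (hm : m < (W.prog (j0 + i)).length)
    (hg : (W.sched j0 t0 ht).SegGood κ Cc K ε Mo τ (W.corr (j0 + i)).length i m
      ((W.prog (j0 + i))[m])) :
    ∃ P : PieceSol (opA C (W.sched j0 t0 ht) Model.modelF τ) (endDrift C (W.sched j0 t0 ht)) s,
      P.a = (W.sched j0 t0 ht).pieceStart i m ∧ P.b = (W.sched j0 t0 ht).pieceStart i (m + 1) ∧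
      P.ρa = (W.sched j0 t0 ht).startRef κ i m ∧ P.ρb = (W.sched j0 t0 ht).endRef κ i m ∧
      P.seg = (W.sched j0 t0 ht).seg κ Cc Mo τ i m ∧ P.K ≤ sysK Cc s := by
  set S := W.sched j0 t0 ht with hS
  set a := S.pieceStart i m with hadef
  have hb : S.pieceStart i (m + 1) = a + ((W.prog (j0 + i))[m]).len (j0 + i) :=
    S.pieceStart_succ i m hm
  have h0 : S.t0 ≤ a := PieceOps.t0_le_pieceStart H i m
  have hl := H.late
  have ha : 0 < a := by linarith [S.one_le_t0]
  have hT := C.T_pos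
  have g := hg.good
  have hdrift : ∀ t ∈ Icc a (a + ((W.prog (j0 + i))[m]).len (j0 + i)),
      endDrift C S t = cDrift κ t := fun t htt => H.drift_end (by linarith [htt.1])
  have hL1 : (1 : ℝ) ≤ (((j0 + i : ℕ) : ℝ) + 1) ^ 5 :=
    one_le_pow₀ (le_add_of_nonneg_left (Nat.cast_nonneg _))
  have hnear : ∀ k, ∀ t ∈ Icc a (a + ((W.prog (j0 + i))[m]).len (j0 + i)),
      |S.slope κ τ i m k t - Ode.alphaFn (cDrift κ t)
        (pieceLam κ ((W.prog (j0 + i))[m]) (j0 + i) (τ i) a k t)| ≤ 3 * Cc := fun k t htt =>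
    (g.near k t htt).trans (div_le_self (by linarith) hL1)
  have hode : ∀ k, ∀ t ∈ Icc a (a + ((W.prog (j0 + i))[m]).len (j0 + i)),
      ∃ z', HasDerivAt (S.slope κ τ i m k) z' t ∧
        z' + S.slope κ τ i m k t ^ 2 + cPiece κ a t * S.slope κ τ i m k t
          = pieceLam κ ((W.prog (j0 + i))[m]) (j0 + i) (τ i) a k t := fun k =>
    (g.is_slope k).ode
  have hz0 : (fun k => S.slope κ τ i m k a) = S.startRef κ i m :=
    funext fun k => (g.is_slope k).start
  have hD : DiagHyp a (a + ((W.prog (j0 + i))[m]).len (j0 + i)) (cPiece κ a) (S.slope κ τ i m)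
      (endDrift C S) (fun k t => pieceLam κ ((W.prog (j0 + i))[m]) (j0 + i) (τ i) a k t)
      (6 + max (3 * Cc) 0) 30 6 :=
    diagHyp_piece hκ ha g.wide g.drift hnear hode hdrift
  obtain ⟨hK1, hK2, hK3⟩ := diagK_le_sysK Cc s
  have hdiag : ((W.prog (j0 + i))[m]).isExc = false →
      (∀ f k, (W.prog (j0 + i))[m] ≠ Piece.ins f k) →
      ∃ P : PieceSol (opA C S Model.modelF τ) (endDrift C S) s,
        P.a = a ∧ P.b = S.pieceStart i (m + 1) ∧
        P.ρa = S.startRef κ i m ∧ P.ρb = S.endRef κ i m ∧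
        P.seg = S.seg κ Cc Mo τ i m ∧ P.K ≤ sysK Cc s := fun he hi =>
    ⟨PieceSol.diag g.fam hD (Model.opA_diag H (show m < (S.prog (S.j0 + i)).length from hm) rfl
      he hi), rfl, hb.symm, hz0, rfl, (hg.diag he hi).symm, hK1⟩
  rcases hP : (W.prog (j0 + i))[m] with ⟨J, q⟩ | ⟨J, g', k⟩ | J | J | ⟨f, k⟩
  · exact hdiag (by rw [hP]; rfl) (by rw [hP]; simp)
  · -- excursion
    set e := Model.isoIdx g' with he
    have hA := Model.opA_exc H (show m < (S.prog (S.j0 + i)).length from hm) rfl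
      (show (S.prog (S.j0 + i))[m] = Piece.exc J g' k from hP)
    obtain ⟨hra, hrb⟩ := g.exc_ref (by rw [hP]; rfl)
    refine ⟨PieceSol.conj g.fam (Alg.isoJInv_moves J e) (Alg.isoJ_moves J e)
      (Alg.isoJ_inverse J e).1 (Alg.isoJ_inverse J e).2 hD (S.startRef κ i m) (S.endRef κ i m)
      (fun n j h => ?_) (fun n j h => ?_) hA, rfl, hb.symm, rfl, rfl, ?_, hK2⟩
    · rw [(g.is_slope n).start, hra, hP]
      exact refSlope_level κ J _ h
    · rw [hrb, hP]
      exact refSlope_level κ J _ h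
    · rw [hg.exc J g' k hP, hMo.Uu, hMo.Vu, hMo.Uw, hMo.Vw]
      rfl
  · exact hdiag (by rw [hP]; rfl) (by rw [hP]; simp)
  · exact hdiag (by rw [hP]; rfl) (by rw [hP]; simp)
  · -- insertion
    obtain ⟨hr, hseg, hlev⟩ := hg.ins f k hP
    have hmc := ins_mem_corr hW hm hP
    have hf : f < Nf := by
      refine hins (j0 + i) f k ?_
      rcases W.prog_getElem (j0 + i) m hm with ⟨h', e⟩ | ⟨h', -⟩ | ⟨h', -⟩ | ⟨-, h', -⟩ | ⟨h', -⟩ |
        ⟨h', -⟩
      · rw [← hP, e]; exact List.getElem_mem h'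
      all_goals omega
    have hτ : |τ i k| ≤ ε := by
      have h1 : ((W.prog (j0 + i))[m]).AmpOk (τ i) Ra ε := hamp i m hm
      rw [hP] at h1
      exact h1
    have hKs := Mo.Ks_nonneg
    have hsz : 3 * |τ i k| * (Mo.ins f).size (1 / 10) (1 / 16) ≤ 1 / 2 :=
      calc 3 * |τ i k| * (Mo.ins f).size (1 / 10) (1 / 16) ≤ 3 * ε * Mo.Ks :=
            mul_le_mul (by linarith) (Mo.size_le f)
              ((Mo.ins f).size_nonneg (by norm_num) (by norm_num))
              (by linarith [abs_nonneg (τ i k)])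
        _ ≤ 1 / 2 := by linarith
    have hmu : ∀ g : ℕ × ℕ, (levRep g).blk.mu ≤ 2 * muL g := fun g => by
      have := mu_le_muL (levRep g)
      rwa [levRep_level] at this
    have hH : InsHyp a (a + ((W.prog (j0 + i))[m]).len (j0 + i)) (cPiece κ a) (S.slope κ τ i m)
        (endDrift C S) (fun g t => pieceLam κ ((W.prog (j0 + i))[m]) (j0 + i) (τ i) a (levRep g) t)
        (2 * (6 + max (3 * Cc) 0)) 120 6 :=
      { ode := fun g => hD.ode (levRep g)
        cont_l := fun g => hD.cont_l (levRep g)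
        drift_eq := hD.drift_eq
        Z_nonneg := mul_nonneg zero_le_two hD.Z_nonneg
        Λ_nonneg := by norm_num
        Kc_nonneg := hD.Kc_nonneg
        z_le := fun g t htt => (hD.z_le (levRep g) t htt).trans (by
          rw [mul_comm 2 (6 + max (3 * Cc) 0), mul_assoc]
          exact mul_le_mul_of_nonneg_left (hmu g) hD.Z_nonneg)
        l_le := fun g t htt => (hD.l_le (levRep g) t htt).trans (by
          nlinarith [pow_le_pow_left₀ (zero_le_one.trans (Blk.one_le_mu _)) (hmu g) 2])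
        c_le := hD.c_le }
    have hOp : InsOperator (Mo.ins f)
        (insF₁ κ (τ i k) (((W.prog (j0 + i))[m]).len (j0 + i)) a)
        (insF₂ κ (τ i k) (((W.prog (j0 + i))[m]).len (j0 + i)) a) (opA C S Model.modelF τ) s a
        (a + ((W.prog (j0 + i))[m]).len (j0 + i))
        (fun g t => pieceLam κ ((W.prog (j0 + i))[m]) (j0 + i) (τ i) a (levRep g) t) := by
      have h1 := Model.opA_ins H (show m < (S.prog (S.j0 + i)).length from hm) rfl (s := s)
        (Nf := Nf) (show (S.prog (S.j0 + i))[m] = Piece.ins f k from hP) hf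
      rw [Model.modelIns, if_pos hf, ← hMo.ins f hf] at h1
      rw [show (fun g t => pieceLam κ ((W.prog (j0 + i))[m]) (j0 + i) (τ i) a (levRep g) t)
          = fun g t => scaleFun κ t * (Blk.cas g.1 + Blk.cas g.2) by
        funext g t; rw [hP, pieceLam_ins]; rfl]
      exact h1
    refine ⟨PieceSol.ins (Mo.ins f) hr.fam (by norm_num) hr.low _ _ hr.cont.1 hr.cont.2
      (3 * |τ i k|) (by positivity) hr.bd hsz hH ?_, rfl, hb.symm, funext fun n => ?_,
      funext fun n => ?_, ?_, hK3⟩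
    · exact hOp
    · show S.slope κ τ i m (levRep (n.blk.level 0)) a = _
      rw [← hlev n a (left_mem_Icc.2 hr.fam.le), (g.is_slope n).start]
    · exact (g.end_level (Or.inl hmc.le) n (levRep (n.blk.level 0)) (levRep_level _).symm).symm
    · rw [hseg, insSegOf_eq _ hr]
      rfl

/-! ### The system -/

/-- **The analytic data of a schedule with good loops.** -/
theorem exists_endSystem (h : CapCore C) (hs : 19 ≤ s) (hC : 0 ≤ Cc) (hK : 1 ≤ K) (hε0 : 0 ≤ ε)
    (hW : W.Ok P0) (hMo : IsModelPM Mo s Nf)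
    (hins : ∀ j f k, Piece.ins f k ∈ W.corr j → f < Nf)
    (H : EndHyps C (W.sched j0 t0 ht) Model.modelF τ) (hamp : (W.sched j0 t0 ht).AmpOk τ Ra ε)
    (hε : 6 * ε * Mo.Ks ≤ 1) {B : ℝ} (hB : 0 ≤ B)
    (hnear : ∀ i, |h.slope0 t0 i - refSlope κ 0 t0 i| ≤ B)
    (hgood : ∀ i, W.LoopGood κ Cc Mo j0 t0 ht τ K ε i
      (W.slopeR κ Cc Mo j0 t0 ht τ (h.capR t0) i)) :
    ∃ Z : EndSystem C (W.sched j0 t0 ht) Model.modelF τ s 10,
      Z.L.R = W.slopeR κ Cc Mo j0 t0 ht τ (h.capR t0) ∧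
      (∀ i, Z.L.back i = W.loopBack κ Cc Mo j0 t0 ht τ (h.capR t0) i) ∧
      (∀ i, Z.L.len i = (W.prog (j0 + i)).length) ∧
      ∀ i, ∀ m < (W.prog (j0 + i)).length,
        Asm.segsOf (Z.L.S i) m = W.segs κ Cc Mo j0 t0 ht τ i m := by
  set S := W.sched j0 t0 ht with hS
  set R := W.slopeR κ Cc Mo j0 t0 ht τ (h.capR t0) with hR
  have hne : ∀ i, 0 < (W.prog (j0 + i)).length := fun i => by rw [W.prog_length]; omega
  have hex : ∀ i m, ∃ P : Asm.PieceSol (opA C S Model.modelF τ) (endDrift C S) s,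
      m < (W.prog (j0 + i)).length →
        P.a = S.pieceStart i m ∧ P.b = S.pieceStart i (m + 1) ∧ P.ρa = S.startRef κ i m ∧
        P.ρb = S.endRef κ i m ∧ P.seg = W.segs κ Cc Mo j0 t0 ht τ i m ∧ P.K ≤ sysK Cc s := by
    intro i m
    by_cases hm : m < (W.prog (j0 + i)).length
    · obtain ⟨P, hP⟩ := exists_pieceSol h.κ_nonneg hC hW hMo hins H hamp hε hm
        ((hgood i).piece m hm)
      exact ⟨P, fun _ => hP⟩
    · obtain ⟨P, -⟩ := exists_pieceSol h.κ_nonneg hC hW hMo hins H hamp hε (hne i)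
        ((hgood i).piece 0 (hne i))
      exact ⟨P, fun h' => absurd h' hm⟩
  choose PS hPS using hex
  have hseg : ∀ i, ∀ m < (W.prog (j0 + i)).length,
      Asm.segsOf (PS i) m = W.segs κ Cc Mo j0 t0 ht τ i m := fun i m hm => (hPS i m hm).2.2.2.2.1
  have hsl : ∀ i, ∀ m ≤ (W.prog (j0 + i)).length,
      slopes (Asm.segsOf (PS i)) (R i) m = slopes (W.segs κ Cc Mo j0 t0 ht τ i) (R i) m := fun i =>
    slopes_eq_of_segs (hseg i)
  set L : Asm.LoopData (opA C S Model.modelF τ) (endDrift C S) s :=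
    { S := PS
      len := fun i => (W.prog (j0 + i)).length
      R := R
      t := S.start
      ρ := fun i => S.startRef κ i 0
      cap := h.capFam s t0 } with hL
  have hstart : S.start 0 = t0 := by simp [Sched.start, hS, LoopSpec.sched]
  have hρ0 : S.startRef κ 0 0 = refSlope κ 0 t0 := by
    rw [Sched.startRef, Sched.entryRef, dif_pos (show 0 < (S.prog (S.j0 + 0)).length from hne 0),
      if_neg]
    · show refSlope κ 0 (S.start 0) = _
      rw [hstart]
    · show ¬ ((W.prog (j0 + 0))[0]'(hne 0)).restarts = true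
      obtain ⟨l, hl⟩ := List.head?_eq_some_iff.1 (hW.corr_head j0)
      simp [LoopSpec.prog, loopProg, hl, Piece.restarts, Piece.isExc, Piece.power]
  have hok : L.OK := by
    refine ⟨fun i => ⟨hne i, fun m hm => ?_, fun m hm => ?_, fun m hm => ?_⟩, fun i => ?_,
      fun i => ?_, fun i => ?_, fun i => ?_, fun i => ?_, ?_, ?_, fun x => ?_, fun x => ?_,
      fun x T₀ => ⟨‖x‖ * h.famC, ?_⟩⟩
    · show (PS i m).b = (PS i (m + 1)).a
      rw [(hPS i m (Nat.lt_of_succ_lt hm)).2.1, (hPS i (m + 1) hm).1]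
    · show (PS i m).ρb = (PS i (m + 1)).ρa
      rw [(hPS i m (Nat.lt_of_succ_lt hm)).2.2.2.1, (hPS i (m + 1) hm).2.2.1,
        S.startRef_succ κ (show m + 1 < (S.prog (S.j0 + i)).length from hm)]
    · show ‖(Asm.segsOf (PS i) m).B.comp (slopes (Asm.segsOf (PS i)) (R i) m)‖ < 1
      rw [hseg i m hm, hsl i m (le_of_lt hm)]
      linarith [((hgood i).step m hm).1]
    · show (PS i 0).a = S.start i
      rw [(hPS i 0 (hne i)).1, S.pieceStart_zero]
    · show (PS i ((W.prog (j0 + i)).length - 1)).b = S.start (i + 1)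
      rw [(hPS i _ (Nat.sub_lt (hne i) one_pos)).2.1, Nat.sub_add_cancel
        (show 1 ≤ (W.prog (j0 + i)).length from hne i)]
      exact S.pieceStart_length i
    · exact (hPS i 0 (hne i)).2.2.1
    · show (PS i ((W.prog (j0 + i)).length - 1)).ρb = S.startRef κ (i + 1) 0
      rw [(hPS i _ (Nat.sub_lt (hne i) one_pos)).2.2.2.1]
      exact S.startRef_loop κ (Nat.sub_add_cancel (show 1 ≤ (W.prog (j0 + i)).length from hne i))
    · show R (i + 1) = slopes (Asm.segsOf (PS i)) (R i) (W.prog (j0 + i)).length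
      rw [hsl i _ le_rfl]
      rfl
    · refine strictMono_nat_of_lt_succ fun i => ?_
      show S.start i < S.start (i + 1)
      rw [S.start_succ]
      have h1 := W.hold_le_loopLen j0 t0 ht (j0 + i)
      have h2 : (0 : ℝ) < (((j0 + i : ℕ) : ℝ) + 1) ^ 7 := by positivity
      linarith [show (((j0 + i : ℕ) : ℝ) + 1) ^ 7 ≤ S.loopLen (S.j0 + i) from h1]
    · exact tendsto_atTop_mono (S.natCast_le_start H.ne) tendsto_natCast_atTop_atTop
    · show Asm.FamSol _ _ (Iic (S.start 0)) (h.capFam s t0 x)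
      rw [hstart]
      exact h.capFam_sol s t0 (fun t htt l => PieceOps.opA_cap H htt l)
        (fun t htt => capDrift_eq_endD C H.late htt) x
    · show Asm.EndData s (h.capFam s t0 x) (S.start 0) (S.startRef κ 0 0) x (h.capR t0 x)
      rw [hstart, hρ0]
      exact h.capFam_end_ref s hB hnear x
    · show Asm.FamBd s (Icc T₀ (S.start 0)) _ (h.capFam s t0 x)
      rw [hstart]
      exact (h.capFam_bd s t0 x).mono Icc_subset_Iic_self le_rfl
  obtain ⟨hle, hcore⟩ := h.cap_le_and_core hs L hok (by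
    show h.capFam s t0 = h.capFam s (S.start 0)
    rw [hstart])
  have hu : ∀ i : ℕ, 1 / (((j0 + i : ℕ) : ℝ) + 1) ^ 5 + ε ≤ 1 + ε := fun i =>
    add_le_add ((div_le_one (by positivity)).2
      (one_le_pow₀ (le_add_of_nonneg_left (Nat.cast_nonneg _)))) le_rfl
  refine ⟨{ A := opA C S Model.modelF τ
            crossEq := Model.modelOps.crossEq H
            opBound := Model.modelOps.opBound H
            L := L
            ok := hok
            start_eq := rfl
            K := max (K * (1 + ε)) (sysK Cc s)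
            one_le_K := le_max_of_le_left (one_le_mul_of_one_le_of_one_le hK (by linarith))
            len := 2 * P0 + 4
            len_le := fun i => ?_
            piece_le := fun i m hm => (hPS i m hm).2.2.2.2.2.trans (le_max_right _ _)
            back_le := fun i m hm => ?_
            slope_le := fun i m hm => ?_
            cap_le := hle
            core := hcore }, rfl, fun i => ?_, fun i => rfl, hseg⟩
  · show (W.prog (j0 + i)).length ≤ _
    rw [W.prog_length]
    have := hW.corr_len (j0 + i)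
    have := hW.ctrl_len (j0 + i)
    omega
  · show ‖(Asm.segsOf (PS i) m).backMap (slopes (Asm.segsOf (PS i)) (R i) m)‖ ≤ _
    rw [hseg i m hm, hsl i m (le_of_lt hm)]
    exact (((hgood i).step m hm).2.1.trans
      (le_mul_of_one_le_right (by linarith) (by linarith))).trans (le_max_left _ _)
  · show ‖slopes (Asm.segsOf (PS i)) (R i) m‖ ≤ _
    rw [hsl i m (le_of_lt hm)]
    exact (((hgood i).step m hm).2.2.trans
      (mul_le_mul_of_nonneg_left (hu i) (by linarith))).trans (le_max_left _ _)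
  · show backChain (Asm.segsOf (PS i)) (R i) 0 (W.prog (j0 + i)).length = _
    rw [backChain_eq_of_segs (hseg i) _ 0 (by omega)]
    rfl

/-- **Late schedules.** All hypotheses of the system for late schedules with small insertions. -/
theorem exists_endSystem_late (h : CapCore C) (Ra A₀ : ℝ) (hs : 19 ≤ s) (hMo : IsModelPM Mo s Nf)
    (P0 : ℕ) :
    ∃ (N : ℕ) (Cc K ε₀ A : ℝ), 0 ≤ Cc ∧ 1 ≤ K ∧ 0 < ε₀ ∧ 1 ≤ A ∧ A₀ ≤ A ∧
      ∀ (W : LoopSpec), W.Ok P0 → (∀ j f k, Piece.ins f k ∈ W.corr j → f < Nf) →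
      ∀ (j0 : ℕ) (t0 : ℝ) (ht : 1 ≤ t0), N ≤ j0 → 2 * ((j0 : ℝ) + 1) ^ 5 ≤ t0 →
      ∀ (τ : Params) (ε : ℝ), 0 ≤ ε → ε ≤ ε₀ → (W.sched j0 t0 ht).AmpOk τ Ra ε →
        EndHyps C (W.sched j0 t0 ht) Model.modelF τ ∧
        ‖h.capR t0‖ ≤ A * (1 / ((j0 : ℝ) + 1) ^ 5 + ε) ∧
        (∀ i R, ‖R‖ ≤ A * (1 / (((j0 + i : ℕ) : ℝ) + 1) ^ 5 + ε) →
          W.LoopGood κ Cc Mo j0 t0 ht τ K ε i R) ∧
        (∀ i, W.LoopGood κ Cc Mo j0 t0 ht τ K ε i
          (W.slopeR κ Cc Mo j0 t0 ht τ (h.capR t0) i)) ∧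
        ∃ Z : EndSystem C (W.sched j0 t0 ht) Model.modelF τ s 10,
          Z.L.R = W.slopeR κ Cc Mo j0 t0 ht τ (h.capR t0) ∧
          (∀ i, Z.L.back i = W.loopBack κ Cc Mo j0 t0 ht τ (h.capR t0) i) ∧
          (∀ i, Z.L.len i = (W.prog (j0 + i)).length) ∧
          ∀ i, ∀ m < (W.prog (j0 + i)).length,
            Asm.segsOf (Z.L.S i) m = W.segs κ Cc Mo j0 t0 ht τ i m := by
  obtain ⟨N₁, A₁, hA₁, hnear⟩ := h.exists_slope0_near
  obtain ⟨N₂, Cc, K, ε₁, hC, hK, hε₁, hloop⟩ :=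
    LoopSpec.exists_loopGood κ Ra (max (max A₁ A₀) 1) h.κ_nonneg (le_max_right _ _) Mo P0
  obtain ⟨N₃, hN₃⟩ := exists_nat_ge (max (2 * C.T + 1) (4 * Ra))
  have hKs := Mo.Ks_nonneg
  refine ⟨max (max N₁ N₂) N₃, Cc, K, min ε₁ (1 / (6 * (Mo.Ks + 1))), max (max A₁ A₀) 1, hC, hK,
    lt_min hε₁ (by positivity), le_max_right _ _, (le_max_right _ _).trans (le_max_left _ _), ?_⟩
  intro W hW hins j0 t0 ht hj ht0 τ ε hε0 hε hamp
  simp only [max_le_iff] at hj hN₃
  obtain ⟨⟨hj1, hj2⟩, hj3⟩ := hj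
  set L := ((j0 : ℝ) + 1) ^ 5
  have hb : 1 ≤ L := one_le_pow₀ (le_add_of_nonneg_left (Nat.cast_nonneg _))
  have hN : (N₃ : ℝ) ≤ L := ((Nat.cast_le.2 hj3).trans (le_add_of_nonneg_right zero_le_one)).trans
    (le_self_pow₀ (le_add_of_nonneg_left (Nat.cast_nonneg _)) (by norm_num))
  have hεK : 6 * ε * Mo.Ks ≤ 1 := by
    have h1 := hε.trans (min_le_right _ _)
    rw [le_div_iff₀ (by positivity)] at h1
    linarith [mul_nonneg hε0 (zero_le_one (α := ℝ))]
  have H : EndHyps C (W.sched j0 t0 ht) Model.modelF τ :=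
    { model := Model.modelSmooth
      ne := W.prog_ne
      chained := LoopSpec.chained hW j0 t0 ht
      small := W.small ht (by linarith) hamp
      late := by
        show 2 * C.T + 1 ≤ t0
        linarith }
  obtain ⟨hg1, hg2⟩ := hloop W hW j0 t0 ht hj2 ht0 τ ε hε0 (hε.trans (min_le_left _ _)) hamp
  have hd := hnear j0 t0 hj1 ht0
  have hB : 0 ≤ A₁ / L := by positivity
  have hR0 : ‖h.capR t0‖ ≤ max (max A₁ A₀) 1 * (1 / L + ε) :=
    calc ‖h.capR t0‖ ≤ A₁ / L := (h.capR_spec hB hd).1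
      _ = A₁ * (1 / L) := by ring
      _ ≤ _ := mul_le_mul ((le_max_left _ _).trans (le_max_left _ _)) (le_add_of_nonneg_right hε0)
          (by positivity)
          (le_max_of_le_right zero_le_one)
  exact ⟨H, hR0, hg1, hg2 _ hR0,
    exists_endSystem h hs hC hK hε0 hW hMo hins H hamp hεK hB hd (hg2 _ hR0)⟩

end

end Vale.Agent.P225
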