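import Vale.Agent.P225.Assembly.Recursion
import Vale.Agent.P225.Assembly.System
import Vale.Agent.P225.Loop.HoldExp

/-!
P225 assembly (helper15): a first loop without corrector, excursion or junction is diagonal, so it
has the block form of a loop with the identity as permutation.
-/

open Set

namespace Vale.Agent.P225

noncomputable section

/-! ### Diagonal operators -/

/-- An operator is diagonal with entries `t`. -/
def IsDiag (T : HSp →L[ℝ] HSp) (t : St → ℝ) : Prop := ∀ x i, T x i = t i * x i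

namespace IsDiag

variable {T S : HSp →L[ℝ] HSp} {t s : St → ℝ}

theorem one : IsDiag 1 fun _ => 1 := fun _ _ => (one_mul _).symm

protected theorem comp (hT : IsDiag T t) (hS : IsDiag S s) :
    IsDiag (T.comp S) fun i => t i * s i := fun x i => by
  rw [ContinuousLinearMap.comp_apply, hT, hS, mul_assoc]

theorem abs_le (hT : IsDiag T t) (i : St) : |t i| ≤ ‖T‖ := by
  have h := (lp.norm_apply_le_norm (by norm_num) (T (lp.single 2 i 1)) i).trans
    (T.le_opNorm (lp.single 2 i 1 : HSp))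
  rw [lp.norm_single (by norm_num), norm_one, mul_one, Real.norm_eq_abs, hT,
    lp.single_apply_self, mul_one] at h
  exact h

theorem norm_le (hT : IsDiag T t) {M : ℝ} (hM : 0 ≤ M) (h : ∀ i, |t i| ≤ M) : ‖T‖ ≤ M := by
  have e : T = diagOp t M hM h := by
    refine ContinuousLinearMap.ext fun x => ?_
    ext i
    rw [diagOp_apply, hT]
  exact e ▸ norm_diagOp_le _ _ _ _

end IsDiag

theorem isDiag_diagOp (g : St → ℝ) (K : ℝ) (hK : 0 ≤ K) (hg : ∀ i, |g i| ≤ K) :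
    IsDiag (diagOp g K hK hg) g := fun x i => diagOp_apply g K hK hg x i

/-- One diagonal segment with a diagonal incoming slope. -/
theorem DiagCoef.isDiag_step (P : DiagCoef) {R : HSp →L[ℝ] HSp} {r : St → ℝ} (hR : IsDiag R r)
    (h : ‖P.seg.B.comp R‖ ≤ 1 / 2) :
    ∃ f g : St → ℝ, IsDiag (P.seg.backMap R) (fun i => P.q i * f i) ∧
      IsDiag (P.seg.slopeMap R) g ∧ ∀ i, 1 / 2 ≤ f i ∧ f i ≤ 2 := by
  have hBR : IsDiag (P.seg.B.comp R) fun i => P.b i * r i :=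
    (isDiag_diagOp P.b P.Kb P.Kb_nonneg P.b_le).comp hR
  have hd : ∀ i, 1 / 2 ≤ 1 - P.b i * r i ∧ 1 - P.b i * r i ≤ 2 := fun i => by
    obtain ⟨h1, h2⟩ := abs_le.1 ((hBR.abs_le i).trans h)
    constructor <;> linarith
  have hb : IsDiag (P.seg.backMap R) fun i => P.q i * (1 / (1 - P.b i * r i)) := fun x i => by
    have e := congrArg (fun y : HSp => y i) (neumann_mul (h.trans_lt (by norm_num)) (P.seg.Q x))
    simp only [sub_apply, one_apply_eq_self, lp.coeFn_sub,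
      Pi.sub_apply] at e
    rw [hBR, DiagCoef.seg_Q] at e
    have hne : 1 - P.b i * r i ≠ 0 := by linarith [(hd i).1]
    show neumann (P.seg.B.comp R) (P.seg.Q x) i = _
    field_simp
    linear_combination e
  refine ⟨fun i => 1 / (1 - P.b i * r i),
    fun i => P.c i + P.d i * r i * (P.q i * (1 / (1 - P.b i * r i))), hb, fun x i => ?_, fun i => ?_⟩
  · rw [Seg.slopeMap, _root_.add_apply, lp.coeFn_add, Pi.add_apply, DiagCoef.seg_C,
      ContinuousLinearMap.comp_apply, ContinuousLinearMap.comp_apply, DiagCoef.seg_D, hR, hb]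
    ring
  · obtain ⟨h1, h2⟩ := hd i
    rw [le_div_iff₀ (by linarith), div_le_iff₀ (by linarith)]
    constructor <;> linarith

/-- A chain of diagonal segments with factors `q`. -/
theorem isDiag_backChain {S : ℕ → Seg HSp} {R : HSp →L[ℝ] HSp} {r : St → ℝ} {n : ℕ}
    {q : ℕ → St → ℝ} (hR : IsDiag R r)
    (hS : ∀ m < n, (∃ P : DiagCoef, S m = P.seg ∧ P.q = q m) ∧
      ‖(S m).B.comp (slopes S R m)‖ ≤ 1 / 2) :
    ∀ k i, i + k ≤ n → ∃ F : St → ℝ,
      IsDiag (backChain S R i k) (fun s => (∏ m ∈ Finset.Ico i (i + k), q m s) * F s) ∧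
      ∀ s, (1 / 2) ^ k ≤ F s ∧ F s ≤ 2 ^ k := by
  have hsl : ∀ m ≤ n, ∃ g, IsDiag (slopes S R m) g := by
    intro m
    induction m with
    | zero => exact fun _ => ⟨r, hR⟩
    | succ m ih =>
      intro hm
      obtain ⟨g, hg⟩ := ih (by omega)
      obtain ⟨⟨P, hP, -⟩, hn⟩ := hS m (by omega)
      rw [hP] at hn
      obtain ⟨-, g', -, hg', -⟩ := P.isDiag_step hg hn
      exact ⟨g', by show IsDiag ((S m).slopeMap _) g'; rw [hP]; exact hg'⟩
  intro k
  induction k with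
  | zero => exact fun i _ => ⟨fun _ => 1, fun x s => by simp [backChain], fun s => by norm_num⟩
  | succ k ih =>
    intro i hik
    obtain ⟨F, hF, hFb⟩ := ih (i + 1) (by omega)
    obtain ⟨g, hg⟩ := hsl i (by omega)
    obtain ⟨⟨P, hP, hq⟩, hn⟩ := hS i (by omega)
    rw [hP] at hn
    obtain ⟨f, -, hf, -, hfb⟩ := P.isDiag_step hg hn
    refine ⟨fun s => f s * F s, fun x s => ?_, fun s => ?_⟩
    · show ((S i).backMap (slopes S R i)).comp (backChain S R (i + 1) k) x s = _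
      rw [hP, hf.comp hF x s]
      have e : ∏ m ∈ Finset.Ico i (i + (k + 1)), q m s
          = q i s * ∏ m ∈ Finset.Ico (i + 1) (i + 1 + k), q m s := by
        rw [Finset.prod_eq_prod_Ico_succ_bot (by omega), show i + (k + 1) = i + 1 + k by omega]
      simp only [e, hq]
      ring
    · obtain ⟨a1, a2⟩ := hfb s
      obtain ⟨b1, b2⟩ := hFb s
      rw [pow_succ', pow_succ']
      exact ⟨mul_le_mul a1 b1 (by positivity) (by linarith),
        mul_le_mul a2 b2 ((by positivity : (0 : ℝ) ≤ (1 / 2) ^ k).trans b1) (by norm_num)⟩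

/-! ### The block form of a diagonal loop -/

/-- The far states have exponents beyond `Mb + 1`. -/
theorem succ_le_alphaInf_of_far {Mb : ℕ} (hMb : 4 ≤ Mb) {i : St}
    (h : ¬(i.blk.la ≤ Mb ∧ i.blk.lb ≤ Mb)) : (Mb : ℝ) + 1 ≤ alphaInf i := by
  set a := i.blk.la
  set b := i.blk.lb
  have hl : ((Mb : ℝ) + 1) ^ 2 ≤ (Count.lev a b : ℝ) := by
    have h' : (Mb + 1) * (Mb + 1) ≤ Count.lev a b := by
      simp only [Count.lev]
      rcases not_and_or.1 h with h | h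
      · have : Mb + 1 ≤ a := by omega
        nlinarith
      · have : Mb + 1 ≤ b := by omega
        nlinarith
    rw [sq]; exact_mod_cast h'
  have hs : 2 ≤ sInf := Real.le_sqrt_of_sq_le (by norm_num [dMin])
  have hM : (4 : ℝ) ≤ Mb := by exact_mod_cast hMb
  have hsl : 2 * ((Mb : ℝ) + 1) ^ 2 ≤ sInf * Count.lev a b :=
    mul_le_mul hs hl (by positivity) sInf_nonneg
  show (Mb : ℝ) + 1 ≤ (Real.sqrt (25 + 4 * sInf * Count.lev a b) - 5) / 2
  rw [le_div_iff₀ two_pos, le_sub_iff_add_le]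
  exact Real.le_sqrt_of_sq_le (by nlinarith)

/-- The block form of a diagonal operator. -/
theorem loopStep_of_isDiag {Mb : ℕ} {E T6 T7 : ℝ} {Q : HSp →L[ℝ] HSp} {f : St → ℝ}
    (hQ : IsDiag Q f) (hin : ∀ s, s ∈ Loop.corrW Mb →
      0 < f s ∧ |Real.log (f s) + alphaInf s * T7| ≤ E * T6)
    (hfar : ∀ s, s ∉ Loop.corrW Mb → |f s| ≤ Real.exp (-((Mb : ℝ) - 1) * T7))
    (hbound : ((wMono Mb).card + (wAxis Mb).card : ℝ) * ‖Q‖ ≤ Real.exp T7) :
    LoopStep Mb (stepPerm 0) E T6 T7 Q := by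
  have hput : ∀ (u : {q : St // q ∈ wMono Mb} → ℝ) (v : {q : St // q ∈ wAxis Mb} → ℝ) (s : St),
      Q (putW (wMono Mb) u + putW (wAxis Mb) v) s
        = f s * ((if h : s ∈ wMono Mb then u ⟨s, h⟩ else 0)
          + if h : s ∈ wAxis Mb then v ⟨s, h⟩ else 0) := fun u v s => by
    rw [hQ, lp.coeFn_add, Pi.add_apply, putW_apply, putW_apply]
  have hdisj := disjoint_wMono_wAxis Mb
  have hF : ‖Q.comp (farP (wMono Mb) (wAxis Mb))‖ ≤ Real.exp (-((Mb : ℝ) - 1) * T7) := by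
    refine IsDiag.norm_le (t := fun s => if s ∈ wMono Mb ∪ wAxis Mb then 0 else f s)
      (fun x s => ?_) (Real.exp_pos _).le fun s => ?_
    · rw [ContinuousLinearMap.comp_apply, hQ, farP_apply]
      by_cases hs : s ∈ wMono Mb ∪ wAxis Mb
      · simp only [if_pos hs, mul_zero, zero_mul]
      · simp only [if_neg hs]
    · split_ifs with h
      · simpa using (Real.exp_pos _).le
      · exact hfar s h
  have hpick : ∀ U, ‖(pickW U).comp (Q.comp (farP (wMono Mb) (wAxis Mb)))‖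
      ≤ Real.exp (-((Mb : ℝ) - 1) * T7) := fun U =>
    (ContinuousLinearMap.opNorm_comp_le _ _).trans
      ((mul_le_mul (norm_pickW_le U) hF (norm_nonneg _) zero_le_one).trans_eq (one_mul _))
  refine ⟨⟨fun q => f q.1, fun _ => 1, fun q => ?_, fun u v q h => ?_⟩,
    ⟨fun q => f q.1, 0, fun q => hin _ (Finset.mem_union_right _ q.2), by simpa using
      (Real.exp_pos _).le, fun u v => funext fun q => ?_⟩, hpick _, hpick _, hbound,
    (ContinuousLinearMap.opNorm_comp_le _ _).trans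
      ((mul_le_mul (norm_farP_le _ _) hF (norm_nonneg _) zero_le_one).trans_eq (one_mul _))⟩
  · obtain ⟨h1, h2⟩ := hin _ (Finset.mem_union_left _ q.2)
    exact ⟨h1, abs_one, h2⟩
  · rw [pickW_apply, hput, dif_pos q.2, dif_neg (Finset.disjoint_left.1 hdisj q.2), add_zero,
      one_mul]
    rfl
  · rw [pickW_apply, hput, dif_neg (Finset.disjoint_right.1 hdisj q.2), dif_pos q.2, zero_add]
    simp

/-! ### The first loop -/

namespace LoopSpec

/-- The slope along a short piece of a good loop costs at most a multiple of its length. -/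
theorem log_coefQ_le {S : Sched} {κ C : ℝ} {τ : Params} {c i m : ℕ} {P : Piece} (hκ : 0 ≤ κ)
    (hC : 0 ≤ C) (g : S.PieceGood κ C τ c i m P) (s : St) :
    |Real.log (Ode.coefQ (S.slope κ τ i m s) (S.pieceStart i m)
        (S.pieceStart i m + P.len (S.j0 + i)))|
      ≤ (3 * C + 6) * s.blk.mu * P.len (S.j0 + i) := by
  set a := S.pieceStart i m
  set L := P.len (S.j0 + i)
  have hb1 : (1 : ℝ) ≤ (((S.j0 + i : ℕ) : ℝ) + 1) ^ 5 :=
    one_le_pow₀ (le_add_of_nonneg_left (Nat.cast_nonneg _))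
  have ha : 0 < a := by linarith [g.start_ge]
  have hL : a ≤ a + L := by linarith [P.len_pos (S.j0 + i)]
  have hμ := Blk.one_le_mu s.blk
  have hc : Continuous (S.slope κ τ i m s) := g.fam.cont_z s
  have hup : ∀ t ∈ Icc a (a + L), S.slope κ τ i m s t ≤ (3 * C + 6) * s.blk.mu := fun t ht => by
    have h1 := (abs_le.1 (g.near s t ht)).2
    obtain ⟨l0, l1⟩ := Asm.pieceLam_le hκ (ha.le.trans ht.1) P (S.j0 + i) (τ i) a (g.wide _) s
    have hc0 : 0 ≤ cDrift κ t := by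
      rw [← cPiece_of_ge κ ha ht.1]; linarith [(g.drift t).1]
    have h2 := (Ode.alphaFn_le_sqrt hc0 l0).trans (Real.sqrt_le_sqrt l1)
    have h3 : Real.sqrt (30 * s.blk.mu ^ 2) ≤ 6 * s.blk.mu :=
      Real.sqrt_le_iff.2 ⟨by positivity, by nlinarith⟩
    have h4 : 3 * C / (((S.j0 + i : ℕ) : ℝ) + 1) ^ 5 ≤ 3 * C * s.blk.mu :=
      (div_le_self (by positivity) hb1).trans (le_mul_of_one_le_right (by positivity) hμ)
    linarith
  have hlo := Ode.le_coefQ hc hL hup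
  have hhi := Ode.coefQ_le (k := 0) hc hL (g.fam.z_nonneg s)
  rw [add_sub_cancel_left] at hlo
  rw [zero_mul, neg_zero, Real.exp_zero] at hhi
  have hq := Ode.coefQ_pos (S.slope κ τ i m s) a (a + L)
  have h1 := Real.log_le_log (Real.exp_pos _) hlo
  rw [Real.log_exp] at h1
  rw [abs_of_nonpos (Real.log_nonpos hq.le hhi)]
  linarith

/-- The states of the corrector have bounded `mu`. -/
theorem mu_le_of_corrW {Mb : ℕ} {s : St} (hs : s ∈ Loop.corrW Mb) :
    s.blk.mu ≤ 4 * (Mb : ℝ) + 1 := by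
  obtain ⟨ha, hb⟩ := Loop.mem_corrW.1 hs
  have hc : s.blk.lc ≤ s.blk.la + s.blk.lb := s.1.2.2.2.2
  have h : 1 + s.blk.la + s.blk.lb + s.blk.lc ≤ 4 * Mb + 1 := by omega
  have h' : ((1 + s.blk.la + s.blk.lb + s.blk.lc : ℕ) : ℝ) ≤ ((4 * Mb + 1 : ℕ) : ℝ) :=
    Nat.cast_le.2 h
  push_cast at h'
  simpa [Blk.mu] using h'

/-- The backward map of the first loop is the hold up to factors of the short pieces. -/
theorem first_factor {W : LoopSpec} {Mo : PieceModel} {κ C K ε : ℝ} {j0 : ℕ} {t0 : ℝ} {ht : 1 ≤ t0}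
    {τ : Params} {R₀ : HSp →L[ℝ] HSp} {r : St → ℝ} (hκ : 0 ≤ κ) (hC : 0 ≤ C) (hj : κ ≤ j0)
    (ht8 : ((j0 : ℝ) + 1) ^ 8 ≤ t0) (hcorr : W.corr j0 = [Piece.wait 0 5]) (hjunc : W.junc j0 = 0)
    (hctrl : W.ctrl j0 = []) (hR : IsDiag R₀ r) (hgood : W.LoopGood κ C Mo j0 t0 ht τ K ε 0 R₀) :
    ∃ f qh : St → ℝ, IsDiag (W.loopBack κ C Mo j0 t0 ht τ R₀ 0) f ∧ ∀ s,
      (0 < qh s ∧ qh s ≤ 1 ∧
        |Real.log (qh s) + alphaInf s * (W.sched j0 t0 ht).T7 0|
          ≤ (3 * C + 15 * κ + 1) * (1 + alphaInf s) * (W.sched j0 t0 ht).T6 0 ∧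
        ∀ x, 0 ≤ x → x ≤ alphaInf s →
          (3 * C + 15 * κ + 1) * (1 + x) ≤ (W.sched j0 t0 ht).base 0 →
          qh s ≤ Real.exp (-(x - 1) * (W.sched j0 t0 ht).T7 0)) ∧
      0 < f s ∧ f s ≤ 32 * qh s ∧
        |Real.log (f s) - Real.log (qh s)|
          ≤ (4 * (3 * C + 6) * s.blk.mu + 5) * (W.sched j0 t0 ht).T6 0 := by
  set S := W.sched j0 t0 ht with hS
  set b : ℝ := ((j0 + 0 : ℕ) : ℝ) + 1 with hb
  have hb1 : 1 ≤ b := le_add_of_nonneg_left (Nat.cast_nonneg _)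
  have e6 : S.T6 0 = b ^ 6 := rfl
  have hprog : W.prog (j0 + 0)
      = [Piece.wait 0 5, Piece.wait 0 6, Piece.out 0, Piece.back 0, Piece.wait 0 7] := by
    simp [LoopSpec.prog, loopProg, hcorr, hjunc, hctrl]
  have hlen : (W.prog (j0 + 0)).length = 5 := by rw [hprog]; rfl
  set Sg := W.segs κ C Mo j0 t0 ht τ 0 with hSg
  let q : ℕ → St → ℝ := fun m s => if hm : m < (W.prog (j0 + 0)).length then
    Ode.coefQ (S.slope κ τ 0 m s) (S.pieceStart 0 m)
      (S.pieceStart 0 m + ((W.prog (j0 + 0))[m]).len (j0 + 0)) else 1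
  have hseg : ∀ m < 5, (∃ P : DiagCoef, Sg m = P.seg ∧ P.q = q m) ∧
      ‖(Sg m).B.comp (slopes Sg R₀ m)‖ ≤ 1 / 2 := fun m hm => by
    have hm' : m < (W.prog (j0 + 0)).length := hlen.symm ▸ hm
    have hg := hgood.piece m hm'
    have he : ((W.prog (j0 + 0))[m]).isExc = false ∧
        ∀ f k, (W.prog (j0 + 0))[m] ≠ Piece.ins f k := by
      simp only [hprog]
      interval_cases m <;> simp [Piece.isExc]
    refine ⟨⟨hg.good.fam.coef, hg.diag he.1 he.2, funext fun s => ?_⟩, (hgood.step m hm').1⟩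
    simp only [q, dif_pos hm']
    rfl
  obtain ⟨F, hF, hFb⟩ := isDiag_backChain (q := q) hR hseg 5 0 le_rfl
  have hback : W.loopBack κ C Mo j0 t0 ht τ R₀ 0 = backChain Sg R₀ 0 5 := by
    rw [LoopSpec.loopBack, hlen]
    rfl
  obtain ⟨qh, hqh, -, hqb⟩ := restQ_hold (i := 0) hκ hC hj ht8 hgood
  have hq4 : ∀ s, q 4 s = qh s := fun s => by
    have e := hqh (lp.single 2 s 1) s
    rw [show (W.corr (j0 + 0)).length + (W.ctrl (j0 + 0)).length + 3 = 4 by
      simp [hcorr, hctrl]] at e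
    obtain ⟨⟨P, hP, hPq⟩, -⟩ := hseg 4 (by norm_num)
    rw [show W.segs κ C Mo j0 t0 ht τ 0 4 = Sg 4 from rfl, hP, DiagCoef.seg_Q, hPq,
      lp.single_apply_self, mul_one, mul_one] at e
    exact e
  refine ⟨fun s => (∏ m ∈ Finset.Ico 0 (0 + 5), q m s) * F s, qh, hback ▸ hF,
    fun s => ⟨hqb s, ?_⟩⟩
  have hqs : ∀ m < 4, 0 < q m s ∧ q m s ≤ 1 ∧
      |Real.log (q m s)| ≤ (3 * C + 6) * s.blk.mu * b ^ 6 := fun m hm => by
    have hm' : m < (W.prog (j0 + 0)).length := hlen.symm ▸ (by omega)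
    have hg := (hgood.piece m hm').good
    simp only [q, dif_pos hm']
    refine ⟨Ode.coefQ_pos _ _ _, le_of_abs_le (hg.fam.coef.q_le s),
      (log_coefQ_le hκ hC hg s).trans ?_⟩
    refine mul_le_mul_of_nonneg_left ?_ (by have := Blk.one_le_mu s.blk; positivity)
    refine pow_le_pow_right₀ hb1 ?_
    simp only [hprog]
    interval_cases m <;> simp [Piece.power]
  have hprod : (∏ m ∈ Finset.Ico 0 (0 + 5), q m s)
      = q 0 s * q 1 s * q 2 s * q 3 s * qh s := by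
    rw [Nat.zero_add, ← Finset.range_eq_Ico, Finset.prod_range_succ, Finset.prod_range_succ,
      Finset.prod_range_succ, Finset.prod_range_succ, Finset.prod_range_one, hq4]
  obtain ⟨p4, -, -⟩ := hqb s
  obtain ⟨p0, u0, l0⟩ := hqs 0 (by norm_num)
  obtain ⟨p1, u1, l1⟩ := hqs 1 (by norm_num)
  obtain ⟨p2, u2, l2⟩ := hqs 2 (by norm_num)
  obtain ⟨p3, u3, l3⟩ := hqs 3 (by norm_num)
  obtain ⟨f1, f2⟩ := hFb s
  have h012 : 0 < q 0 s * q 1 s * q 2 s := mul_pos (mul_pos p0 p1) p2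
  have hF0 : 0 < F s := lt_of_lt_of_le (by norm_num) f1
  beta_reduce
  rw [hprod]
  refine ⟨mul_pos (mul_pos (mul_pos h012 p3) p4) hF0, ?_, ?_⟩
  · refine (mul_le_mul (mul_le_of_le_one_left p4.le
      (mul_le_one₀ (mul_le_one₀ (mul_le_one₀ u0 p1.le u1) p2.le u2) p3.le u3)) f2 hF0.le
      p4.le).trans_eq ?_
    ring
  · rw [Real.log_mul (mul_pos (mul_pos h012 p3) p4).ne' hF0.ne',
      Real.log_mul (mul_pos h012 p3).ne' p4.ne', Real.log_mul h012.ne' p3.ne',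
      Real.log_mul (mul_pos p0 p1).ne' p2.ne', Real.log_mul p0.ne' p1.ne', e6]
    have g1 := Real.log_le_log (by norm_num) f1
    have g2 := Real.log_le_log hF0 f2
    rw [Real.log_pow, one_div, Real.log_inv] at g1
    rw [Real.log_pow] at g2
    push_cast at g1 g2
    have g3 := Real.log_le_sub_one_of_pos (show (0 : ℝ) < 2 by norm_num)
    have g4 : (5 : ℝ) ≤ 5 * b ^ 6 := le_mul_of_one_le_right (by norm_num) (one_le_pow₀ hb1)
    obtain ⟨a0, c0⟩ := abs_le.1 l0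
    obtain ⟨a1, c1⟩ := abs_le.1 l1
    obtain ⟨a2, c2⟩ := abs_le.1 l2
    obtain ⟨a3, c3⟩ := abs_le.1 l3
    rw [abs_le]
    constructor <;> linarith

/-- **The first loop.** If it consists of waits and trivial transits at `J3` and starts late, its
backward map has the block form with the identity. -/
theorem exists_loopStep_first {Mb : ℕ} (hMb : 4 ≤ Mb) {κ C : ℝ} (hκ : 0 ≤ κ) (hC : 0 ≤ C) :
    ∃ (N : ℕ) (E : ℝ), 0 ≤ E ∧ ∀ (W : LoopSpec) (Mo : PieceModel) (K ε : ℝ) (j0 : ℕ) (t0 : ℝ)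
      (ht : 1 ≤ t0) (τ : Params) (R₀ : HSp →L[ℝ] HSp) (r : St → ℝ),
      N ≤ j0 → ((j0 : ℝ) + 1) ^ 8 ≤ t0 →
      W.corr j0 = [Piece.wait 0 5] → W.junc j0 = 0 → W.ctrl j0 = [] → IsDiag R₀ r →
      W.LoopGood κ C Mo j0 t0 ht τ K ε 0 R₀ →
      LoopStep Mb (stepPerm 0) E ((W.sched j0 t0 ht).T6 0) ((W.sched j0 t0 ht).T7 0)
        (W.loopBack κ C Mo j0 t0 ht τ R₀ 0) := by
  set Z := 4 * (3 * C + 6) * (4 * (Mb : ℝ) + 1) with hZ
  set E₀ := 3 * C + 15 * κ + 1 with hE₀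
  set A := ∑ s ∈ Loop.corrW Mb, |alphaInf s| with hA
  set n := ((wMono Mb).card + (wAxis Mb).card : ℝ) with hn
  have hA0 : 0 ≤ A := Finset.sum_nonneg fun s _ => abs_nonneg _
  have hE0 : 0 ≤ E₀ := by positivity
  obtain ⟨N, hN⟩ := exists_nat_ge (max (max κ (E₀ * (2 + (Mb : ℝ)))) (max 5 (32 * n)))
  refine ⟨N, Z + 5 + E₀ * (1 + A), by positivity,
    fun W Mo K ε j0 t0 ht τ R₀ r hj ht8 hcorr hjunc hctrl hR hgood => ?_⟩
  have hjN : (N : ℝ) ≤ j0 := Nat.cast_le.2 hj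
  simp only [max_le_iff] at hN
  obtain ⟨⟨hjκ, hjE⟩, hj5, hjc⟩ := hN
  obtain ⟨f, qh, hf, hfs⟩ :=
    first_factor hκ hC (hjκ.trans hjN) ht8 hcorr hjunc hctrl hR hgood
  set S := W.sched j0 t0 ht with hS
  have hb : S.base 0 = (j0 : ℝ) + 1 := by simp [hS, Sched.base, LoopSpec.sched]
  have h7 : S.base 0 ≤ S.T7 0 := le_self_pow₀ (S.one_le_base 0) (by norm_num)
  have h6 : 0 ≤ S.T6 0 := pow_nonneg (zero_le_one.trans (S.one_le_base 0)) _
  refine loopStep_of_isDiag hf (fun s hs => ?_) (fun s hs => ?_) ?_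
  · obtain ⟨⟨-, -, l4, -⟩, hpos, -, hlog⟩ := hfs s
    refine ⟨hpos, ?_⟩
    have hz : 4 * (3 * C + 6) * s.blk.mu * S.T6 0 ≤ Z * S.T6 0 :=
      mul_le_mul_of_nonneg_right
        (mul_le_mul_of_nonneg_left (mu_le_of_corrW hs) (by positivity)) h6
    have hα : E₀ * (1 + alphaInf s) * S.T6 0 ≤ E₀ * (1 + A) * S.T6 0 := by
      refine mul_le_mul_of_nonneg_right (mul_le_mul_of_nonneg_left ?_ hE0) h6
      exact add_le_add le_rfl ((le_abs_self _).trans
        (Finset.single_le_sum (f := fun s => |alphaInf s|) (fun s _ => abs_nonneg _) hs))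
    obtain ⟨a, c⟩ := abs_le.1 l4
    obtain ⟨a', c'⟩ := abs_le.1 hlog
    rw [abs_le]
    constructor <;> linarith
  · obtain ⟨⟨-, -, -, hfar⟩, hpos, hle, -⟩ := hfs s
    have hx := hfar ((Mb : ℝ) + 1) (by positivity)
      (succ_le_alphaInf_of_far hMb fun h => hs (Loop.mem_corrW.2 h)) (by
        rw [hb, show 1 + ((Mb : ℝ) + 1) = 2 + Mb by ring]
        exact hjE.trans (hjN.trans (le_add_of_nonneg_right zero_le_one)))
    rw [abs_of_pos hpos]
    refine hle.trans ((mul_le_mul_of_nonneg_left hx (by norm_num)).trans ?_)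
    have h32 : (32 : ℝ) ≤ Real.exp (S.T7 0) := by
      calc (32 : ℝ) = 2 ^ 5 := by norm_num
        _ ≤ Real.exp 1 ^ 5 :=
            pow_le_pow_left₀ (by norm_num) (by linarith [Real.add_one_le_exp (1 : ℝ)]) 5
        _ = Real.exp 5 := by rw [← Real.exp_nat_mul]; norm_num
        _ ≤ _ := Real.exp_le_exp.2 (by linarith)
    refine (mul_le_mul_of_nonneg_right h32 (Real.exp_pos _).le).trans (le_of_eq ?_)
    rw [← Real.exp_add]
    ring_nf
  · have hn32 : ‖W.loopBack κ C Mo j0 t0 ht τ R₀ 0‖ ≤ 32 := hf.norm_le (by norm_num) fun s => by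
      obtain ⟨⟨-, hq1, -, -⟩, hpos, hle, -⟩ := hfs s
      rw [abs_of_pos hpos]
      linarith
    calc n * ‖W.loopBack κ C Mo j0 t0 ht τ R₀ 0‖
        ≤ n * 32 := mul_le_mul_of_nonneg_left hn32 (by positivity)
      _ ≤ S.T7 0 + 1 := by linarith
      _ ≤ _ := Real.add_one_le_exp _

end LoopSpec

/-! ### From the cap -/

variable {κ : ℝ} {C : CapData κ}

/-- The slope operator of the cap is diagonal. -/
theorem CapCore.isDiag_capR (h : CapCore C) (t0 : ℝ) : ∃ r, IsDiag (h.capR t0) r := by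
  unfold CapCore.capR
  split_ifs
  · exact ⟨_, isDiag_diagOp _ _ _ _⟩
  · exact ⟨0, fun x i => by simp⟩

/-- **The first loop after the cap.** Its block form, and the slope behind it is tiny. -/
theorem CapCore.exists_firstLoop (h : CapCore C) {Mb : ℕ} (hMb : 4 ≤ Mb) {Cc : ℝ} (hC : 0 ≤ Cc) :
    ∃ (N : ℕ) (E : ℝ), 0 ≤ E ∧ ∀ (W : LoopSpec) (Mo : PieceModel) (K ε : ℝ) (j0 : ℕ) (t0 : ℝ)
      (ht : 1 ≤ t0) (τ : Params), N ≤ j0 → ((j0 : ℝ) + 1) ^ 8 ≤ t0 →
      W.corr j0 = [Piece.wait 0 5] → W.junc j0 = 0 → W.ctrl j0 = [] →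
      W.LoopGood κ Cc Mo j0 t0 ht τ K ε 0 (h.capR t0) →
      LoopStep Mb (stepPerm 0) E ((W.sched j0 t0 ht).T6 0) ((W.sched j0 t0 ht).T7 0)
          (W.loopBack κ Cc Mo j0 t0 ht τ (h.capR t0) 0) ∧
        ‖W.slopeR κ Cc Mo j0 t0 ht τ (h.capR t0) 1‖ ≤ Real.exp (-(4 * ((j0 : ℝ) + 1) ^ 7)) := by
  obtain ⟨N, E, hE, hstep⟩ := LoopSpec.exists_loopStep_first hMb h.κ_nonneg hC
  refine ⟨N, E, hE, fun W Mo K ε j0 t0 ht τ hj ht8 h1 h2 h3 hg => ?_⟩
  obtain ⟨r, hr⟩ := h.isDiag_capR t0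
  refine ⟨hstep W Mo K ε j0 t0 ht τ _ r hj ht8 h1 h2 h3 hr hg, ?_⟩
  have := W.slopeR_succ_le (i := 0) (R₀ := h.capR t0) hg
  simpa using this

end

end Vale.Agent.P225
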