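import Vale.Agent.P225.Assembly.Parts
import Vale.Agent.P225.Assembly.FirstLoop

/-!
P225 assembly (helper15): the first loop delivers `FirstParts`.
-/

namespace Vale.Agent.P225

noncomputable section

/-- The first loop has the block form for every diagonal incoming slope and all amplitudes. -/
theorem firstParts {κ : ℝ} (hκ : 0 ≤ κ) (s : ℕ) {Mb : ℕ} (hMb : 4 ≤ Mb) :
    FirstParts κ s Mb := by
  intro P0 Nf Ra Cc K ε₀ A hRa hC hK hε₀ hA
  obtain ⟨N, E, hE, hstep⟩ := LoopSpec.exists_loopStep_first hMb hκ hC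
  refine ⟨E, N, hE, fun W j0 t0 ht _ hj ht0 hgood hcorr hjunc hctrl R₀ g hR₀ hn τ => ?_⟩
  set Mo := Model.modelPM s Nf
  have hprog : W.prog (j0 + 0)
      = [Piece.wait 0 5, Piece.wait 0 6, Piece.out 0, Piece.back 0, Piece.wait 0 7] := by
    simp [LoopSpec.prog, loopProg, hcorr, hjunc, hctrl]
  have hamp : W.AmpAt j0 0 (τ 0) Ra 0 := by
    intro P hP
    rw [hprog] at hP
    simp only [List.mem_cons, List.not_mem_nil, or_false] at hP
    rcases hP with rfl | rfl | rfl | rfl | rfl <;> simp [Piece.AmpOk]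
  have hg : W.LoopGood κ Cc Mo j0 t0 ht (LoopSpec.oneParams 0 (τ 0)) K 0 0 R₀ :=
    hgood 0 (τ 0) 0 le_rfl hε₀.le hamp R₀ (by simpa using hn)
  have h := hstep W Mo K 0 j0 t0 ht (LoopSpec.oneParams 0 (τ 0)) R₀ g hj ht0.ge hcorr hjunc hctrl
    hR₀ hg
  rw [LoopSpec.loopBack, LoopSpec.segs_eq_of_amps (τ' := τ) (LoopSpec.oneParams_self 0 (τ 0))] at h
  exact h

end

end Vale.Agent.P225
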