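import Vale.Agent.P225.Assembly.ModeBounds

/-!
P225 assembly (helper15): coefficient families solving the mode equations on a time window, and
gluing of such families along windows.

A family `f : Fam` carries the coefficient `f 0 i`, its derivative `f 1 i` and its second
derivative `f 2 i` for every state `i`.  The mode equation of state `j` is
`c_j'' + drift t * c_j' = ∑ i, c_i * A t i j`.
-/

namespace Vale.Agent.P225.Asm

open Set Filter Topology

noncomputable section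

/-- Coefficient functions of all states with two derivatives. -/
abbrev Fam : Type := Fin 3 → St → ℝ → ℝ

variable {A : ℝ → St → (St →₀ ℝ)} {drift : ℝ → ℝ} {s : ℕ}

/-- The family solves the mode equations on `W`. -/
structure FamSol (A : ℝ → St → (St →₀ ℝ)) (drift : ℝ → ℝ) (W : Set ℝ) (f : Fam) : Prop where
  deriv_zero : ∀ i, ∀ t ∈ W, HasDerivWithinAt (f 0 i) (f 1 i t) W t
  deriv_one : ∀ i, ∀ t ∈ W, HasDerivWithinAt (f 1 i) (f 2 i t) W t
  cont : ∀ i, ContinuousOn (f 2 i) W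
  eqn : ∀ j, ∀ t ∈ W, HasSum (fun i => f 0 i t * A t i j) (f 2 j t + drift t * f 1 j t)

/-- Value and derivative at time `t` given by a value vector `u` and a deviation vector `w`
relative to the references `ρ`. -/
structure EndData (s : ℕ) (f : Fam) (t : ℝ) (ρ : St → ℝ) (u w : HSp) : Prop where
  val : ∀ i, f 0 i t = u i / i.blk.mu ^ s
  der : ∀ i, f 1 i t = (i.blk.mu * w i + ρ i * u i) / i.blk.mu ^ s

/-- Two families have the same value and derivative at `t`. -/
def Match (f g : Fam) (t : ℝ) : Prop := ∀ i, f 0 i t = g 0 i t ∧ f 1 i t = g 1 i t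

/-- Bound `B mu^(2-s)` on a window, for the coefficient and two derivatives. -/
def FamBd (s : ℕ) (W : Set ℝ) (B : ℝ) (f : Fam) : Prop :=
  ∀ k i, ∀ t ∈ W, |f k i t| ≤ B * (i.blk.mu ^ 2 / i.blk.mu ^ s)

theorem weight_nonneg (s : ℕ) (i : St) : 0 ≤ i.blk.mu ^ 2 / i.blk.mu ^ s := by
  have := zero_le_one.trans (Blk.one_le_mu i.blk)
  positivity

theorem FamBd.mono {W W' : Set ℝ} {B B' : ℝ} {f : Fam} (h : FamBd s W B f) (hW : W' ⊆ W)
    (hB : B ≤ B') : FamBd s W' B' f := fun k i t ht =>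
  (h k i t (hW ht)).trans (mul_le_mul_of_nonneg_right hB (weight_nonneg s i))

theorem FamBd.congr {W : Set ℝ} {B : ℝ} {f g : Fam} (h : FamBd s W B f)
    (he : ∀ k i, ∀ t ∈ W, g k i t = f k i t) : FamBd s W B g := fun k i t ht => by
  rw [he k i t ht]; exact h k i t ht

theorem EndData.toMatch {f g : Fam} {t : ℝ} {ρ : St → ℝ} {u w : HSp} (hf : EndData s f t ρ u w)
    (hg : EndData s g t ρ u w) : Match f g t := fun i =>
  ⟨(hf.val i).trans (hg.val i).symm, (hf.der i).trans (hg.der i).symm⟩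

theorem EndData.congr {f g : Fam} {t : ℝ} {ρ : St → ℝ} {u w : HSp} (h : EndData s f t ρ u w)
    (he : ∀ k i, g k i t = f k i t) : EndData s g t ρ u w :=
  ⟨fun i => (he 0 i).trans (h.val i), fun i => (he 1 i).trans (h.der i)⟩

theorem hasDerivWithinAt_union_of_le {f : ℝ → ℝ} {d : ℝ → ℝ} {W₁ W₂ : Set ℝ} {b : ℝ}
    (h1 : W₁ ⊆ Iic b) (h2 : W₂ ⊆ Ici b) (hb1 : b ∈ W₁) (hb2 : b ∈ W₂)
    (d1 : ∀ t ∈ W₁, HasDerivWithinAt f (d t) W₁ t)
    (d2 : ∀ t ∈ W₂, HasDerivWithinAt f (d t) W₂ t) :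
    ∀ t ∈ W₁ ∪ W₂, HasDerivWithinAt f (d t) (W₁ ∪ W₂) t := by
  intro t ht
  rcases lt_trichotomy t b with hlt | rfl | hgt
  · have htW : t ∈ W₁ := ht.resolve_right fun h => not_le.2 hlt (mem_Ici.1 (h2 h))
    refine (d1 t htW).mono_of_mem_nhdsWithin ?_
    exact mem_nhdsWithin.2 ⟨Iio b, isOpen_Iio, hlt, fun x hx =>
      hx.2.resolve_right fun h => not_le.2 (mem_Iio.1 hx.1) (mem_Ici.1 (h2 h))⟩
  · exact (d1 t hb1).union (d2 t hb2)
  · have htW : t ∈ W₂ := ht.resolve_left fun h => not_le.2 hgt (mem_Iic.1 (h1 h))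
    refine (d2 t htW).mono_of_mem_nhdsWithin ?_
    exact mem_nhdsWithin.2 ⟨Ioi b, isOpen_Ioi, hgt, fun x hx =>
      hx.2.resolve_left fun h => not_le.2 (mem_Ioi.1 hx.1) (mem_Iic.1 (h1 h))⟩

theorem continuousOn_union_of_le {f : ℝ → ℝ} {W₁ W₂ : Set ℝ} {b : ℝ}
    (h1 : W₁ ⊆ Iic b) (h2 : W₂ ⊆ Ici b) (hb1 : b ∈ W₁) (hb2 : b ∈ W₂)
    (c1 : ContinuousOn f W₁) (c2 : ContinuousOn f W₂) : ContinuousOn f (W₁ ∪ W₂) := by
  intro t ht
  rcases lt_trichotomy t b with hlt | rfl | hgt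
  · have htW : t ∈ W₁ := ht.resolve_right fun h => not_le.2 hlt (mem_Ici.1 (h2 h))
    refine (c1 t htW).mono_of_mem_nhdsWithin ?_
    exact mem_nhdsWithin.2 ⟨Iio b, isOpen_Iio, hlt, fun x hx =>
      hx.2.resolve_right fun h => not_le.2 (mem_Iio.1 hx.1) (mem_Ici.1 (h2 h))⟩
  · exact (c1 t hb1).union (c2 t hb2)
  · have htW : t ∈ W₂ := ht.resolve_left fun h => not_le.2 hgt (mem_Iic.1 (h1 h))
    refine (c2 t htW).mono_of_mem_nhdsWithin ?_
    exact mem_nhdsWithin.2 ⟨Ioi b, isOpen_Ioi, hgt, fun x hx =>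
      hx.2.resolve_left fun h => not_le.2 (mem_Ioi.1 hx.1) (mem_Iic.1 (h1 h))⟩

namespace FamSol

variable {W W₁ W₂ : Set ℝ} {f g : Fam}

theorem congr (h : FamSol A drift W f) (he : ∀ k i, ∀ t ∈ W, g k i t = f k i t) :
    FamSol A drift W g where
  deriv_zero i t ht := by
    rw [he 1 i t ht]
    exact (h.deriv_zero i t ht).congr (fun x hx => he 0 i x hx) (he 0 i t ht)
  deriv_one i t ht := by
    rw [he 2 i t ht]
    exact (h.deriv_one i t ht).congr (fun x hx => he 1 i x hx) (he 1 i t ht)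
  cont i := (h.cont i).congr fun x hx => he 2 i x hx
  eqn j t ht := by
    rw [he 2 j t ht, he 1 j t ht]
    simp only [he 0 _ t ht]
    exact h.eqn j t ht

/-- Equal value and derivative give equal second derivative. -/
theorem full_match (hf : FamSol A drift W₁ f) (hg : FamSol A drift W₂ g) {b : ℝ} (hb1 : b ∈ W₁)
    (hb2 : b ∈ W₂) (hm : Match f g b) (k : Fin 3) (i : St) : f k i b = g k i b := by
  have e := hg.eqn i b hb2
  simp only [← fun j => (hm j).1] at e
  have h2 := (hf.eqn i b hb1).unique e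
  rw [(hm i).2] at h2
  fin_cases k
  · exact (hm i).1
  · exact (hm i).2
  · exact add_right_cancel h2

theorem union {b : ℝ} (h1 : W₁ ⊆ Iic b) (h2 : W₂ ⊆ Ici b) (hb1 : b ∈ W₁) (hb2 : b ∈ W₂)
    (hf : FamSol A drift W₁ f) (hg : FamSol A drift W₂ f) : FamSol A drift (W₁ ∪ W₂) f where
  deriv_zero i := hasDerivWithinAt_union_of_le h1 h2 hb1 hb2 (hf.deriv_zero i) (hg.deriv_zero i)
  deriv_one i := hasDerivWithinAt_union_of_le h1 h2 hb1 hb2 (hf.deriv_one i) (hg.deriv_one i)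
  cont i := continuousOn_union_of_le h1 h2 hb1 hb2 (hf.cont i) (hg.cont i)
  eqn j t ht := ht.elim (hf.eqn j t) (hg.eqn j t)

theorem hasDerivAt_zero (h : FamSol A drift univ f) (i : St) (t : ℝ) :
    HasDerivAt (f 0 i) (f 1 i t) t :=
  hasDerivWithinAt_univ.1 (h.deriv_zero i t (mem_univ t))

theorem hasDerivAt_one (h : FamSol A drift univ f) (i : St) (t : ℝ) :
    HasDerivAt (f 1 i) (f 2 i t) t :=
  hasDerivWithinAt_univ.1 (h.deriv_one i t (mem_univ t))

theorem deriv_eq (h : FamSol A drift univ f) (i : St) :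
    deriv (f 0 i) = f 1 i ∧ deriv (deriv (f 0 i)) = f 2 i := by
  have e : deriv (f 0 i) = f 1 i := funext fun t => (h.hasDerivAt_zero i t).deriv
  refine ⟨e, ?_⟩
  rw [e]
  exact funext fun t => (h.hasDerivAt_one i t).deriv

theorem contDiff (h : FamSol A drift univ f) (i : St) : ContDiff ℝ 2 (f 0 i) := by
  obtain ⟨e1, e2⟩ := h.deriv_eq i
  rw [show (2 : WithTop ℕ∞) = 1 + 1 from rfl, contDiff_succ_iff_deriv]
  refine ⟨fun t => (h.hasDerivAt_zero i t).differentiableAt, by simp, ?_⟩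
  rw [contDiff_one_iff_deriv, e2, e1]
  exact ⟨fun t => (h.hasDerivAt_one i t).differentiableAt,
    continuousOn_univ.1 (h.cont i)⟩

/-- The mode equation in the form used by `laplacian_modes`. -/
theorem eqn_mul (h : FamSol A drift W f) (j : St) {t : ℝ} (ht : t ∈ W) (z : ℝ) :
    HasSum (fun i => f 0 i t * A t i j * z) ((f 2 j t + drift t * f 1 j t) * z) :=
  (h.eqn j t ht).mul_right z

theorem coeffBound (h : FamSol A drift univ f)
    (hb : ∀ T₀ T₁ : ℝ, ∃ B : ℝ, 0 ≤ B ∧ FamBd s (Icc T₀ T₁) B f) : CoeffBound (f 0) s := by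
  intro T₀ T₁
  obtain ⟨B, hB, hBd⟩ := hb T₀ T₁
  refine ⟨B, hB, fun i t ht => ?_⟩
  obtain ⟨e1, e2⟩ := h.deriv_eq i
  rw [e2, e1]
  exact ⟨hBd 0 i t ht, hBd 1 i t ht, hBd 2 i t ht⟩

end FamSol

/-! ### Gluing two families -/

/-- `f` up to `b`, `g` after it. -/
def glue (b : ℝ) (f g : Fam) : Fam := fun k i t => if t ≤ b then f k i t else g k i t

/-- `glue` as a linear map. -/
def glueL (b : ℝ) : Fam × Fam →ₗ[ℝ] Fam where
  toFun p := glue b p.1 p.2
  map_add' p q := by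
    funext k i t
    simp only [glue, Prod.fst_add, Prod.snd_add, Pi.add_apply]
    split_ifs <;> rfl
  map_smul' r p := by
    funext k i t
    simp only [glue, Prod.smul_fst, Prod.smul_snd, Pi.smul_apply, RingHom.id_apply]
    split_ifs <;> rfl

@[simp] theorem glueL_apply (b : ℝ) (p : Fam × Fam) : glueL b p = glue b p.1 p.2 := rfl

theorem glue_left {b t : ℝ} (f g : Fam) (ht : t ≤ b) (k : Fin 3) (i : St) :
    glue b f g k i t = f k i t := if_pos ht

theorem glue_right {b t : ℝ} {f g : Fam} (hm : ∀ k i, f k i b = g k i b) (ht : b ≤ t) (k : Fin 3)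
    (i : St) : glue b f g k i t = g k i t := by
  rcases eq_or_lt_of_le ht with rfl | h
  · rw [glue_left f g le_rfl]; exact hm k i
  · exact if_neg (not_le.2 h)

theorem FamSol.glue {W₁ W₂ : Set ℝ} {b : ℝ} {f g : Fam} (h1 : W₁ ⊆ Iic b) (h2 : W₂ ⊆ Ici b)
    (hb1 : b ∈ W₁) (hb2 : b ∈ W₂) (hf : FamSol A drift W₁ f) (hg : FamSol A drift W₂ g)
    (hm : Match f g b) : FamSol A drift (W₁ ∪ W₂) (Vale.Agent.P225.Asm.glue b f g) :=
  FamSol.union h1 h2 hb1 hb2 (hf.congr fun k i _ ht => glue_left f g (h1 ht) k i)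
    (hg.congr fun k i _ ht => glue_right (hf.full_match hg hb1 hb2 hm) (h2 ht) k i)

theorem FamBd.glue {W₁ W₂ : Set ℝ} {b B : ℝ} {f g : Fam} (h1 : W₁ ⊆ Iic b) (h2 : W₂ ⊆ Ici b)
    (hm : ∀ k i, f k i b = g k i b) (hf : FamBd s W₁ B f) (hg : FamBd s W₂ B g) :
    FamBd s (W₁ ∪ W₂) B (Vale.Agent.P225.Asm.glue b f g) := by
  rintro k i t (ht | ht)
  · rw [glue_left f g (h1 ht)]; exact hf k i t ht
  · rw [glue_right hm (h2 ht)]; exact hg k i t ht

/-! ### Gluing along a sequence of times -/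

/-- Families `f 0` up to `t 0` and `f (m + 1)` on `[t m, t (m + 1)]`, glued up to `t n`. -/
def glueUpTo (t : ℕ → ℝ) (f : ℕ → Fam) : ℕ → Fam
  | 0 => f 0
  | n + 1 => glue (t n) (glueUpTo t f n) (f (n + 1))

/-- The first index whose time is not before `x`. -/
def winIdx (t : ℕ → ℝ) (x : ℝ) : ℕ := sInf {n | x ≤ t n}

/-- The family glued along all times. -/
def seqGlue (t : ℕ → ℝ) (f : ℕ → Fam) : Fam :=
  fun k i x => glueUpTo t f (winIdx t x) k i x

/-- `glueUpTo` as a linear map in the families. -/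
theorem glueUpTo_add_smul (t : ℕ → ℝ) (r : ℝ) (f g : ℕ → Fam) (n : ℕ) :
    glueUpTo t (r • f + g) n = r • glueUpTo t f n + glueUpTo t g n := by
  induction n with
  | zero => rfl
  | succ n ih =>
      show glueL (t n) (glueUpTo t (r • f + g) n, r • f (n + 1) + g (n + 1)) = _
      rw [ih]
      exact (glueL (t n)).map_add (r • (glueUpTo t f n, f (n + 1))) (glueUpTo t g n, g (n + 1))
        |>.trans (by rw [map_smul]; rfl)

/-- `seqGlue` as a linear map. -/
def seqGlueL (t : ℕ → ℝ) : (ℕ → Fam) →ₗ[ℝ] Fam where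
  toFun := seqGlue t
  map_add' f g := by
    funext k i x
    have := glueUpTo_add_smul t 1 f g (winIdx t x)
    simp only [one_smul] at this
    show glueUpTo t (f + g) (winIdx t x) k i x = _
    rw [this]
    rfl
  map_smul' r f := by
    funext k i x
    have h := glueUpTo_add_smul t r f 0 (winIdx t x)
    have h0 := glueUpTo_add_smul t 1 (0 : ℕ → Fam) 0 (winIdx t x)
    simp only [one_smul, add_zero] at h h0
    have hz : glueUpTo t (0 : ℕ → Fam) (winIdx t x) = 0 := by simpa using h0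
    rw [hz, add_zero] at h
    show glueUpTo t (r • f) (winIdx t x) k i x = _
    rw [h]
    rfl

@[simp] theorem seqGlueL_apply (t : ℕ → ℝ) (f : ℕ → Fam) : seqGlueL t f = seqGlue t f := rfl

theorem glueUpTo_eq {t : ℕ → ℝ} (ht : Monotone t) (f : ℕ → Fam) {m n : ℕ} (hmn : m ≤ n) {x : ℝ}
    (hx : x ≤ t m) (k : Fin 3) (i : St) : glueUpTo t f n k i x = glueUpTo t f m k i x := by
  induction n, hmn using Nat.le_induction with
  | base => rfl
  | succ n hmn ih => exact (glue_left _ _ (hx.trans (ht hmn)) k i).trans ih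

theorem seqGlue_eq {t : ℕ → ℝ} (ht : Monotone t) (f : ℕ → Fam) {n : ℕ} {x : ℝ} (hx : x ≤ t n)
    (k : Fin 3) (i : St) : seqGlue t f k i x = glueUpTo t f n k i x :=
  (glueUpTo_eq ht f (Nat.sInf_le (s := {n | x ≤ t n}) hx)
    (Nat.sInf_mem (s := {n | x ≤ t n}) ⟨n, hx⟩) k i).symm

/-- Hypotheses for gluing along `t 0 < t 1 < ⋯ → ∞`. -/
structure SeqSol (A : ℝ → St → (St →₀ ℝ)) (drift : ℝ → ℝ) (t : ℕ → ℝ) (f : ℕ → Fam) : Prop where
  strictMono : StrictMono t
  tendsto : Tendsto t atTop atTop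
  first : FamSol A drift (Iic (t 0)) (f 0)
  window : ∀ m, FamSol A drift (Icc (t m) (t (m + 1))) (f (m + 1))
  joint : ∀ m, Match (f m) (f (m + 1)) (t m)

namespace SeqSol

variable {t : ℕ → ℝ} {f : ℕ → Fam}

theorem upTo (h : SeqSol A drift t f) : ∀ n, FamSol A drift (Iic (t n)) (glueUpTo t f n) ∧
    Match (glueUpTo t f n) (f (n + 1)) (t n)
  | 0 => ⟨h.first, h.joint 0⟩
  | n + 1 => by
      obtain ⟨hs, hm⟩ := h.upTo n
      have hlt := h.strictMono (Nat.lt_succ_self n)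
      refine ⟨?_, fun i => ?_⟩
      · have := hs.glue subset_rfl Icc_subset_Ici_self (self_mem_Iic) (left_mem_Icc.2 hlt.le)
          (h.window n) hm
        rwa [Iic_union_Icc_eq_Iic hlt.le] at this
      · have e : ∀ k, glueUpTo t f (n + 1) k i (t (n + 1)) = f (n + 1) k i (t (n + 1)) :=
          fun k => if_neg (not_le.2 hlt)
        rw [e, e]
        exact h.joint (n + 1) i

theorem seqGlue_first (h : SeqSol A drift t f) {x : ℝ} (hx : x ≤ t 0) (k : Fin 3) (i : St) :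
    seqGlue t f k i x = f 0 k i x :=
  seqGlue_eq h.strictMono.monotone f hx k i

theorem seqGlue_window (h : SeqSol A drift t f) {m : ℕ} {x : ℝ} (hx : x ∈ Icc (t m) (t (m + 1)))
    (k : Fin 3) (i : St) : seqGlue t f k i x = f (m + 1) k i x := by
  rw [seqGlue_eq h.strictMono.monotone f hx.2]
  obtain ⟨hs, hm⟩ := h.upTo m
  exact glue_right (hs.full_match (h.window m) self_mem_Iic
    (left_mem_Icc.2 (h.strictMono (Nat.lt_succ_self m)).le) hm) hx.1 k i

theorem modeSol (h : SeqSol A drift t f) : FamSol A drift univ (seqGlue t f) := by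
  have key : ∀ x : ℝ, ∃ n, x < t n ∧ ∀ k i, seqGlue t f k i =ᶠ[𝓝 x] glueUpTo t f n k i := by
    intro x
    obtain ⟨n, hn⟩ := (h.tendsto.eventually_gt_atTop x).exists
    refine ⟨n, hn, fun k i => ?_⟩
    filter_upwards [Iio_mem_nhds hn] with y hy
    exact seqGlue_eq h.strictMono.monotone f (mem_Iio.1 hy).le k i
  refine ⟨fun i x _ => ?_, fun i x _ => ?_, fun i => ?_, fun j x _ => ?_⟩
  · obtain ⟨n, hn, he⟩ := key x
    rw [(he 1 i).eq_of_nhds]
    exact ((((h.upTo n).1.deriv_zero i x hn.le).hasDerivAt (Iic_mem_nhds hn)).congr_of_eventuallyEq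
      (he 0 i)).hasDerivWithinAt
  · obtain ⟨n, hn, he⟩ := key x
    rw [(he 2 i).eq_of_nhds]
    exact ((((h.upTo n).1.deriv_one i x hn.le).hasDerivAt (Iic_mem_nhds hn)).congr_of_eventuallyEq
      (he 1 i)).hasDerivWithinAt
  · refine continuousOn_univ.2 (continuous_iff_continuousAt.2 fun x => ?_)
    obtain ⟨n, hn, he⟩ := key x
    exact ((((h.upTo n).1.cont i).continuousAt (Iic_mem_nhds hn))).congr (he 2 i).symm
  · obtain ⟨n, hn, he⟩ := key x
    simp only [(he 0 _).eq_of_nhds, (he 1 j).eq_of_nhds, (he 2 j).eq_of_nhds]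
    exact (h.upTo n).1.eqn j x hn.le

theorem exists_window (h : SeqSol A drift t f) {x : ℝ} (hx : t 0 ≤ x) :
    ∃ m, x ∈ Icc (t m) (t (m + 1)) := by
  classical
  have hex : ∃ n, x < t (n + 1) := by
    obtain ⟨n, hn⟩ := (h.tendsto.eventually_gt_atTop x).exists
    exact ⟨n, hn.trans (h.strictMono (Nat.lt_succ_self n))⟩
  refine ⟨Nat.find hex, ?_, (Nat.find_spec hex).le⟩
  rcases Nat.eq_zero_or_pos (Nat.find hex) with h0 | h0
  · rw [h0]; exact hx
  · have := Nat.find_min hex (m := Nat.find hex - 1) (by omega)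
    rw [show Nat.find hex - 1 + 1 = Nat.find hex by omega] at this
    exact not_lt.1 this

/-- Local bounds of the glued family. -/
theorem exists_bd (h : SeqSol A drift t f) (h0 : ∀ T₀ : ℝ, ∃ B, FamBd s (Icc T₀ (t 0)) B (f 0))
    (hw : ∀ m, ∃ B, FamBd s (Icc (t m) (t (m + 1))) B (f (m + 1))) (T₀ T₁ : ℝ) :
    ∃ B : ℝ, 0 ≤ B ∧ FamBd s (Icc T₀ T₁) B (seqGlue t f) := by
  have key : ∀ n, ∃ B : ℝ, 0 ≤ B ∧ FamBd s (Icc T₀ (t n)) B (seqGlue t f) := by
    intro n
    induction n with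
    | zero =>
        obtain ⟨B, hB⟩ := h0 T₀
        exact ⟨max B 0, le_max_right _ _,
          (hB.mono subset_rfl (le_max_left _ _)).congr fun k i x hx => h.seqGlue_first hx.2 k i⟩
    | succ n ih =>
        obtain ⟨B, hB0, hB⟩ := ih
        obtain ⟨B', hB'⟩ := hw n
        refine ⟨max B B', hB0.trans (le_max_left _ _), fun k i x hx => ?_⟩
        rcases le_total x (t n) with hxn | hxn
        · exact hB.mono subset_rfl (le_max_left _ _) k i x ⟨hx.1, hxn⟩
        · rw [h.seqGlue_window ⟨hxn, hx.2⟩]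
          exact hB'.mono subset_rfl (le_max_right _ _) k i x ⟨hxn, hx.2⟩
  obtain ⟨n, hn⟩ := (h.tendsto.eventually_gt_atTop T₁).exists
  obtain ⟨B, hB0, hB⟩ := key n
  exact ⟨B, hB0, hB.mono (Icc_subset_Icc_right hn.le) le_rfl⟩

/-- The coefficients are `C²` with the bounds of `ModeBounds`. -/
theorem coeffBound (h : SeqSol A drift t f) (h0 : ∀ T₀ : ℝ, ∃ B, FamBd s (Icc T₀ (t 0)) B (f 0))
    (hw : ∀ m, ∃ B, FamBd s (Icc (t m) (t (m + 1))) B (f (m + 1))) :
    CoeffBound (seqGlue t f 0) s :=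
  h.modeSol.coeffBound (h.exists_bd h0 hw)

/-- Bounds on the windows give bounds at all times after `t 0`. -/
theorem bd_of_window (h : SeqSol A drift t f) {B : ℕ → ℝ} {g : ℝ → ℝ}
    (hw : ∀ m, FamBd s (Icc (t m) (t (m + 1))) (B m) (f (m + 1)))
    (hB : ∀ m, ∀ x, t m ≤ x → B m ≤ g x) (k : Fin 3) (i : St) {x : ℝ} (hx : t 0 ≤ x) :
    |seqGlue t f k i x| ≤ g x * (i.blk.mu ^ 2 / i.blk.mu ^ s) := by
  obtain ⟨m, hm⟩ := h.exists_window hx
  rw [h.seqGlue_window hm]
  exact (hw m k i x hm).trans (mul_le_mul_of_nonneg_right (hB m x hm.1) (weight_nonneg s i))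

end SeqSol

end

end Vale.Agent.P225.Asm
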