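import Vale.Agent.P225.Assembly.CapCoreInst
import Vale.Agent.P225.Metric.Complete
import Vale.Agent.P225.Loop.Program

/-!
P225 assembly (helper27): the numeric choices (`T`, `j0`, `t0`) and what a schedule of loop words
provides to the final assembly.
-/

namespace Vale.Agent.P225

open Filter Set
open scoped Topology

noncomputable section

theorem tendsto_dFun (κ : ℝ) : Tendsto (dFun κ) atTop (𝓝 dMin) := by
  have h : Tendsto (fun t : ℝ => κ * t ^ (-(1 / 8) : ℝ)) atTop (𝓝 0) := by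
    simpa using (tendsto_rpow_neg_atTop (by norm_num : (0 : ℝ) < 1 / 8)).const_mul κ
  have h' := ((Real.continuous_exp.tendsto 0).comp h).const_mul dMin
  rw [Real.exp_zero, mul_one] at h'
  exact h'

/-- One cap parameter `T` meets every requirement on the cap. -/
theorem exists_T {κ : ℝ} (hκ : 0 < κ) (T₁ : ℝ) :
    ∃ (T : ℝ) (hT : 1 ≤ T), T₁ ≤ T ∧
      (∀ x ∈ chart, ∀ v : Pt 7,
        0 ≤ ∑ j, ∑ l, ricci (capData κ T hT).core j l x * v j * v l) ∧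
      CapCore (capData κ T hT) ∧ ∀ t, 2 * T ≤ t → dFun κ t ≤ dMax := by
  obtain ⟨T₀, -, hR⟩ := capData_ricci hκ
  have hd : ∀ᶠ T in atTop, dFun κ (2 * T) ≤ dMax :=
    ((tendsto_dFun κ).comp (tendsto_id.const_mul_atTop two_pos)).eventually
      (Iic_mem_nhds (by norm_num [dMin, dMax]))
  obtain ⟨T, hc, hd, hT₁, hT₀, hT⟩ := ((capCore_capWt hκ.le).and (hd.and
    ((eventually_ge_atTop T₁).and ((eventually_ge_atTop T₀).and
      (eventually_ge_atTop (1 : ℝ)))))).exists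
  refine ⟨T, hT, hT₁, hR T hT₀ hT, hc _ rfl, fun t ht => ?_⟩
  exact (dFun_anti hκ.le (mem_Ioi.2 (by linarith : (0 : ℝ) < 2 * T))
    (mem_Ioi.2 (by linarith : (0 : ℝ) < t)) ht).trans hd

/-- A late first loop and its starting time. -/
theorem exists_start (T : ℝ) (N : ℕ) : ∃ (j0 : ℕ) (t0 : ℝ), N ≤ j0 ∧ 3 ≤ j0 ∧ 1 ≤ t0 ∧
    2 * T + 1 ≤ t0 ∧ 2 * ((j0 : ℝ) + 1) ^ 5 ≤ t0 ∧ t0 = ((j0 : ℝ) + 1) ^ 8 := by
  obtain ⟨n, hn⟩ := exists_nat_ge (2 * T + 1)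
  set j0 := max (max N 3) n
  have hnj : (n : ℝ) ≤ j0 := Nat.cast_le.2 (le_max_right _ _)
  have h3 : ((3 : ℕ) : ℝ) ≤ j0 := Nat.cast_le.2 ((le_max_right _ _).trans (le_max_left _ _))
  have hb : (4 : ℝ) ≤ (j0 : ℝ) + 1 := by push_cast at h3; linarith
  have hself : (j0 : ℝ) + 1 ≤ ((j0 : ℝ) + 1) ^ 8 :=
    le_self_pow₀ (by linarith) (by norm_num)
  refine ⟨j0, ((j0 : ℝ) + 1) ^ 8, (le_max_left _ _).trans (le_max_left _ _),
    (le_max_right _ _).trans (le_max_left _ _), one_le_pow₀ (by linarith), by linarith, ?_, rfl⟩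
  calc 2 * ((j0 : ℝ) + 1) ^ 5 ≤ ((j0 : ℝ) + 1) ^ 3 * ((j0 : ℝ) + 1) ^ 5 := by
        refine mul_le_mul_of_nonneg_right ?_ (by positivity)
        exact le_trans (by norm_num) (pow_le_pow_left₀ (by norm_num) hb 3)
    _ = ((j0 : ℝ) + 1) ^ 8 := by ring

namespace LoopSpec

variable {W : LoopSpec} {P0 : ℕ} {j0 : ℕ} {t0 : ℝ} {ht : 1 ≤ t0}

theorem prog_length_le (hW : W.Ok P0) (j : ℕ) :
    ((W.sched j0 t0 ht).prog j).length ≤ 2 * P0 + 4 := by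
  show (W.prog j).length ≤ _
  rw [W.prog_length]
  linarith [hW.corr_len j, hW.ctrl_len j]

theorem power_le (hW : W.Ok P0) (j : ℕ) : ∀ P ∈ (W.sched j0 t0 ht).prog j, P.power ≤ 7 :=
  fun P hP => by
    obtain ⟨m, hm, rfl⟩ := List.mem_iff_getElem.1 (show P ∈ W.prog j from hP)
    exact (power_mem hW hm).1

theorem five_le_power (hW : W.Ok P0) (j : ℕ) : ∀ P ∈ (W.sched j0 t0 ht).prog j, 5 ≤ P.power :=
  fun P hP => by
    obtain ⟨m, hm, rfl⟩ := List.mem_iff_getElem.1 (show P ∈ W.prog j from hP)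
    exact (power_mem hW hm).2

theorem exists_hold (W : LoopSpec) (j : ℕ) :
    ∃ P ∈ (W.sched j0 t0 ht).prog j, P.power = 7 :=
  ⟨Piece.wait 0 7, by show _ ∈ W.prog j; simp [prog, loopProg], rfl⟩

/-- Time along loop `i` is `O((j0+i+1)^8)`. -/
theorem start_le_pow (hW : W.Ok P0) (h0 : t0 ≤ ((j0 : ℝ) + 1) ^ 8) (i : ℕ) :
    (W.sched j0 t0 ht).start (i + 1)
      ≤ ((2 * P0 + 5 : ℕ) : ℝ) * (((j0 + i : ℕ) : ℝ) + 1) ^ 8 := by
  have h := Sched.start_le (W.sched j0 t0 ht) (prog_length_le hW) (power_le hW) (i + 1)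
  have h1 : ((j0 : ℝ) + 1) ^ 8 ≤ (((j0 + i : ℕ) : ℝ) + 1) ^ 8 :=
    pow_le_pow_left₀ (by positivity) (by push_cast; linarith [(Nat.cast_nonneg i : (0 : ℝ) ≤ i)]) 8
  simp only [sched] at h
  push_cast at h h1 ⊢
  rw [show (j0 : ℝ) + ((i : ℝ) + 1) = (j0 : ℝ) + i + 1 by ring] at h
  simp only [sched]
  linarith

/-- The hypotheses of the global metric, for a late start and amplitudes in range. -/
theorem endHyps (hW : W.Ok P0) {κ T : ℝ} {hT : 1 ≤ T} (hT0 : 2 * T + 1 ≤ t0) {τ : Params}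
    {R ε : ℝ} (hR : 4 * R ≤ ((j0 : ℝ) + 1) ^ 5) (hamp : (W.sched j0 t0 ht).AmpOk τ R ε) :
    EndHyps (capData κ T hT) (W.sched j0 t0 ht) Model.modelF τ where
  model := Model.modelSmooth
  ne := W.prog_ne
  chained := chained hW j0 t0 ht
  small := W.small ht hR hamp
  late := hT0

end LoopSpec

/-- **The numeric choices.** A cap parameter serving every word, and for every length bound a
starting index from which the cap and any scheduled end give a complete metric with `Ric ≥ 0`. -/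
theorem exists_params (Nf : ℕ) {κ : ℝ} (hκ : 0 < κ) :
    ∃ (T : ℝ) (hT : 1 ≤ T), CapCore (capData κ T hT) ∧ ∀ (P0 : ℕ) (R : ℝ) (N : ℕ),
      ∃ (j0 : ℕ) (t0 : ℝ) (ht : 1 ≤ t0), N ≤ j0 ∧ 3 ≤ j0 ∧ 20 * R ≤ ((j0 : ℝ) + 1) ^ 5 ∧
        2 * T + 1 ≤ t0 ∧ 2 * ((j0 : ℝ) + 1) ^ 5 ≤ t0 ∧ t0 = ((j0 : ℝ) + 1) ^ 8 ∧
        ∀ (W : LoopSpec) (τ : Params) (ε : ℝ), W.Ok P0 → (W.sched j0 t0 ht).AmpOk τ R ε →
          (∀ i m, ∀ h : m < (W.prog (j0 + i)).length,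
            ((W.prog (j0 + i))[m]).RicciAmp Nf (j0 + i) (τ i)) →
          EndHyps (capData κ T hT) (W.sched j0 t0 ht) Model.modelF τ ∧
          IsCompleteNonnegRicci chart
            (globalMetric (capData κ T hT) (W.sched j0 t0 ht) Model.modelF τ) ∧
          ∀ o ∈ chart, ∀ x ∈ chart, Real.sqrt (rsq x) ≤ dist chart
            (globalMetric (capData κ T hT) (W.sched j0 t0 ht) Model.modelF τ) o x + rad1 o := by
  obtain ⟨Tr, -, hTr⟩ := exists_complete_metric Nf hκ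
  obtain ⟨T, hT, hT₁, -, hcc, hd⟩ := exists_T hκ Tr
  refine ⟨T, hT, hcc, fun P0 R N => ?_⟩
  obtain ⟨N₁, hN₁⟩ := hTr (2 * P0 + 4)
  obtain ⟨N₂, hN₂⟩ := exists_nat_ge (20 * |R|)
  obtain ⟨j0, t0, hj, hj3, ht, hT0, h5, h8⟩ := exists_start T (max (max N N₁) N₂)
  obtain ⟨⟨hjN, hjN₁⟩, hjN₂⟩ := (max_le_iff.1 hj).imp_left max_le_iff.1
  have hN₂j : (N₂ : ℝ) ≤ j0 := Nat.cast_le.2 hjN₂
  have hR : 20 * R ≤ ((j0 : ℝ) + 1) ^ 5 := by
    have h1 : (j0 : ℝ) + 1 ≤ ((j0 : ℝ) + 1) ^ 5 :=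
      le_self_pow₀ (le_add_of_nonneg_left (Nat.cast_nonneg _)) (by norm_num)
    linarith [le_abs_self R]
  have hR4 : 4 * R ≤ ((j0 : ℝ) + 1) ^ 5 := by
    rcases le_total 0 R with h | h <;> nlinarith [pow_nonneg (show (0 : ℝ) ≤ j0 + 1 by positivity) 5]
  refine ⟨j0, t0, ht, hjN, hj3, hR, hT0, h5, h8, fun W τ ε hW hamp hra => ?_⟩
  have H := LoopSpec.endHyps (κ := κ) (hT := hT) hW hT0 hR4 hamp
  exact ⟨H, hN₁ T hT _ τ H hT₁ (hd _ le_rfl) hjN₁ h8.le (LoopSpec.prog_length_le hW)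
    (LoopSpec.power_le hW) (LoopSpec.five_le_power hW) hra⟩

end

end Vale.Agent.P225
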