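import Vale.Agent.P225.Assembly.Parts
import Vale.Agent.P225.Assembly.Params
import Vale.Agent.P225.Model.ZeroCol

/-!
P225 assembly (helper29): from the three parts of the loops to `YauFailsAt 7 14`.
-/

namespace Vale.Agent.P225

open Finset

noncomputable section

theorem LoopStep.mono_E {Mb : ℕ} {π : St → St} {E E' T6 T7 : ℝ} {Q : HSp →L[ℝ] HSp}
    (h : LoopStep Mb π E T6 T7 Q) (hE : E ≤ E') (hT : 0 ≤ T6) : LoopStep Mb π E' T6 T7 Q := by
  have hle : E * T6 ≤ E' * T6 := mul_le_mul_of_nonneg_right hE hT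
  obtain ⟨κ, ρ, h1, h2⟩ := h.mono
  obtain ⟨κ', X, h3, h4, h5⟩ := h.axis
  exact ⟨⟨κ, ρ, fun q => ⟨(h1 q).1, (h1 q).2.1, (h1 q).2.2.trans hle⟩, h2⟩,
    ⟨κ', X, fun q => ⟨(h3 q).1, (h3 q).2.trans hle⟩, h4, h5⟩, h.farMono, h.farAxis, h.bound,
    h.farFar⟩

theorem Piece.AmpOk.mono {P : Piece} {v : ℕ → ℝ} {R R' ε ε' : ℝ} (h : P.AmpOk v R ε)
    (hR : R ≤ R') (hε : ε ≤ ε') : P.AmpOk v R' ε' := by
  cases P <;> simp only [Piece.AmpOk] at h ⊢ <;> linarith

theorem Piece.ampOk_zero {P : Piece} {R ε : ℝ} (hR : 0 ≤ R) (hε : 0 ≤ ε) :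
    P.AmpOk 0 R ε := by
  cases P <;> simp [Piece.AmpOk, hR, hε]

theorem CapCore.exists_capR_diag {κ : ℝ} {C : CapData κ} (h : CapCore C) (t0 : ℝ) :
    Loop.Keeps0 (h.capR t0) ∧ ∃ g : St → ℝ, ∀ x k, h.capR t0 x k = g k * x k := by
  unfold CapCore.capR
  split_ifs with hb
  · exact ⟨Loop.keeps0_diagOp _ _ _ _, _, fun x k => diagOp_apply _ _ _ _ x k⟩
  · exact ⟨Loop.Keeps0.zero, 0, fun x k => by simp⟩

namespace LoopSpec

/-- The loops of a corrector list and the words of the controls, the first loop empty. -/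
def mainSpec (list : List Piece) (junc : ℕ → Fin 3) (word : ℕ → List Piece) (j0 : ℕ) : LoopSpec where
  corr j := if j = j0 then [Piece.wait 0 5] else list
  junc j := if j = j0 then 0 else junc (j - j0 - 1)
  ctrl j := if j = j0 then [] else word (j - j0 - 1)

end LoopSpec

/-- The numeric conditions on a late base. -/
theorem late_bounds {b K M ε₀ c : ℝ} (hb : 64 ≤ b) (hK : K ≤ b) (hε : 0 < ε₀)
    (he : 1 / ε₀ ≤ b) (hM : M ≤ b) (hc : c ≤ b / 4) :
    Real.exp (-(4 * b ^ 7)) ≤ Real.exp (-4 * (b + 1) ^ 6) ∧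
      Real.exp (-4 * b ^ 6) ≤ 1 / b ^ 5 ∧ Real.exp (-3 * b ^ 6) ≤ 1 / b ^ 10 ∧
      Real.exp (-3 * b ^ 6) ≤ ε₀ ∧ K * Real.exp (-4 * b ^ 6) ≤ 1 ∧
      c ≤ Real.exp (b ^ 6 / 4) ∧ M * b ^ 6 ≤ b ^ 7 ∧ b ^ 5 ≤ b ^ 6 := by
  have hb0 : 0 < b := by linarith
  have hb1 : 1 ≤ b := by linarith
  have h6 : b ≤ b ^ 6 := le_self_pow₀ hb1 (by norm_num)
  have hexp : ∀ {x : ℝ}, 0 < x → ∀ {y : ℝ}, 1 / x ≤ Real.exp y → Real.exp (-y) ≤ x :=
    fun {x} hx {y} h => by
      rw [div_le_iff₀ hx] at h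
      rw [Real.exp_neg, inv_le_iff_one_le_mul₀ (Real.exp_pos _)]
      linarith
  have hp : ∀ n : ℕ, n ≤ 12 → b ^ n ≤ Real.exp (2 * b ^ 6) := fun n hn => by
    have h1 : b ^ 6 ≤ Real.exp (b ^ 6) := by linarith [Real.add_one_le_exp (b ^ 6)]
    calc b ^ n ≤ b ^ 12 := pow_le_pow_right₀ hb1 hn
      _ = b ^ 6 * b ^ 6 := by ring
      _ ≤ Real.exp (b ^ 6) * Real.exp (b ^ 6) := mul_le_mul h1 h1 (by positivity) (Real.exp_nonneg _)
      _ = _ := by rw [← Real.exp_add]; ring_nf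
  refine ⟨Real.exp_le_exp.2 ?_, ?_, ?_, ?_, ?_, ?_, ?_, pow_le_pow_right₀ hb1 (by norm_num)⟩
  · have h1 : (b + 1) ^ 6 ≤ 64 * b ^ 6 := by
      calc (b + 1) ^ 6 ≤ (2 * b) ^ 6 := pow_le_pow_left₀ (by linarith) (by linarith) 6
        _ = _ := by ring
    have h2 : 64 * b ^ 6 ≤ b ^ 7 := by
      rw [pow_succ' b 6]; exact mul_le_mul_of_nonneg_right hb (by positivity)
    linarith
  · rw [show -4 * b ^ 6 = -(4 * b ^ 6) by ring]
    refine hexp (by positivity) ?_
    rw [one_div_one_div]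
    exact (hp 5 (by norm_num)).trans (Real.exp_le_exp.2 (by linarith))
  · rw [show -3 * b ^ 6 = -(3 * b ^ 6) by ring]
    refine hexp (by positivity) ?_
    rw [one_div_one_div]
    exact (hp 10 (by norm_num)).trans (Real.exp_le_exp.2 (by linarith))
  · rw [show -3 * b ^ 6 = -(3 * b ^ 6) by ring]
    exact hexp hε (he.trans (by linarith [Real.add_one_le_exp (3 * b ^ 6)]))
  · rw [show -4 * b ^ 6 = -(4 * b ^ 6) by ring, Real.exp_neg, ← div_eq_mul_inv,
      div_le_one (Real.exp_pos _)]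
    linarith [Real.add_one_le_exp (4 * b ^ 6)]
  · linarith [Real.add_one_le_exp (b ^ 6 / 4)]
  · rw [pow_succ' b 6]; exact mul_le_mul_of_nonneg_right hM (by positivity)

/-- **The disproof from the parts of the loops.** -/
theorem yauFailsAt_of_parts {κ : ℝ} (hκ : 0 < κ) {s : ℕ} (hs : 21 ≤ s)
    (hcorr : ∀ Mb, 10 ≤ Mb → CorrParts κ s Mb) (hideal : ∀ Mb, 10 ≤ Mb → IdealParts κ s Mb)
    (hfirst : ∀ Mb, 10 ≤ Mb → FirstParts κ s Mb) : YauFailsAt 7 14 := by
  obtain ⟨Mb, hMb, hfin⟩ := exists_constants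
  obtain ⟨Nf, off, P2, R2, list, hR2, hhead, hlen, hcok, hlins, hlexc, hC⟩ := hcorr Mb hMb
  obtain ⟨P1, R1, junc, word, hR1, hword, hI⟩ := hideal Mb hMb off
  set P0 := max (max P1 P2) 1
  set Ra := max R1 R2
  have hRa : 0 ≤ Ra := le_max_of_le_left hR1
  obtain ⟨T, hT, hcc, hpar⟩ := exists_params Nf hκ
  obtain ⟨N₁, Cc, K, ε₀, A, hCc, hK, hε₀, hA, -, hsys⟩ :=
    exists_endSystem_late hcc Ra 1 (show 19 ≤ s by omega) (isModelPM_modelPM s Nf) P0
  obtain ⟨B, E₁, N₂, hB, hE₁, hC⟩ := hC P0 Ra Cc K ε₀ A (le_max_right _ _) hCc hK hε₀ hA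
  obtain ⟨E, N₃, hE, hI⟩ := hI P0 Nf Ra Cc K ε₀ A (le_max_left _ _) hCc hK hε₀ hA
  obtain ⟨E', N₄, hE', hF⟩ := hfirst Mb hMb P0 Nf Ra Cc K ε₀ A hRa hCc hK hε₀ hA
  set Et := max (max (E + B) E') (2 * (P0 : ℝ) + 4)
  obtain ⟨N₅, hN₅⟩ := hfin Et (le_max_of_le_left (le_max_of_le_right hE'))
  set cd := ((wMono Mb).card + (wAxis Mb).card : ℝ)
  obtain ⟨N₆, hN₆⟩ := exists_nat_ge (max (max (max 64 K) (1 / ε₀)) (max (E₁ + E + 1) (4 * cd)))
  obtain ⟨j0, t0, ht, hj, -, hR20, -, h5, h8, hpar⟩ :=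
    hpar P0 Ra (max (max (max N₁ N₂) (max N₃ N₄)) (max N₅ N₆))
  simp only [max_le_iff] at hj
  obtain ⟨⟨⟨hj1, hj2⟩, hj3, hj4⟩, hj5, hj6⟩ := hj
  simp only [max_le_iff] at hN₆
  obtain ⟨⟨⟨hn1, hn2⟩, hn3⟩, hn4, hn5⟩ := hN₆
  have hlate : ∀ i : ℕ, (N₆ : ℝ) ≤ ((j0 + i : ℕ) : ℝ) + 1 := fun i => by
    have : (N₆ : ℝ) ≤ ((j0 + i : ℕ) : ℝ) := Nat.cast_le.2 (hj6.trans (Nat.le_add_right _ _))
    linarith
  have hnum := fun i : ℕ => late_bounds (b := ((j0 + i : ℕ) : ℝ) + 1) (hn1.trans (hlate i))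
    (hn2.trans (hlate i)) hε₀ (hn3.trans (hlate i)) (hn4.trans (hlate i))
    (show cd ≤ _ by linarith [hlate i])
  set b : ℕ → ℝ := fun i => ((j0 + i : ℕ) : ℝ) + 1 with hb
  set εA : ℕ → ℝ := fun i => Real.exp (-3 * b i ^ 6) with hεA
  -- the words
  set W := LoopSpec.mainSpec list junc word j0 with hWdef
  have hW0 : W.corr j0 = [Piece.wait 0 5] ∧ W.junc j0 = 0 ∧ W.ctrl j0 = [] :=
    ⟨if_pos rfl, if_pos rfl, if_pos rfl⟩
  have hWs : ∀ n : ℕ, W.corr (j0 + (n + 1)) = list ∧ W.junc (j0 + (n + 1)) = junc n ∧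
      W.ctrl (j0 + (n + 1)) = word n := fun n => by
    have h1 : j0 + (n + 1) ≠ j0 := by omega
    have h2 : j0 + (n + 1) - j0 - 1 = n := by omega
    refine ⟨if_neg h1, ?_, ?_⟩
    · show (if j0 + (n + 1) = j0 then 0 else junc (j0 + (n + 1) - j0 - 1)) = _
      rw [if_neg h1, h2]
    · show (if j0 + (n + 1) = j0 then [] else word (j0 + (n + 1) - j0 - 1)) = _
      rw [if_neg h1, h2]
  have hne : ∀ j, j ≠ j0 → W.corr j = list ∧ W.junc j = junc (j - j0 - 1) ∧
      W.ctrl j = word (j - j0 - 1) := fun j h => ⟨if_neg h, if_neg h, if_neg h⟩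
  have hW : W.Ok P0 := by
    constructor <;> intro j <;> rcases eq_or_ne j j0 with rfl | h
    · intro P hP
      rw [hW0.1, List.mem_singleton] at hP
      rw [hP]
      exact ⟨rfl, rfl⟩
    · rw [(hne j h).1]; exact hcok
    · rw [hW0.2.2]; simp
    · rw [(hne j h).2.1, (hne j h).2.2]; exact (hword _).2.1
    · rw [hW0.1]; rfl
    · rw [(hne j h).1]; exact hhead
    · rw [hW0.1]; exact le_max_right _ _
    · rw [(hne j h).1]; exact hlen.trans (le_trans (le_max_right _ _) (le_max_left _ _))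
    · rw [hW0.2.2]; exact Nat.zero_le _
    · rw [(hne j h).2.2]; exact (hword _).1.trans (le_trans (le_max_left _ _) (le_max_left _ _))
  have hins : ∀ j f k, Piece.ins f k ∈ W.corr j → f < Nf ∧ k < off := fun j f k h => by
    rcases eq_or_ne j j0 with rfl | hne'
    · rw [hW0.1, List.mem_singleton] at h; simp at h
    · rw [(hne j hne').1] at h; exact hlins f k h
  -- all loops with amplitudes in range are good
  have hsys := fun τ ε => hsys W hW (fun j f k h => (hins j f k h).1) j0 t0 ht hj1 h5 τ ε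
  have hgood : W.LoopsGood κ Cc (Model.modelPM s Nf) j0 t0 ht Ra K ε₀ A :=
    fun i v ε h0 h1 hv => (hsys _ ε h0 h1 (W.oneParams_ampOk j0 t0 ht hRa h0 hv)).2.2.1 i
  obtain ⟨hR0keep, g₀, hR0diag⟩ := hcc.exists_capR_diag t0
  have hR0n : ‖hcc.capR t0‖ ≤ A * (1 / ((j0 : ℝ) + 1) ^ 5) := by
    have h := (hsys 0 0 le_rfl hε₀.le fun i m hm => Piece.ampOk_zero hRa le_rfl).2.1
    simpa using h
  set Mo := Model.modelPM s Nf with hMo
  let Inv : ℕ → (HSp →L[ℝ] HSp) → Prop := fun i R => Loop.Keeps0 R ∧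
    (i = 0 → R = hcc.capR t0) ∧ (1 ≤ i → ‖R‖ ≤ Real.exp (-4 * b i ^ 6))
  let P : ℕ → (ℕ → ℝ) → Prop := fun i v => W.AmpAt j0 i v Ra (εA i)
  have hInv : ∀ i R, Inv i R → ∀ ε, 0 ≤ ε → ‖R‖ ≤ A * (1 / b i ^ 5 + ε) := by
    intro i R hR ε hε
    rcases Nat.eq_zero_or_pos i with rfl | hi
    · rw [hR.2.1 rfl]
      refine hR0n.trans ?_
      simp only [hb, Nat.add_zero]
      exact mul_le_mul_of_nonneg_left (le_add_of_nonneg_right hε) (zero_le_one.trans hA)
    · exact ((hR.2.2 hi).trans (hnum i).2.1).trans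
        ((le_add_of_nonneg_right hε).trans (le_mul_of_one_le_left (by positivity) hA))
  have hLG : ∀ i v R, P i v → Inv i R →
      W.LoopGood κ Cc Mo j0 t0 ht (LoopSpec.oneParams i v) K (εA i) i R := fun i v R hv hR =>
    hgood i v (εA i) (Real.exp_nonneg _) (hnum i).2.2.2.1 hv R (hInv i R hR _ (Real.exp_nonneg _))
  let G : ℕ → Params → (HSp →L[ℝ] HSp) → Prop := fun i τ R =>
    LoopStep Mb (stepPerm i) Et ((W.sched j0 t0 ht).T6 i) ((W.sched j0 t0 ht).T7 i)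
      (backChain (W.segs κ Cc Mo j0 t0 ht τ i) R 0 (W.prog (j0 + i)).length)
  obtain ⟨τ, hτ, hall⟩ := W.exists_params κ Cc Mo j0 t0 ht (hcc.capR t0) Inv P G 0
    (fun i Q hQ => Piece.ampOk_zero hRa (Real.exp_nonneg _))
    ⟨hR0keep, fun _ => rfl, fun h => absurd h (by omega)⟩
    (fun τ hτ i R hR => by
      refine ⟨Loop.keeps0_slopes (fun m => Loop.keepsSeg_segs (Model.zeroCol_modelPM s Nf) τ i m)
        hR.1 _, fun h => absurd h (by omega), fun _ => ?_⟩
      rw [LoopSpec.segs_eq_of_amps (τ' := LoopSpec.oneParams i (τ i)) (LoopSpec.oneParams_self i _).symm]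
      refine (hLG i _ R (hτ i) hR).next_small.trans ((hnum i).1.trans_eq ?_)
      simp only [hb]
      push_cast
      ring_nf)
    (fun i R hR => by
      cases i with
      | zero =>
        refine ⟨0, fun Q hQ => Piece.ampOk_zero hRa (Real.exp_nonneg _), fun τ _ _ => ?_⟩
        show LoopStep Mb (stepPerm 0) Et _ _ _
        rw [hR.2.1 rfl]
        exact (hF W j0 t0 ht hW hj4 h8 hgood hW0.1 hW0.2.1 hW0.2.2 _ g₀ hR0diag hR0n τ).mono_E
          ((le_max_right _ _).trans (le_max_left _ _)) (pow_nonneg (zero_le_one.trans (Sched.one_le_base _ _)) 6)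
      | succ n =>
        obtain ⟨hWc, hWj, hWt⟩ := hWs n
        obtain ⟨θ, hθ, hideal⟩ := hI W j0 t0 ht hW hj3 h8 hgood (n + 1) n hWj hWt
          (fun f k h => (hins _ f k h).2)
        obtain ⟨v, hv, hvl, hcor⟩ := hC W j0 t0 ht hW hj2 h8 hgood (n + 1) (by omega) hWc
          (fun J g k h => (hword n).2.2 J g k (hWt ▸ h)) θ (fun k => (hθ k).trans (le_max_left _ _))
          R (hR.2.2 (by omega)) hR.1
        have hPv : P (n + 1) v := by
          intro Q hQ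
          simp only [LoopSpec.prog, loopProg, List.mem_append, List.mem_singleton, hWc, hWt,
            or_assoc] at hQ
          rcases hQ with h | rfl | rfl | h | rfl | rfl
          · exact (hvl Q h).mono (le_max_right _ _) le_rfl
          · trivial
          · trivial
          · have hQc := (hword n).2.1 Q h
            cases Q with
            | exc J g k =>
              show |v k| ≤ Ra
              rw [hv k ((hword n).2.2 J g k h)]
              exact (hθ k).trans (le_max_left _ _)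
            | ins f k => exact hQc.elim
            | _ => trivial
          · trivial
          · trivial
        refine ⟨v, hPv, fun τ _ hτi => ?_⟩
        show LoopStep Mb (stepPerm (n + 1)) Et _ _ _
        set τ' := LoopSpec.oneParams (n + 1) v
        have hτ' : τ' (n + 1) = v := LoopSpec.oneParams_self _ _
        rw [LoopSpec.segs_eq_of_amps (τ' := τ') (hτi.trans hτ'.symm)]
        obtain ⟨hF1, hF2⟩ := hcor τ' hτ'
        obtain ⟨hP1, hP2, hP3⟩ := hideal τ' fun k hk => by rw [hτ']; exact hv k hk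
        have hg : W.LoopGood κ Cc Mo j0 t0 ht τ' K (εA (n + 1)) (n + 1) R := hLG (n + 1) v R hPv hR
        obtain ⟨-, -, -, -, hn6, hn7, hn8, hn9⟩ := hnum (n + 1)
        set u := 1 / b (n + 1) ^ 5 + εA (n + 1)
        have hclt : (W.corr (j0 + (n + 1))).length < (W.prog (j0 + (n + 1))).length := by
          rw [W.prog_length]; omega
        have hK0 : 0 ≤ K := zero_le_one.trans hK
        have hsm : K * (K * u) ≤ 1 / 4 := hg.small
        have hu : 0 ≤ K * u := mul_nonneg hK0 (by positivity)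
        have e := hg.map_eq.trans (loopMap_eq_of_le (d := K * u) hK0 (Real.exp_nonneg _) hg.buf_C
          hg.buf_bd.Q hg.buf_bd.B hg.rest_bd.B hg.buf_D
          (hg.corr_back.2 ▸ (hg.step _ hclt).2.2) (by linarith) (by
            rw [show -(4 * b (n + 1) ^ 6) = -4 * b (n + 1) ^ 6 by ring]
            nlinarith [mul_le_mul hn6 hsm (mul_nonneg hK0 hu) zero_le_one]))
        rw [e]
        exact (loopStep_of_factor hP1 hB hn9 hn7 hF1 hF2 hP2 hP3 hn8
          (pow_nonneg (zero_le_one.trans (Sched.one_le_base _ _)) 6)).mono_E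
          ((le_max_left _ _).trans (le_max_left _ _))
          (pow_nonneg (zero_le_one.trans (Sched.one_le_base _ _)) 6))
  -- the schedule and its system
  set ε := εA 0
  have hεle : ∀ i, εA i ≤ ε := fun i => Real.exp_le_exp.2 (by
    have : b 0 ^ 6 ≤ b i ^ 6 := pow_le_pow_left₀ (by positivity) (by
      simp only [hb]; push_cast; linarith [(Nat.cast_nonneg i : (0 : ℝ) ≤ i)]) 6
    linarith)
  have hamp : (W.sched j0 t0 ht).AmpOk τ Ra ε := fun i m hm =>
    (hτ i _ (List.getElem_mem hm)).mono le_rfl (hεle i)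
  have hricci : ∀ i m, ∀ h : m < (W.prog (j0 + i)).length,
      ((W.prog (j0 + i))[m]).RicciAmp Nf (j0 + i) (τ i) := by
    intro i m hm
    have h1 := hτ i _ (List.getElem_mem hm)
    rcases hQ : (W.prog (j0 + i))[m] with ⟨J, q⟩ | ⟨J, g, k⟩ | J | J | ⟨f, k⟩
    all_goals rw [hQ] at h1
    · trivial
    · show |τ i k| ≤ _
      have h1 : |τ i k| ≤ Ra := h1
      have h2 : ((j0 : ℝ) + 1) ^ 5 ≤ (((j0 + i : ℕ) : ℝ) + 1) ^ 5 :=
        pow_le_pow_left₀ (by positivity) (by push_cast; linarith [(Nat.cast_nonneg i : (0 : ℝ) ≤ i)]) 5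
      show _ ≤ (((j0 + i : ℕ) : ℝ) + 1) ^ 5 / 20
      linarith
    · trivial
    · trivial
    · obtain ⟨h', e⟩ : ∃ h : m < (W.corr (j0 + i)).length, (W.corr (j0 + i))[m] = Piece.ins f k := by
        rcases W.prog_getElem (j0 + i) m hm with
          ⟨h', e⟩ | ⟨-, e⟩ | ⟨-, e⟩ | ⟨h', -, e⟩ | ⟨-, e⟩ | ⟨-, e⟩
        · exact ⟨h', e.symm.trans hQ⟩
        all_goals rw [hQ] at e
        any_goals simp at e
        have hc := hW.ctrl_ok (j0 + i) _ (List.getElem_mem h')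
        rw [← e] at hc
        exact hc.elim
      exact ⟨(hins _ f k (e ▸ List.getElem_mem h')).1, le_trans h1 (hnum i).2.2.1⟩
  obtain ⟨H, hM, hd⟩ := hpar W τ ε hW hamp hricci
  obtain ⟨-, -, -, -, Z, -, hback, -, -⟩ :=
    hsys τ ε (Real.exp_nonneg _) (hnum 0).2.2.2.1 hamp
  have ho : (fun _ => (1 : ℝ) : Pt 7) ∈ chart := by
    show 0 < ys _
    simp only [ys]; norm_num
  refine hN₅ (capData κ T hT) (W.sched j0 t0 ht) Model.modelF τ s 10 _ (rad1 _) (2 * P0 + 4) Z H hM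
    ho (hd _ ho) (by omega) (by omega) (LoopSpec.prog_length_le hW) (LoopSpec.power_le hW)
    (W.exists_hold) hj5 (fun i => ?_) (loopBlock_of_steps fun i => ?_)
  · exact ((LoopSpec.lenNear (j0 := j0) (t0 := t0) (ht := ht) hW) i).trans
      (mul_le_mul_of_nonneg_right (le_max_right _ _) (pow_nonneg (zero_le_one.trans (Sched.one_le_base _ _)) 6))
  · rw [hback i]
    exact (hall i).2

end

end Vale.Agent.P225
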