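import Vale.Agent.P225.Assembly.Recursion
import Vale.Agent.P225.Assembly.System
import Vale.Agent.P225.Loop.Keeps

/-!
P225 assembly (helper29): what the corrector, the controls and the diagonal first loop deliver for
the loops of a late schedule. Proved in Loop/*; consumed by Assembly/Main.
-/

namespace Vale.Agent.P225

noncomputable section

namespace LoopSpec

variable (W : LoopSpec) (κ C : ℝ) (Mo : PieceModel) (j0 : ℕ) (t0 : ℝ) (ht : 1 ≤ t0)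

/-- Buffer, transit, control, return and hold without the perturbation of slope and corrector. -/
def idealMap (τ : Params) (i : ℕ) : HSp →L[ℝ] HSp :=
  (W.bufSeg κ C Mo j0 t0 ht τ i).Q.comp (W.restSeg κ C Mo j0 t0 ht τ i).Q

/-- The amplitudes of the pieces of loop `i` are in range. -/
def AmpAt (i : ℕ) (v : ℕ → ℝ) (R ε : ℝ) : Prop := ∀ P ∈ W.prog (j0 + i), P.AmpOk v R ε

/-- Amplitudes of one loop, zero in the others. -/
def oneParams (i : ℕ) (v : ℕ → ℝ) : Params := fun l => if l = i then v else 0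

theorem oneParams_self (i : ℕ) (v : ℕ → ℝ) : oneParams i v i = v := if_pos rfl

theorem oneParams_ampOk {i : ℕ} {v : ℕ → ℝ} {R ε : ℝ} (hR : 0 ≤ R) (hε : 0 ≤ ε)
    (h : W.AmpAt j0 i v R ε) : (W.sched j0 t0 ht).AmpOk (oneParams i v) R ε := by
  intro l m hm
  rcases eq_or_ne l i with rfl | hne
  · rw [oneParams_self]
    exact h _ (List.getElem_mem _)
  · rw [oneParams, if_neg hne]
    generalize ((W.sched j0 t0 ht).prog ((W.sched j0 t0 ht).j0 + l))[m] = P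
    cases P <;> simp [Piece.AmpOk, hR, hε]

/-- All loops with amplitudes in range and small incoming slope are good. -/
def LoopsGood (Ra K ε₀ A : ℝ) : Prop :=
  ∀ i v ε, 0 ≤ ε → ε ≤ ε₀ → W.AmpAt j0 i v Ra ε →
    ∀ R, ‖R‖ ≤ A * (1 / (((j0 + i : ℕ) : ℝ) + 1) ^ 5 + ε) →
      W.LoopGood κ C Mo j0 t0 ht (oneParams i v) K ε i R

end LoopSpec

/-- Controls: for every step of the word a junction and a list of excursions with parameter indices
from `off` on, whose amplitudes make the unperturbed loop map the signed transposition of that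
step. -/
def IdealParts (κ : ℝ) (s Mb : ℕ) : Prop :=
  ∀ off : ℕ, ∃ (P1 : ℕ) (R1 : ℝ) (junc : ℕ → Fin 3) (word : ℕ → List Piece), 0 ≤ R1 ∧
    (∀ n, (word n).length ≤ P1 ∧ (∀ P ∈ word n, P.IsCtrl (junc n)) ∧
      ∀ J g k, Piece.exc J g k ∈ word n → off ≤ k) ∧
    ∀ (P0 Nf : ℕ) (Ra Cc K ε₀ A : ℝ), R1 ≤ Ra → 0 ≤ Cc → 1 ≤ K → 0 < ε₀ → 1 ≤ A →
      ∃ (E : ℝ) (N : ℕ), 0 ≤ E ∧ ∀ (W : LoopSpec) (j0 : ℕ) (t0 : ℝ) (ht : 1 ≤ t0),
        W.Ok P0 → N ≤ j0 → t0 = ((j0 : ℝ) + 1) ^ 8 →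
        W.LoopsGood κ Cc (Model.modelPM s Nf) j0 t0 ht Ra K ε₀ A →
        ∀ i n, W.junc (j0 + i) = junc n → W.ctrl (j0 + i) = word n →
          (∀ f k, Piece.ins f k ∈ W.corr (j0 + i) → k < off) →
          ∃ θ : ℕ → ℝ, (∀ k, |θ k| ≤ R1) ∧ ∀ τ : Params, (∀ k, off ≤ k → τ i k = θ k) →
            Loop.IdealBlock Mb (Count.tau n) E ((W.sched j0 t0 ht).T6 i) ((W.sched j0 t0 ht).T7 i)
              (W.idealMap κ Cc (Model.modelPM s Nf) j0 t0 ht τ i) ∧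
            ‖W.idealMap κ Cc (Model.modelPM s Nf) j0 t0 ht τ i‖
              ≤ Real.exp (E * (W.sched j0 t0 ht).T6 i) ∧
            ‖(W.idealMap κ Cc (Model.modelPM s Nf) j0 t0 ht τ i).comp
                (farP (wMono Mb) (wAxis Mb))‖
              ≤ Real.exp (-(Mb : ℝ) * (W.sched j0 t0 ht).T7 i + E * (W.sched j0 t0 ht).T6 i)

/-- Corrector: one list of waits, excursions and insertions with parameter indices below `off`
whose amplitudes correct the left factor of every late loop, whatever the control does. -/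
def CorrParts (κ : ℝ) (s Mb : ℕ) : Prop :=
  ∃ (Nf off P2 : ℕ) (R2 : ℝ) (list : List Piece), 0 ≤ R2 ∧
    list.head? = some (Piece.wait 0 5) ∧ list.length ≤ P2 ∧ (∀ P ∈ list, P.IsCorr) ∧
    (∀ f k, Piece.ins f k ∈ list → f < Nf ∧ k < off) ∧
    (∀ J g k, Piece.exc J g k ∈ list → k < off) ∧
    ∀ (P0 : ℕ) (Ra Cc K ε₀ A : ℝ), R2 ≤ Ra → 0 ≤ Cc → 1 ≤ K → 0 < ε₀ → 1 ≤ A →
      ∃ (B E₁ : ℝ) (N : ℕ), 0 ≤ B ∧ 0 ≤ E₁ ∧ ∀ (W : LoopSpec) (j0 : ℕ) (t0 : ℝ) (ht : 1 ≤ t0),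
        W.Ok P0 → N ≤ j0 → t0 = ((j0 : ℝ) + 1) ^ 8 →
        W.LoopsGood κ Cc (Model.modelPM s Nf) j0 t0 ht Ra K ε₀ A →
        ∀ i, 1 ≤ i → W.corr (j0 + i) = list →
          (∀ J g k, Piece.exc J g k ∈ W.ctrl (j0 + i) → off ≤ k) →
          ∀ σ : ℕ → ℝ, (∀ k, |σ k| ≤ Ra) → ∀ R : HSp →L[ℝ] HSp,
            ‖R‖ ≤ Real.exp (-4 * (W.sched j0 t0 ht).T6 i) → Loop.Keeps0 R →
            ∃ v : ℕ → ℝ, (∀ k, off ≤ k → v k = σ k) ∧
              (∀ P ∈ list, P.AmpOk v R2 (Real.exp (-3 * (W.sched j0 t0 ht).T6 i))) ∧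
              ∀ τ : Params, τ i = v →
                Loop.Corrected (fun q : Loop.WSt (Loop.corrW Mb) => Loop.axSt q.1) B
                  ((W.sched j0 t0 ht).base i ^ 5) ((W.sched j0 t0 ht).T6 i)
                  (Loop.facMat (loopFactor (W.corrSeg κ Cc (Model.modelPM s Nf) j0 t0 ht τ i)
                    (W.bufSeg κ Cc (Model.modelPM s Nf) j0 t0 ht τ i)
                    (W.restSeg κ Cc (Model.modelPM s Nf) j0 t0 ht τ i) R)) ∧
                ‖loopFactor (W.corrSeg κ Cc (Model.modelPM s Nf) j0 t0 ht τ i)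
                    (W.bufSeg κ Cc (Model.modelPM s Nf) j0 t0 ht τ i)
                    (W.restSeg κ Cc (Model.modelPM s Nf) j0 t0 ht τ i) R‖
                  ≤ Real.exp (E₁ * (W.sched j0 t0 ht).T6 i)

/-- The first loop, without corrector and control, is diagonal. -/
def FirstParts (κ : ℝ) (s Mb : ℕ) : Prop :=
  ∀ (P0 Nf : ℕ) (Ra Cc K ε₀ A : ℝ), 0 ≤ Ra → 0 ≤ Cc → 1 ≤ K → 0 < ε₀ → 1 ≤ A →
    ∃ (E : ℝ) (N : ℕ), 0 ≤ E ∧ ∀ (W : LoopSpec) (j0 : ℕ) (t0 : ℝ) (ht : 1 ≤ t0),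
      W.Ok P0 → N ≤ j0 → t0 = ((j0 : ℝ) + 1) ^ 8 →
      W.LoopsGood κ Cc (Model.modelPM s Nf) j0 t0 ht Ra K ε₀ A →
      W.corr j0 = [Piece.wait 0 5] → W.junc j0 = 0 → W.ctrl j0 = [] →
      ∀ (R₀ : HSp →L[ℝ] HSp) (g : St → ℝ), (∀ x k, R₀ x k = g k * x k) →
        ‖R₀‖ ≤ A * (1 / ((j0 : ℝ) + 1) ^ 5) → ∀ τ : Params,
          LoopStep Mb id E ((W.sched j0 t0 ht).T6 0) ((W.sched j0 t0 ht).T7 0)
            (backChain (W.segs κ Cc (Model.modelPM s Nf) j0 t0 ht τ 0) R₀ 0 (W.prog j0).length)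

end

end Vale.Agent.P225
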