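import Vale.Agent.P225.Assembly.Harmonic
import Vale.Agent.P225.Model.IsoLap

/-!
P225 assembly (helper23): what is asked of the model operators of the pieces, uniqueness of
coefficient vectors on the cross-section, and the bound of the excursion operators.
-/

namespace Vale.Agent.P225

open scoped BigOperators
open Set Matrix MeasureTheory
open Sphere (Y)

noncomputable section

/-- The operators of the pieces in the basis `Y`, with polynomial bounds. -/
structure PieceOps (F : ModelFields Sph) : Type where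
  q : ℕ
  iso : Fin 3 → ℕ → (Fin 3 → ℝ) → St → (St →₀ ℝ)
  ins₁ : ℕ → St → (St →₀ ℝ)
  ins₂ : ℕ → St → (St →₀ ℝ)
  iso_eq : ∀ J g w i z, Model.OnS z →
    crossLap (fun x => F.iso J g x * gram w * (F.iso J g x)ᵀ) (Y i) z
      = -(iso J g w i).sum fun j a => a * Y j z
  ins_eq : ∀ f (e : ℝ) i z, Model.OnS z →
    crossLap (fun x => (1 + e • F.nil f x)ᵀ * gram (rawExc 0) * (1 + e • F.nil f x)) (Y i) z
      = -(Finsupp.single i (Blk.lam (rawExc 0) i.blk) + e • ins₁ f i + e ^ 2 • ins₂ f i).sum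
          fun j a => a * Y j z
  iso_bd : ∀ J g, ∃ K : ℝ, ∀ w i, ((iso J g w i).sum fun j a => |a| * j.blk.mu ^ 4)
    ≤ K * (|w 0| + |w 1| + |w 2|) * i.blk.mu ^ q
  ins_bd : ∀ f, ∃ K : ℝ, ∀ i, ((ins₁ f i).sum fun j a => |a| * j.blk.mu ^ 4) ≤ K * i.blk.mu ^ q ∧
    ((ins₂ f i).sum fun j a => |a| * j.blk.mu ^ 4) ≤ K * i.blk.mu ^ q

/-- A finite combination of the basis that vanishes on the cross-section is zero. -/
theorem finsupp_eq_of_onS {a b : St →₀ ℝ}
    (h : ∀ z, Model.OnS z →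
      (a.sum fun j c => c * Y j z) = b.sum fun j c => c * Y j z) : a = b := by
  classical
  ext i
  have key : ∀ a : St →₀ ℝ,
      ∫ z, Y i (Sphere.crd2 z) * (a.sum fun j c => c * Y j (Sphere.crd2 z)) ∂Sphere.haarN = a i := by
    intro a
    have hint : ∀ j, Integrable (fun z => a j * (Y i (Sphere.crd2 z) * Y j (Sphere.crd2 z)))
        Sphere.haarN := fun j =>
      (continuous_const.mul ((continuous_Y_crd2 i).mul
        (continuous_Y_crd2 j))).integrable_of_hasCompactSupport (HasCompactSupport.of_compactSpace _)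
    simp only [Finsupp.sum, Finset.mul_sum, mul_left_comm (Y i _)]
    rw [integral_finsetSum _ fun j _ => hint j]
    simp only [integral_const_mul, integral_Y_mul, mul_ite, mul_one, mul_zero, Finset.sum_ite_eq]
    split_ifs with hi
    · rfl
    · exact (Finsupp.notMem_support_iff.1 hi).symm
  rw [← key a, ← key b]
  exact integral_congr_ae (Filter.Eventually.of_forall fun z => by
    simp only [h _ (Model.onS_crd2 z)])

theorem crossLap_const_smul (c : ℝ) (P : Sph → M6) (Φ : Sph → ℝ) (z : Sph) :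
    crossLap (fun x => c • P x) Φ z = c * crossLap P Φ z := by
  simp only [crossLap, Finset.mul_sum]
  refine Finset.sum_congr rfl fun p _ => ?_
  rw [show (fun w => ∑ q, (c • P w) p q * fderiv ℝ Φ w (sfield q w))
    = fun w => c • ∑ q, P w p q * fderiv ℝ Φ w (sfield q w) from funext fun w => by
      simp [Finset.mul_sum, mul_assoc]]
  rcases eq_or_ne c 0 with rfl | hc
  · simp
  · have := invertibleOfNonzero hc
    rw [show (fun w => c • ∑ q, P w p q * fderiv ℝ Φ w (sfield q w))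
      = c • fun w => ∑ q, P w p q * fderiv ℝ Φ w (sfield q w) from rfl,
      fderiv_const_smul_of_invertible]
    simp

theorem smul_sum_Y (c : ℝ) (a : St →₀ ℝ) (z : Sph) :
    ((c • a).sum fun j r => r * Y j z) = c * a.sum fun j r => r * Y j z := by
  rw [Finsupp.sum_smul_index fun j => zero_mul _, Finsupp.mul_sum]
  simp only [mul_assoc]

theorem abs_lam_le (w : Fin 3 → ℝ) (V : Blk) :
    |Blk.lam w V| ≤ (|w 0| + |w 1| + |w 2|) * V.mu ^ 2 := by
  have h : ∀ x : ℕ, (x : ℝ) + 1 ≤ V.mu → 0 ≤ Blk.cas x ∧ Blk.cas x ≤ V.mu ^ 2 := fun x hx => by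
    have hx0 : (0 : ℝ) ≤ x := Nat.cast_nonneg _
    refine ⟨by unfold Blk.cas; positivity, ?_⟩
    calc Blk.cas x ≤ ((x : ℝ) + 1) ^ 2 := by unfold Blk.cas; nlinarith
      _ ≤ V.mu ^ 2 := by gcongr
  have ha : (0 : ℝ) ≤ V.la := Nat.cast_nonneg _
  have hb : (0 : ℝ) ≤ V.lb := Nat.cast_nonneg _
  have hc : (0 : ℝ) ≤ V.lc := Nat.cast_nonneg _
  obtain ⟨p0, q0⟩ := h V.la (by simp only [Blk.mu]; linarith)
  obtain ⟨p1, q1⟩ := h V.lb (by simp only [Blk.mu]; linarith)
  obtain ⟨p2, q2⟩ := h V.lc (by simp only [Blk.mu]; linarith)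
  unfold Blk.lam
  refine (abs_add_three _ _ _).trans ?_
  rw [abs_mul, abs_mul, abs_mul, abs_of_nonneg p0, abs_of_nonneg p1, abs_of_nonneg p2]
  simp only [add_mul]
  gcongr

theorem sum_abs_single (c : ℝ) (i : St) :
    ((Finsupp.single i c).sum fun j a => |a| * j.blk.mu ^ 4) = |c| * i.blk.mu ^ 4 :=
  Finsupp.sum_single_index (by simp)

/-- The number of states of one level. -/
theorem card_levSet_le (J : Fin 3) (i : St) :
    ((Sphere.levSet J (i.blk.level J)).card : ℝ) ≤ i.blk.mu ^ 4 := by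
  set L := i.blk.level J
  have hL : 1 + (L.1 : ℝ) + L.2 ≤ i.blk.mu := Sphere.level_le_mu J _
  set n := L.1 + L.2
  let f : St → ℕ × ℕ := fun k => (![k.blk.lc, k.blk.la, k.blk.lb] J, k.2)
  have hmem : ∀ k ∈ Sphere.levSet J L, f k ∈ Finset.range (n + 1) ×ˢ Finset.range ((n + 1) ^ 3) := by
    intro k hk
    obtain ⟨ha, hb, hc⟩ := labels_le_of_level (Sphere.mem_levSet.1 hk)
    simp only [f, Finset.mem_product, Finset.mem_range]
    refine ⟨Nat.lt_succ_of_le (by fin_cases J <;> assumption), k.2.2.trans_le ?_⟩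
    simp only [Blk.dim, St.blk] at ha hb hc ⊢
    calc _ ≤ (n + 1) * (n + 1) * (n + 1) := by gcongr
      _ = (n + 1) ^ 3 := by ring
  have hinj : Set.InjOn f (Sphere.levSet J L) := by
    rintro ⟨V, m⟩ hk ⟨V', m'⟩ hk' he
    have e1 := Sphere.mem_levSet.1 hk
    have e2 := Sphere.mem_levSet.1 hk'
    simp only [St.blk] at e1 e2
    simp only [f, Prod.mk.injEq, St.blk] at he
    obtain ⟨h3, hm⟩ := he
    have hV : V = V' := by
      have e := congrArg Prod.fst (e1.trans e2.symm)
      have e' := congrArg Prod.snd (e1.trans e2.symm)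
      clear hmem hk hk' e1 e2
      refine Subtype.ext (Prod.ext ?_ (Prod.ext ?_ ?_)) <;>
        fin_cases J <;> simp [Blk.level, Blk.la, Blk.lb, Blk.lc] at e e' h3 ⊢ <;> omega
    subst hV
    rw [Fin.ext hm]
  have hc := Finset.card_le_card_of_injOn f hmem hinj
  rw [Finset.card_product, Finset.card_range, Finset.card_range] at hc
  calc ((Sphere.levSet J L).card : ℝ) ≤ (((n + 1) * (n + 1) ^ 3 : ℕ) : ℝ) := by exact_mod_cast hc
    _ = (1 + (L.1 : ℝ) + L.2) ^ 4 := by simp only [n]; push_cast; ring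
    _ ≤ i.blk.mu ^ 4 := pow_le_pow_left₀ (by positivity) hL 4

/-- Bound of the rows of an excursion operator. -/
theorem isoKer_bd (J : Fin 3) (g : ℕ) (w : Fin 3 → ℝ) (i : St) :
    ((Model.isoKer J g w i).sum fun j a => |a| * j.blk.mu ^ 4)
      ≤ 64 * (|w 0| + |w 1| + |w 2|) * i.blk.mu ^ 10 := by
  set W := |w 0| + |w 1| + |w 2|
  set s := Sphere.levSet J (i.blk.level J)
  set T := Alg.isoJ J (Model.isoIdx g)
  have hW : 0 ≤ W := by positivity
  have hi : 0 ≤ i.blk.mu := zero_le_one.trans (Blk.one_le_mu _)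
  have hmu : ∀ k ∈ s, k.blk.mu ≤ 2 * i.blk.mu := fun k hk => by
    refine (Blk.mu_le_level J k.blk).trans (mul_le_mul_of_nonneg_left ?_ zero_le_two)
    rw [Sphere.mem_levSet.1 hk]
    exact Sphere.level_le_mu J _
  have hrow : ∀ j, ∑ k ∈ s, |T.M i k| * |T.M j k| ≤ ∑ k ∈ s, (T.M i k ^ 2 + T.M j k ^ 2) / 2 :=
    fun j => Finset.sum_le_sum fun k _ => by
      nlinarith [sq_nonneg (|T.M i k| - |T.M j k|), sq_abs (T.M i k), sq_abs (T.M j k)]
  have hunit : ∀ j ∈ s, ∑ k ∈ s, T.M j k ^ 2 = 1 := fun j hj => by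
    have h := (Alg.isoJInv J (Model.isoIdx g)).orth (i := j) (k := j) (s := s) fun k hk =>
      (Alg.isoJInv_moves J _).zero (Sphere.mem_levSet.1 hj) hk
    rw [if_pos rfl] at h
    rw [← h]
    refine Finset.sum_congr rfl fun k _ => ?_
    rw [Model.M_inverse (Alg.isoJ_inverse J (Model.isoIdx g)).1]
    ring
  rw [Model.isoKer, Finsupp.onFinset_sum _ fun j => by simp]
  calc ∑ j ∈ s, |Model.isoEnt J g w i j| * j.blk.mu ^ 4
      ≤ ∑ _j ∈ s, W * (2 * i.blk.mu) ^ 2 * (2 * i.blk.mu) ^ 4 := by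
        refine Finset.sum_le_sum fun j hj => ?_
        have hj0 : 0 ≤ j.blk.mu := zero_le_one.trans (Blk.one_le_mu _)
        refine mul_le_mul ?_ (pow_le_pow_left₀ hj0 (hmu j hj) 4) (by positivity) (by positivity)
        refine (Finset.abs_sum_le_sum_abs _ _).trans ?_
        calc ∑ k ∈ s, |T.M i k * Blk.lam w k.blk * T.M j k|
            ≤ ∑ k ∈ s, W * (2 * i.blk.mu) ^ 2 * (|T.M i k| * |T.M j k|) := by
              refine Finset.sum_le_sum fun k hk => ?_
              have hk0 : 0 ≤ k.blk.mu := zero_le_one.trans (Blk.one_le_mu _)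
              rw [abs_mul, abs_mul, mul_comm |T.M i k|, mul_assoc]
              refine mul_le_mul_of_nonneg_right ((abs_lam_le w k.blk).trans ?_) (by positivity)
              gcongr
              exact hmu k hk
          _ ≤ W * (2 * i.blk.mu) ^ 2 * 1 := by
              rw [← Finset.mul_sum]
              refine mul_le_mul_of_nonneg_left ((hrow j).trans ?_) (by positivity)
              rw [← Finset.sum_div, Finset.sum_add_distrib, hunit i (Sphere.mem_levSet.2 rfl),
                hunit j hj]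
              norm_num
          _ = W * (2 * i.blk.mu) ^ 2 := mul_one _
    _ = (s.card : ℝ) * (W * (2 * i.blk.mu) ^ 2 * (2 * i.blk.mu) ^ 4) := by
        rw [Finset.sum_const, nsmul_eq_mul]
    _ ≤ i.blk.mu ^ 4 * (W * (2 * i.blk.mu) ^ 2 * (2 * i.blk.mu) ^ 4) :=
        mul_le_mul_of_nonneg_right (card_levSet_le J i) (by positivity)
    _ = 64 * W * i.blk.mu ^ 10 := by ring

/-- The excursion half of `PieceOps` for the fields of the model. -/
def PieceOps.ofIso {F : ModelFields Sph} (hF : ∀ J g x, F.iso J g x = Model.isoA J g x)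
    (q : ℕ) (hq : 10 ≤ q) (ins₁ ins₂ : ℕ → St → (St →₀ ℝ))
    (ins_eq : ∀ f (e : ℝ) i z, Model.OnS z →
      crossLap (fun x => (1 + e • F.nil f x)ᵀ * gram (rawExc 0) * (1 + e • F.nil f x)) (Y i) z
        = -(Finsupp.single i (Blk.lam (rawExc 0) i.blk) + e • ins₁ f i + e ^ 2 • ins₂ f i).sum
            fun j a => a * Y j z)
    (ins_bd : ∀ f, ∃ K : ℝ, ∀ i,
      ((ins₁ f i).sum fun j a => |a| * j.blk.mu ^ 4) ≤ K * i.blk.mu ^ q ∧
      ((ins₂ f i).sum fun j a => |a| * j.blk.mu ^ 4) ≤ K * i.blk.mu ^ q) : PieceOps F where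
  q := q
  iso := Model.isoKer
  ins₁ := ins₁
  ins₂ := ins₂
  iso_eq J g w i z hz := by
    simp only [hF]
    exact Model.crossLap_iso J g w i hz
  ins_eq := ins_eq
  iso_bd J g := ⟨64, fun w i => (isoKer_bd J g w i).trans
    (mul_le_mul_of_nonneg_left (pow_le_pow_right₀ (Blk.one_le_mu _) hq) (by positivity))⟩
  ins_bd := ins_bd

end

end Vale.Agent.P225
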