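import Vale.Agent.P225.Loop.LoopData
import Vale.Agent.P225.Loop.Corrector

/-!
P225 assembly (helper29): the amplitudes of the loops are chosen one loop after another, each from the
slope that reaches it; one corrected loop in the block form of `LoopBlock`.
-/

namespace Vale.Agent.P225

open Finset

noncomputable section

/-! ### The recursion -/

variable {W : LoopSpec} {κ C : ℝ} {Mo : PieceModel} {j0 : ℕ} {t0 : ℝ} {ht : 1 ≤ t0}

/-- The segments of a loop only depend on the amplitudes of this loop. -/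
theorem LoopSpec.segs_eq_of_amps {τ τ' : Params} {i : ℕ} (h : τ i = τ' i) :
    W.segs κ C Mo j0 t0 ht τ i = W.segs κ C Mo j0 t0 ht τ' i := by
  funext m
  simp only [LoopSpec.segs, Sched.seg]
  split_ifs with hm
  · have hs : (W.sched j0 t0 ht).slope κ τ i m = (W.sched j0 t0 ht).slope κ τ' i m := by
      funext k; simp only [Sched.slope, h]
    rw [hs, h]
  · rfl

/-- Amplitudes chosen loop by loop from the incoming slope, along an invariant of the slopes. -/
theorem LoopSpec.exists_params (W : LoopSpec) (κ C : ℝ) (Mo : PieceModel) (j0 : ℕ) (t0 : ℝ)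
    (ht : 1 ≤ t0) (R₀ : HSp →L[ℝ] HSp) (Inv : ℕ → (HSp →L[ℝ] HSp) → Prop)
    (P : ℕ → (ℕ → ℝ) → Prop) (G : ℕ → Params → (HSp →L[ℝ] HSp) → Prop) (base : Params)
    (hbase : ∀ i, P i (base i)) (hR₀ : Inv 0 R₀)
    (hnext : ∀ τ : Params, (∀ i, P i (τ i)) → ∀ i R, Inv i R →
      Inv (i + 1) (slopes (W.segs κ C Mo j0 t0 ht τ i) R (W.prog (j0 + i)).length))
    (hsel : ∀ i R, Inv i R → ∃ v, P i v ∧
      ∀ τ : Params, (∀ l, P l (τ l)) → τ i = v → G i τ R) :
    ∃ τ : Params, (∀ i, P i (τ i)) ∧ ∀ i, Inv i (W.slopeR κ C Mo j0 t0 ht τ R₀ i) ∧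
      G i τ (W.slopeR κ C Mo j0 t0 ht τ R₀ i) := by
  classical
  have hv : ∀ i R, ∃ v, P i v ∧ (Inv i R →
      ∀ τ : Params, (∀ l, P l (τ l)) → τ i = v → G i τ R) := fun i R => by
    by_cases h : Inv i R
    · obtain ⟨v, h1, h2⟩ := hsel i R h
      exact ⟨v, h1, fun _ => h2⟩
    · exact ⟨base i, hbase i, fun h' => absurd h' h⟩
  choose v hvP hvG using hv
  let step : ℕ → (HSp →L[ℝ] HSp) → HSp →L[ℝ] HSp := fun i R =>
    slopes (W.segs κ C Mo j0 t0 ht (fun _ => v i R) i) R (W.prog (j0 + i)).length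
  let Rs : ℕ → HSp →L[ℝ] HSp := fun i => Nat.rec R₀ step i
  set τ : Params := fun i => v i (Rs i) with hτ
  have hP : ∀ i, P i (τ i) := fun i => hvP i _
  have hR : ∀ i, W.slopeR κ C Mo j0 t0 ht τ R₀ i = Rs i := fun i => by
    induction i with
    | zero => rfl
    | succ i ih =>
      show slopes (W.segs κ C Mo j0 t0 ht τ i) _ _ = step i (Rs i)
      rw [ih, LoopSpec.segs_eq_of_amps (τ' := fun _ => v i (Rs i)) rfl]
  have hb : ∀ i, Inv i (Rs i) := fun i => by
    induction i with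
    | zero => exact hR₀
    | succ i ih =>
      rw [← hR (i + 1)]
      show Inv (i + 1) (slopes (W.segs κ C Mo j0 t0 ht τ i) _ _)
      exact hnext τ hP i _ (by rw [hR i]; exact ih)
  refine ⟨τ, hP, fun i => ?_⟩
  rw [hR i]
  exact ⟨hb i, hvG i _ (hb i) τ hP rfl⟩

/-- A loop lasts `(j+1)^7` up to `O((j+1)^6)`. -/
theorem LoopSpec.lenNear {P0 : ℕ} (hW : W.Ok P0) :
    (W.sched j0 t0 ht).LenNear (2 * P0 + 4) := by
  intro i
  set j := j0 + i
  set b : ℝ := (j : ℝ) + 1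
  have hb : 1 ≤ b := le_add_of_nonneg_left (Nat.cast_nonneg _)
  have e7 : (W.sched j0 t0 ht).T7 i = b ^ 7 := by
    simp only [Sched.T7, Sched.base, LoopSpec.sched, b, j]
  have e6 : (W.sched j0 t0 ht).T6 i = b ^ 6 := by
    simp only [Sched.T6, Sched.base, LoopSpec.sched, b, j]
  have hle : ∀ l : List Piece, (∀ P ∈ l, P.power ≤ 6) →
      0 ≤ (l.map fun P => P.len j).sum ∧ (l.map fun P => P.len j).sum ≤ l.length * b ^ 6 := by
    intro l hl
    refine ⟨List.sum_nonneg fun x hx => ?_, ?_⟩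
    · obtain ⟨P, -, rfl⟩ := List.mem_map.1 hx
      exact (P.len_pos _).le
    · induction l with
      | nil => simp
      | cons P l ih =>
        have h1 : P.len j ≤ b ^ 6 := pow_le_pow_right₀ hb (hl P (List.mem_cons_self ..))
        have h2 := ih fun Q hQ => hl Q (List.mem_cons_of_mem _ hQ)
        simp only [List.map_cons, List.sum_cons, List.length_cons]
        push_cast
        linarith
  set l := W.corr j ++ [Piece.wait 0 6] ++ [Piece.out (W.junc j)] ++ W.ctrl j ++ [Piece.back (W.junc j)]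
  have hl : ∀ P ∈ l, P.power ≤ 6 := by
    intro P hP
    simp only [l, List.mem_append, List.mem_singleton] at hP
    rcases hP with (((hP | rfl) | rfl) | hP) | rfl
    · exact (hW.corr_ok j P hP).facts.2.2.le.trans (by norm_num)
    · exact le_rfl
    · exact (show Piece.power (Piece.out (W.junc j)) ≤ 6 by simp [Piece.power])
    · exact (hW.ctrl_ok j P hP).facts.2.2.le.trans (by norm_num)
    · exact (show Piece.power (Piece.back (W.junc j)) ≤ 6 by simp [Piece.power])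
  have hlen : (l.length : ℝ) ≤ 2 * P0 + 4 := by
    have h1 := hW.corr_len j
    have h2 := hW.ctrl_len j
    have : l.length ≤ 2 * P0 + 4 := by simp [l]; omega
    exact_mod_cast this
  have e : (W.sched j0 t0 ht).loopLen j = (l.map fun P => P.len j).sum + b ^ 7 := by
    show ((W.prog j).map fun P => P.len j).sum = _
    rw [show W.prog j = l ++ [Piece.wait 0 7] from rfl, List.map_append, List.sum_append]
    simp [Piece.len, Piece.power, b]
  obtain ⟨h0, h1⟩ := hle l hl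
  show |(W.sched j0 t0 ht).loopLen (j0 + i) - (W.sched j0 t0 ht).T7 i| ≤ _
  rw [e, e7, e6, add_sub_cancel_right, abs_of_nonneg h0]
  exact h1.trans (mul_le_mul_of_nonneg_right hlen (by positivity))

/-! ### The block form of one loop -/

/-- The fields of `LoopBlock` at one loop. -/
structure LoopStep (Mb : ℕ) (π : St → St) (E T6 T7 : ℝ) (Q : HSp →L[ℝ] HSp) : Prop where
  mono : ∃ κ ρ : {q : St // q ∈ wMono Mb} → ℝ,
    (∀ q, 0 < κ q ∧ |ρ q| = 1 ∧ |Real.log (κ q) + alphaInf (π q.1) * T7| ≤ E * T6) ∧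
    ∀ u v q, ∀ h : π q.1 ∈ wMono Mb,
      pickW (wMono Mb) (Q (putW (wMono Mb) u + putW (wAxis Mb) v)) q = ρ q * (κ q * u ⟨π q.1, h⟩)
  axis : ∃ (κ : {q : St // q ∈ wAxis Mb} → ℝ)
      (Eax : ({q : St // q ∈ wAxis Mb} → ℝ) →L[ℝ] ({q : St // q ∈ wAxis Mb} → ℝ)),
    (∀ q, 0 < κ q ∧ |Real.log (κ q) + alphaInf q.1 * T7| ≤ E * T6) ∧
    ‖Eax‖ ≤ Real.exp (-T6 / 4) ∧
    ∀ u v, pickW (wAxis Mb) (Q (putW (wMono Mb) u + putW (wAxis Mb) v))
      = (1 + Eax) fun q => κ q * v q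
  farMono : ‖(pickW (wMono Mb)).comp (Q.comp (farP (wMono Mb) (wAxis Mb)))‖
    ≤ Real.exp (-((Mb : ℝ) - 1) * T7)
  farAxis : ‖(pickW (wAxis Mb)).comp (Q.comp (farP (wMono Mb) (wAxis Mb)))‖
    ≤ Real.exp (-((Mb : ℝ) - 1) * T7)
  bound : ((wMono Mb).card + (wAxis Mb).card : ℝ) * ‖Q‖ ≤ Real.exp T7
  farFar : ‖(farP (wMono Mb) (wAxis Mb)).comp (Q.comp (farP (wMono Mb) (wAxis Mb)))‖
    ≤ Real.exp (-((Mb : ℝ) - 1) * T7)

/-- `LoopBlock` from its loops. -/
theorem loopBlock_of_steps {S : Sched} {Mb : ℕ} {E : ℝ} {Q : ℕ → HSp →L[ℝ] HSp}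
    (h : ∀ i, LoopStep Mb (stepPerm i) E (S.T6 i) (S.T7 i) (Q i)) : LoopBlock S Mb E Q where
  mono i := (h i).mono
  axis i := (h i).axis
  farMono i := (h i).farMono
  farAxis i := (h i).farAxis
  bound i := (h i).bound
  farFar i := (h i).farFar

theorem norm_pickW_le (U : Finset St) : ‖pickW U‖ ≤ 1 :=
  ContinuousLinearMap.opNorm_le_bound _ zero_le_one fun x =>
    (pi_norm_le_iff_of_nonneg (by positivity)).2 fun q => by
      rw [pickW_apply, one_mul]; exact lp.norm_apply_le_norm (by norm_num) x q.1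

/-- One loop: a corrected left factor after a monomial ideal map with small far part. -/
theorem loopStep_of_factor {Mb : ℕ} {π : Equiv.Perm St} {B E E₁ T5 T6 T7 : ℝ}
    {F P : HSp →L[ℝ] HSp} (hP : Loop.IdealBlock Mb π E T6 T7 P) (hB : 0 ≤ B) (h56 : T5 ≤ T6)
    (hcard : ((wMono Mb).card + (wAxis Mb).card : ℝ) ≤ Real.exp (T6 / 4))
    (hF : Loop.Corrected (fun q : Loop.WSt (Loop.corrW Mb) => Loop.axSt q.1) B T5 T6 (Loop.facMat F))
    (hFn : ‖F‖ ≤ Real.exp (E₁ * T6)) (hPn : ‖P‖ ≤ Real.exp (E * T6))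
    (hfar : ‖P.comp (farP (wMono Mb) (wAxis Mb))‖ ≤ Real.exp (-(Mb : ℝ) * T7 + E * T6))
    (h67 : (E₁ + E + 1) * T6 ≤ T7) (hT6 : 0 ≤ T6) :
    LoopStep Mb π (E + B) T6 T7 (F.comp P) := by
  have hax : ((wAxis Mb).card : ℝ) ≤ Real.exp (T6 / 4) :=
    le_trans (le_add_of_nonneg_left (Nat.cast_nonneg _)) hcard
  obtain ⟨h1, h2⟩ := Loop.block_of_corrected hP hB h56 hax hF
  have hQ : ‖(F.comp P).comp (farP (wMono Mb) (wAxis Mb))‖ ≤ Real.exp (-((Mb : ℝ) - 1) * T7) := by
    rw [show (F.comp P).comp (farP (wMono Mb) (wAxis Mb))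
      = F.comp (P.comp (farP (wMono Mb) (wAxis Mb))) from rfl]
    refine (ContinuousLinearMap.opNorm_comp_le _ _).trans ((mul_le_mul hFn hfar (norm_nonneg _)
      (Real.exp_pos _).le).trans ?_)
    rw [← Real.exp_add]
    exact Real.exp_le_exp.2 (by linarith)
  have hpick : ∀ U, ‖(pickW U).comp ((F.comp P).comp (farP (wMono Mb) (wAxis Mb)))‖
      ≤ Real.exp (-((Mb : ℝ) - 1) * T7) := fun U =>
    (ContinuousLinearMap.opNorm_comp_le _ _).trans
      ((mul_le_mul (norm_pickW_le U) hQ (norm_nonneg _) zero_le_one).trans_eq (one_mul _))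
  refine ⟨h1, h2, hpick _, hpick _, ?_, (ContinuousLinearMap.opNorm_comp_le _ _).trans
    ((mul_le_mul (norm_farP_le _ _) hQ (norm_nonneg _) zero_le_one).trans_eq (one_mul _))⟩
  calc ((wMono Mb).card + (wAxis Mb).card : ℝ) * ‖F.comp P‖
      ≤ Real.exp (T6 / 4) * (Real.exp (E₁ * T6) * Real.exp (E * T6)) :=
        mul_le_mul hcard ((ContinuousLinearMap.opNorm_comp_le _ _).trans
          (mul_le_mul hFn hPn (norm_nonneg _) (Real.exp_pos _).le)) (norm_nonneg _)
          (Real.exp_pos _).le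
    _ ≤ _ := by
        rw [← Real.exp_add, ← Real.exp_add]
        exact Real.exp_le_exp.2 (by linarith)

end

end Vale.Agent.P225
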